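import Mathlib

/-!
# Row 304: PC
A reversible pair chain on `Ω × Ω` (labels `Λ`, an involution `fl` of the labelled pairs, lazy Metropolis acceptance) and the `N`-particle chain built from it.
`keep U ψ` is the conditional expectation given the coordinates in `U`; `H1`, `H2`, `H3` are the Hoeffding components.  DEFINITIONS ONLY; do not edit (message helper44).
-/

set_option autoImplicit false

noncomputable section

namespace Crest.Agent.R304

open Finset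

variable {Ω Λ : Type} [Fintype Ω] [DecidableEq Ω] [Fintype Λ] {N : ℕ}

/-- product weight -/
def W (ρ : Ω → ℝ) (σ : Fin N → Ω) : ℝ := ∏ i, ρ (σ i)

/-- expectation under the product weight -/
def ex (ρ : Ω → ℝ) (F : (Fin N → Ω) → ℝ) : ℝ := ∑ σ, W ρ σ * F σ

/-- a pair chain -/
structure PC (Ω Λ : Type) [Fintype Ω] where
  π : Ω → ℝ
  fl : Λ × Ω × Ω → Λ × Ω × Ω
  pos : ∀ x, 0 < π x
  sum_one : ∑ x, π x = 1
  invol : Function.Involutive fl
  ne : Nonempty Λ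

namespace PC

variable (K : PC Ω Λ)

/-- the proposed pair -/
def mv (l : Λ) (x y : Ω) : Ω × Ω := (K.fl (l, x, y)).2

/-- lazy Metropolis acceptance -/
def acc (l : Λ) (x y : Ω) : ℝ :=
  1 / 2 * min 1 (K.π (K.mv l x y).1 * K.π (K.mv l x y).2 / (K.π x * K.π y))

/-- Dirichlet form of the pair chain -/
def En (h : Ω → Ω → ℝ) : ℝ :=
  (∑ l, ∑ x, ∑ y, K.π x * K.π y * K.acc l x y * (h x y - h (K.mv l x y).1 (K.mv l x y).2) ^ 2) /
    (2 * Fintype.card Λ)

/-- the linear Poincaré inequality -/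
def LI (C : ℝ) : Prop :=
  ∀ f g : Ω → ℝ, ∑ x, K.π x * f x = 0 → ∑ x, K.π x * f x ^ 2 ≤ C * K.En fun x y => f x + g y

/-- the move `l` applied to the particles `i`, `j` -/
def step (i j : Fin N) (l : Λ) (σ : Fin N → Ω) : Fin N → Ω :=
  Function.update (Function.update σ i (K.mv l (σ i) (σ j)).1) j (K.mv l (σ i) (σ j)).2

/-- the `N`-particle operator -/
def P (F : (Fin N → Ω) → ℝ) (σ : Fin N → Ω) : ℝ :=
  (∑ i, ∑ j, ∑ l, if i = j then F σ else
    K.acc l (σ i) (σ j) * F (K.step i j l σ) + (1 - K.acc l (σ i) (σ j)) * F σ) /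
    ((N : ℝ) ^ 2 * Fintype.card Λ)

/-- energy of the pair `i`, `j` -/
def Eij (i j : Fin N) (ψ : (Fin N → Ω) → ℝ) : ℝ :=
  (∑ l, ex K.π fun σ => K.acc l (σ i) (σ j) * (ψ σ - ψ (K.step i j l σ)) ^ 2) / (2 * Fintype.card Λ)

/-- total energy -/
def Etot (ψ : (Fin N → Ω) → ℝ) : ℝ := ∑ i, ∑ j, if i = j then 0 else K.Eij i j ψ

/-- squared norm -/
def nsq (ψ : (Fin N → Ω) → ℝ) : ℝ := ex K.π fun σ => ψ σ ^ 2

/-- conditional expectation given the coordinates in `U` -/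
def keep (U : Finset (Fin N)) (ψ : (Fin N → Ω) → ℝ) (σ : Fin N → Ω) : ℝ :=
  ex K.π fun τ => ψ (U.piecewise σ τ)

def H1 (i : Fin N) (ψ : (Fin N → Ω) → ℝ) : (Fin N → Ω) → ℝ := K.keep {i} ψ - K.keep ∅ ψ

def H2 (i j : Fin N) (ψ : (Fin N → Ω) → ℝ) : (Fin N → Ω) → ℝ :=
  K.keep {i, j} ψ - K.keep {i} ψ - K.keep {j} ψ + K.keep ∅ ψ

def H3 (i j k : Fin N) (ψ : (Fin N → Ω) → ℝ) : (Fin N → Ω) → ℝ :=
  K.keep {i, j, k} ψ - K.keep {i, j} ψ - K.keep {i, k} ψ - K.keep {j, k} ψ +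
    K.keep {i} ψ + K.keep {j} ψ + K.keep {k} ψ - K.keep ∅ ψ

end PC

end Crest.Agent.R304
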