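import Crest.Agent.R304.Defs
import Crest.Agent.R304.PC
import Crest.Agent.R309.Prob
import Crest.Prelude.Def_Matchings

/-!
# Row 304: Alg
The instance and the algorithm.  `n` is the number of vertices of the input graph, `s` a power of two with `3 n² < s` (size parameter).
Vertex `i` is split into the path of nodes `i * (2n) + d`, `d < 2n`.  The edge `e = i * n + j < n²` joins the nodes `(i, j)` and `(j, n + i)`; it is *real* if `i < j`, *virtual* if `j < i` and
a chord if `i = j`.  The edges `e ≥ n²` are the path edges.  The terminals are the nodes `(i, 0)`.  The weight of `e` is `lam s ^ k e`.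
A schedule is a list of pairs `(e, u)`: multiply the weight of `e` by `lam s` (`u = true`) or by its inverse; a macro-step is repeated `pJ s` times (`micro`).
DEFINITIONS ONLY; do not edit (message helper44).
-/

set_option autoImplicit false

noncomputable section

namespace Crest.Agent.R304

open Finset
open Crest.Agent.R309 (avgN avgL Tape digs ind blk)

/-! ## Parameters -/

/-- number of particles -/
def pN (s : ℕ) : ℕ := s ^ 118
/-- `lam = 1 - 1 / pB` -/
def pB (s : ℕ) : ℕ := s ^ 256
/-- chain steps per micro-step -/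
def pMix (s : ℕ) : ℕ := s ^ 354
/-- micro-steps per macro-step -/
def pJ (s : ℕ) : ℕ := s ^ 251
/-- final exponent of an edge of the graph -/
def pK (s : ℕ) : ℕ := 2 * s ^ 257
/-- number of stages -/
def pT (s : ℕ) : ℕ := s ^ 12
/-- largest exponent of a coin -/
def pD (s : ℕ) : ℕ := s ^ 259
/-- the random numbers are uniform below `pBs` -/
def pBs (s : ℕ) : ℕ := 2 * pB s ^ pD s
/-- random numbers per micro-step -/
def pL0 (s : ℕ) : ℕ := pMix s * 20
/-- random numbers per run -/
def pL1 (s : ℕ) : ℕ := pN s + pT s * pJ s * pL0 s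
/-- random numbers per estimate -/
def pL2 (s : ℕ) : ℕ := (pT s + 1) * pL1 s
/-- random numbers in total -/
def pL3 (s : ℕ) : ℕ := s ^ 2 * pL2 s

/-- standing hypotheses -/
structure Par (n s : ℕ) : Prop where
  s_ge : 1024 ≤ s
  s_pow : ∃ a, s = 2 ^ a
  n_ge : 2 ≤ n
  n_even : Even n
  n_lt : 3 * n * n < s

/-! ## The graph -/

/-- number of edges -/
def mE (n : ℕ) : ℕ := n * n + n * (2 * n - 1)
/-- number of nodes -/
def nV (n : ℕ) : ℕ := n * (2 * n)

def srcN (n e : ℕ) : ℕ :=
  if e < n * n then e / n * (2 * n) + e % n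
  else (e - n * n) / (2 * n - 1) * (2 * n) + (e - n * n) % (2 * n - 1)

def tgtN (n e : ℕ) : ℕ := if e < n * n then e % n * (2 * n) + (n + e / n) else srcN n e + 1

def isReal (n e : ℕ) : Bool := decide (e < n * n) && decide (e / n < e % n)
def isVirt (n e : ℕ) : Bool := decide (e < n * n) && decide (e % n < e / n)

/-- the path edges of the vertex `i` between the slots `d` and `d'` -/
def segB (n i d d' e : ℕ) : Bool :=
  decide (n * n ≤ e) && decide ((e - n * n) / (2 * n - 1) = i) &&
    decide (min d d' ≤ (e - n * n) % (2 * n - 1)) && decide ((e - n * n) % (2 * n - 1) < max d d')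

/-- slot at the vertex `i` of the virtual edge to `j` -/
def dart (n i j : ℕ) : ℕ := if j < i then j else n + j
/-- the virtual edge between the vertices `i ≠ j` -/
def vE (n i j : ℕ) : ℕ := max i j * n + min i j
/-- the real edge parallel to the virtual edge `e` -/
def rE (n e : ℕ) : ℕ := e % n * n + e / n

/-- the connection between the nodes `u` and `v` -/
def cB (n u v e : ℕ) : Bool :=
  if u / (2 * n) = v / (2 * n) then segB n (u / (2 * n)) (u % (2 * n)) (v % (2 * n)) e
  else xor (xor (segB n (u / (2 * n)) (u % (2 * n)) (dart n (u / (2 * n)) (v / (2 * n))) e)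
    (decide (e = vE n (u / (2 * n)) (v / (2 * n)))))
    (segB n (v / (2 * n)) (v % (2 * n)) (dart n (v / (2 * n)) (u / (2 * n))) e)

/-- terminals -/
def tB (n v : ℕ) : Bool := decide (v < nV n) && decide (v % (2 * n) = 0)

def incB (n e v : ℕ) : Bool := decide (srcN n e = v) || decide (tgtN n e = v)

def adjB (tab : List (List Bool)) (i j : ℕ) : Bool := (tab.getD i []).getD j false

/-! ## The chain on lists -/

def mk (n : ℕ) (p : ℕ → Bool) : List Bool := (List.range (mE n)).map p
def bt (X : List Bool) (e : ℕ) : Bool := X.getD e false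

def growL (n : ℕ) (S C : List Bool) : List Bool :=
  mk n fun e => bt S e && (List.range (mE n)).any fun e' =>
    bt C e' && (incB n e' (srcN n e) || incB n e' (tgtN n e))

def compL (n h : ℕ) (S : List Bool) : List Bool :=
  (growL n S)^[mE n] (mk n fun e => decide (e = h) && bt S e)

/-- parity of the degree -/
def degB (n : ℕ) (X : List Bool) (v : ℕ) : Bool :=
  decide (((List.range (mE n)).countP fun e => bt X e && incB n e v) % 2 = 1)

def okL (n : ℕ) (X : List Bool) : Bool := (List.range (nV n)).all fun v => degB n X v == tB n v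

def inR (g : List ℕ) (e : ℕ) : Bool :=
  decide (e = g.getD 8 0) || decide (e = g.getD 9 0) || decide (e = g.getD 10 0) || decide (e = g.getD 11 0)
def inR1 (g : List ℕ) (e : ℕ) : Bool := inR g e && (decide (e = g.getD 12 0) || decide (e = g.getD 13 0))
def inR2 (g : List ℕ) (e : ℕ) : Bool := inR g e && (decide (e = g.getD 14 0) || decide (e = g.getD 15 0))
/-- the connection number `t` of the label `g` -/
def cG (n : ℕ) (g : List ℕ) (t e : ℕ) : Bool := cB n (g.getD (2 * t) 0) (g.getD (2 * t + 1) 0) e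

def swL (n : ℕ) (g : List ℕ) (X Y : List Bool) : List Bool :=
  compL n (g.getD 16 0)
    (mk n fun e => xor (xor (bt X e) (cG n g 0 e)) (xor (bt Y e) (cG n g 1 e)) && !inR g e)

/-- flip `X` by the connection `t`, the component `S`, the set `r` and the connection `t + 2` -/
def flipL (n : ℕ) (g : List ℕ) (t : ℕ) (r : ℕ → Bool) (X S : List Bool) : List Bool :=
  mk n fun e => xor (xor (xor (xor (bt X e) (cG n g t e)) (bt S e)) (r e)) (cG n g (t + 2) e)

def mv1L (n : ℕ) (g : List ℕ) (X Y : List Bool) : List Bool := flipL n g 0 (inR1 g) X (swL n g X Y)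
def mv2L (n : ℕ) (g : List ℕ) (X Y : List Bool) : List Bool := flipL n g 1 (inR2 g) Y (swL n g X Y)

/-- total exponent -/
def kS (n : ℕ) (k : List ℤ) (X : List Bool) : ℤ :=
  ((List.range (mE n)).map fun e => if bt X e then k.getD e 0 else 0).sum

/-- a coin of bias `lam ^ Δ / 2` -/
def coin (s Δ u : ℕ) : Bool := decide (u < (pB s - 1) ^ min Δ (pD s) * pB s ^ (pD s - Δ))

/-- the label read from a block of the tape -/
def labOf (s : ℕ) (us : List ℕ) : List ℕ := (List.range 17).map fun t => us.getD (t + 2) 0 % s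

/-- try the move `g` on the particles `i`, `j` -/
def tryL (n s : ℕ) (k : List ℤ) (pop : List (List Bool)) (i j : ℕ) (g : List ℕ) (u : ℕ) : List (List Bool) :=
  if i ≠ j ∧ okL n (mv1L n g (pop.getD i []) (pop.getD j [])) = true ∧
      okL n (mv2L n g (pop.getD i []) (pop.getD j [])) = true ∧
      coin s (kS n k (mv1L n g (pop.getD i []) (pop.getD j [])) + kS n k (mv2L n g (pop.getD i []) (pop.getD j [])) -
        kS n k (pop.getD i []) - kS n k (pop.getD j [])).toNat u = true
  then (pop.set i (mv1L n g (pop.getD i []) (pop.getD j []))).set j (mv2L n g (pop.getD i []) (pop.getD j []))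
  else pop

/-- one step of the particle chain; uses twenty random numbers -/
def stepL (n s : ℕ) (k : List ℤ) (pop : List (List Bool)) (us : List ℕ) : List (List Bool) :=
  tryL n s k pop (us.getD 0 0 % pN s) (us.getD 1 0 % pN s) (labOf s us) (us.getD 19 0)

/-- `t` steps of the particle chain -/
def runS (n s : ℕ) (k : List ℤ) (t : ℕ) (pop : List (List Bool)) (us : List ℕ) : List (List Bool) :=
  (List.range t).foldl (fun pop j => stepL n s k pop (blk 20 j us)) pop

/-- repair `B` to a `T`-join -/
def fixL (n : ℕ) (B : List Bool) : List Bool :=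
  mk n fun e => xor (bt B e)
    (decide (((List.range (nV n)).countP fun v => (degB n B v != tB n v) && cB n v 0 e) % 2 = 1))

def initL (n u : ℕ) : List Bool := fixL n (mk n fun e => u.testBit e)

def pop0 (n s : ℕ) (us : List ℕ) : List (List Bool) := (List.range (pN s)).map fun i => initL n (us.getD i 0)

/-- exponents after the steps `μ` -/
def kF (μ : List (ℕ × Bool)) (e : ℕ) : ℤ := (μ.count (e, true) : ℤ) - μ.count (e, false)

def kL (n : ℕ) (μ : List (ℕ × Bool)) : List ℤ := (List.range (mE n)).map (kF μ)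

/-- follow the first `t` micro-steps of `μ` -/
def runMu (n s : ℕ) (μ : List (ℕ × Bool)) (t : ℕ) (us : List ℕ) : List (List Bool) :=
  (List.range t).foldl
    (fun pop j => runS n s (kL n (μ.take (j + 1))) (pMix s) pop (blk (pL0 s) j (us.drop (pN s)))) (pop0 n s us)

def micro (s : ℕ) (sch : List (ℕ × Bool)) : List (ℕ × Bool) := sch.flatMap fun p => List.replicate (pJ s) p

/-- a fresh population for the schedule `sch` -/
def run (n s : ℕ) (sch : List (ℕ × Bool)) (us : List ℕ) : List (List Bool) :=
  runMu n s (micro s sch) (micro s sch).length us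

/-! ## The controller -/

def cntE (pop : List (List Bool)) (e : ℕ) : ℕ := pop.countP fun X => bt X e

def hiB (s c : ℕ) : Bool := decide (pN s * (s ^ 3 + 8) < c * (8 * s ^ 4))
def loB (s c : ℕ) : Bool := decide (c * (8 * s ^ 4) + 8 * pN s < pN s * s ^ 3)

/-- final exponent -/
def tgtK (n s : ℕ) (tab : List (List Bool)) (e : ℕ) : ℕ :=
  if isReal n e then (if adjB tab (e / n) (e % n) then pK s else 2 * pK s) else 0

/-- the next macro-step -/
def nxt (n s : ℕ) (tab : List (List Bool)) (sch : List (ℕ × Bool)) (pop : List (List Bool)) : Option (ℕ × Bool) :=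
  ((List.range (mE n)).find? fun e => isVirt n e && (hiB s (cntE pop e) || loB s (cntE pop e))).elim
    (((List.range (mE n)).find? fun e =>
      isReal n e && decide (pJ s * sch.count (e, true) < tgtK n s tab e)).map fun e => (e, true))
    fun e => some (e, hiB s (cntE pop e))

def facN (s c : ℕ) (u : Bool) : ℕ :=
  if u then (pN s - c) * pB s ^ pJ s + c * (pB s - 1) ^ pJ s
  else (pN s - c) * (pB s - 1) ^ pJ s + c * pB s ^ pJ s

def facD (s : ℕ) (u : Bool) : ℕ := pN s * if u then pB s ^ pJ s else (pB s - 1) ^ pJ s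

/-- state of the controller: schedule, numerator, denominator, finished -/
abbrev CS : Type := List (ℕ × Bool) × ℕ × ℕ × Bool

/-- update of the controller from a population -/
def upd (n s : ℕ) (tab : List (List Bool)) (st : CS) (pop : List (List Bool)) : CS :=
  (nxt n s tab st.1 pop).elim (st.1, st.2.1, st.2.2.1, true) fun p =>
    (st.1 ++ [p], st.2.1 * facN s (cntE pop p.1) p.2, st.2.2.1 * facD s p.2, false)

def stage (n s : ℕ) (tab : List (List Bool)) (st : CS) (us : List ℕ) : CS :=
  if st.2.2.2 = true then st else upd n s tab st (run n s st.1 us)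

def stages (n s : ℕ) (tab : List (List Bool)) (t : ℕ) (us : List ℕ) : CS :=
  (List.range t).foldl (fun st j => stage n s tab st (blk (pL1 s) j us)) ([], 1, 1, false)

/-- the state is a perfect matching of the input graph (plus chords and path edges) -/
def pmB (n : ℕ) (tab : List (List Bool)) (X : List Bool) : Bool :=
  ((List.range (n * n)).all fun e =>
    !bt X e || decide (e / n = e % n) || (isReal n e && adjB tab (e / n) (e % n))) &&
  (List.range n).all fun i => decide (((List.range (n * n)).countP fun e =>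
    bt X e && isReal n e && (decide (e / n = i) || decide (e % n = i))) = 1)

/-- nearest natural number to `p / q` -/
def rnd (p q : ℕ) : ℕ := (2 * p + q) / (2 * q)

def outN (n s : ℕ) (st : CS) (c : ℕ) : ℕ :=
  rnd (2 ^ (mE n + 1 - nV n) * st.2.1 * c * pB s ^ (pK s * (n / 2)))
    (st.2.2.1 * pN s * 2 ^ n * (pB s - 1) ^ (pK s * (n / 2)))

/-- the estimate from a final controller state and a block of the tape -/
def estOf (n s : ℕ) (tab : List (List Bool)) (st : CS) (us : List ℕ) : ℕ :=
  outN n s st ((run n s st.1 us).countP (pmB n tab))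

/-- one estimate -/
def est (n s : ℕ) (tab : List (List Bool)) (us : List ℕ) : ℕ :=
  estOf n s tab (stages n s tab (pT s) us) (blk (pL1 s) (pT s) us)

/-- a median -/
def med (l : List ℕ) : ℕ :=
  (l.find? fun z => decide (l.length ≤ 2 * l.countP fun w => decide (w ≤ z)) &&
    decide (l.length ≤ 2 * l.countP fun w => decide (z ≤ w))).getD 0

/-- the algorithm -/
def alg (n s : ℕ) (tab : List (List Bool)) (us : List ℕ) : ℕ :=
  if n = 0 then 1 else med ((List.range (s ^ 2)).map fun j => est n s tab (blk (pL2 s) j us))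

/-! ## Link to the theory -/

def gr (n : ℕ) : Gr (Fin (mE n)) ℕ := ⟨fun e => srcN n e, fun e => tgtN n e⟩

def TT (n : ℕ) : ℕ → ZMod 2 := fun v => if tB n v then 1 else 0

def lam (s : ℕ) : ℝ := 1 - 1 / (pB s : ℝ)

def mdl (n s : ℕ) (k : ℕ → ℤ) : Model (Fin (mE n)) ℕ := ⟨gr n, fun e => lam s ^ k e, TT n⟩

def fs (n : ℕ) (p : ℕ → Bool) : Finset (Fin (mE n)) := univ.filter fun e => p e = true

def cc (n u v : ℕ) : Finset (Fin (mE n)) := fs n (cB n u v)

def memB {m : ℕ} (X : Finset (Fin m)) (e : ℕ) : Bool := decide (∃ a ∈ X, a.val = e)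

def toL (n : ℕ) (X : Finset (Fin (mE n))) : List Bool := mk n (memB X)

/-- the move with the label `g` -/
def mvOf (n : ℕ) (g : List ℕ) : Mv (Fin (mE n)) :=
  ⟨⟨fs n (inR g), fs n (inR1 g), fs n (inR2 g), fs n fun e => decide (e = g.getD 16 0)⟩,
    fs n (cG n g 0), fs n (cG n g 1), fs n (cG n g 2), fs n (cG n g 3)⟩

/-- the `T`-joins -/
def St (n : ℕ) : Type := {X : Finset (Fin (mE n)) // (gr n).bd X = TT n}

instance (n : ℕ) : Fintype (St n) := by unfold St; classical exact Subtype.fintype _
instance (n : ℕ) : DecidableEq (St n) := by unfold St; infer_instance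

/-- labels -/
abbrev Lab (s : ℕ) : Type := Fin 17 → Fin s

def labL {s : ℕ} (l : Lab s) : List ℕ := List.ofFn fun t => (l t).val

def swapIdx : Fin 17 → Fin 17 := ![4, 5, 6, 7, 0, 1, 2, 3, 8, 9, 10, 11, 12, 13, 14, 15, 16]

open Classical in
/-- the involution of the labelled pairs -/
def flip (n s : ℕ) (q : Lab s × St n × St n) : Lab s × St n × St n :=
  if h : (gr n).bd ((gr n).mv1 (mvOf n (labL q.1)) q.2.1.1 q.2.2.1) = TT n ∧
      (gr n).bd ((gr n).mv2 (mvOf n (labL q.1)) q.2.1.1 q.2.2.1) = TT n
  then (q.1 ∘ swapIdx, ⟨_, h.1⟩, ⟨_, h.2⟩) else q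

/-- the Gibbs law -/
def piS (n s : ℕ) (k : ℕ → ℤ) (X : St n) : ℝ := (mdl n s k).pi 0 X.1

/-- the population of a configuration -/
def emb (n : ℕ) {N : ℕ} (σ : Fin N → St n) : List (List Bool) := List.ofFn fun i => toL n (σ i).1

/-- partition function -/
def ZZ (n s : ℕ) (k : ℕ → ℤ) : ℝ := (mdl n s k).Z 0

/-- probability of an event -/
def prB (n s : ℕ) (k : ℕ → ℤ) (p : List Bool → Bool) : ℝ :=
  ∑ X : St n, piS n s k X * ind (p (toL n X.1) = true)

/-- marginal of the edge `e` -/
def pm (n s : ℕ) (k : ℕ → ℤ) (e : ℕ) : ℝ := prB n s k fun X => bt X e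

/-- add `j` to the exponent of `e` -/
def addK (k : ℕ → ℤ) (e : ℕ) (j : ℤ) : ℕ → ℤ := fun e' => if e' = e then k e' + j else k e'

/-- the exponents of a schedule -/
def kOf (s : ℕ) (sch : List (ℕ × Bool)) : ℕ → ℤ := kF (micro s sch)

/-- exponents for which the chain works -/
structure Good (n s : ℕ) (k : ℕ → ℤ) : Prop where
  zero : ∀ e, isReal n e = false → isVirt n e = false → k e = 0
  le : ∀ e, |k e| ≤ (6 * s * pB s : ℕ)
  lo : ∀ e, isVirt n e = true → 1 / (64 * (s : ℝ)) ≤ pm n s k e
  hi : ∀ e, isVirt n e = true → 1 / (64 * (s : ℝ)) ≤ 1 - pm n s k e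

/-- all intermediate exponents are good -/
def Path (n s : ℕ) (μ : List (ℕ × Bool)) : Prop := ∀ j ≤ μ.length, Good n s (kF (μ.take j))

/-- the potential -/
def Phi (n s : ℕ) (k : ℕ → ℤ) : ℝ :=
  Real.log (ZZ n s k) - 1 / (8 * (s : ℝ)) *
    ∑ e ∈ (range (mE n)).filter (fun e => isVirt n e = true), (k e : ℝ) * Real.log (lam s)

/-- `Phi k` is within `γ` of its minimum over the virtual exponents in a box -/
def Gap (n s : ℕ) (k : ℕ → ℤ) (γ : ℝ) : Prop :=
  ∀ k' : ℕ → ℤ, (∀ e, isVirt n e = false → k' e = k e) → (∀ e, isVirt n e = true → |k' e| ≤ (6 * s * pB s : ℕ)) →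
    Phi n s k ≤ Phi n s k' + γ

/-- invariant of the exponents -/
structure Inv (n s : ℕ) (k : ℕ → ℤ) : Prop where
  zero : ∀ e, isReal n e = false → isVirt n e = false → k e = 0
  real : ∀ e, isReal n e = true → 0 ≤ k e ∧ k e ≤ (2 * pK s : ℕ)
  virt : ∀ e, isVirt n e = true → |k e| ≤ (5 * s * pB s : ℕ)
  phase : ((∀ e, isReal n e = true → k e = 0) ∧
      ∀ e, isVirt n e = true → 0 ≤ k e ∧ 1 / (16 * (s : ℝ)) ≤ lam s ^ k e) ∨
    Gap n s k (1 / (16 * (s : ℝ)))

/-- the population estimates all marginals and the probability of a perfect matching -/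
def Acc (n s : ℕ) (tab : List (List Bool)) (k : ℕ → ℤ) (pop : List (List Bool)) : Prop :=
  pop.length = pN s ∧ (∀ e < mE n, |(cntE pop e : ℝ) / pN s - pm n s k e| ≤ 1 / (s : ℝ) ^ 9) ∧
    |(pop.countP (pmB n tab) : ℝ) / pN s - prB n s k (pmB n tab)| ≤ 1 / (s : ℝ) ^ 9

/-- remaining macro-steps on real edges -/
def remX (n s : ℕ) (tab : List (List Bool)) (sch : List (ℕ × Bool)) : ℝ :=
  ∑ e ∈ (range (mE n)).filter (fun e => isReal n e = true),
    ((tgtK n s tab e : ℝ) / pJ s - sch.count (e, true))

/-- the final exponents -/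
structure Fin' (n s : ℕ) (tab : List (List Bool)) (k : ℕ → ℤ) : Prop where
  zero : ∀ e, isReal n e = false → isVirt n e = false → k e = 0
  real : ∀ e, isReal n e = true → k e = tgtK n s tab e
  virt : ∀ e, isVirt n e = true → pm n s k e ≤ 1 / (4 * (s : ℝ))

/-- invariant of the controller after `t` stages -/
structure SInv (n s : ℕ) (tab : List (List Bool)) (t : ℕ) (st : CS) : Prop where
  len : st.1.length ≤ t
  inv : Inv n s (kOf s st.1)
  path : Path n s (micro s st.1)
  real : ∀ e, isReal n e = true → st.1.count (e, false) = 0 ∧ pJ s * st.1.count (e, true) ≤ tgtK n s tab e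
  den : 0 < st.2.2.1
  lo : (1 - 5 / (s : ℝ) ^ 14) ^ t * (ZZ n s (kOf s st.1) / ZZ n s 0) ≤ (st.2.1 : ℝ) / st.2.2.1
  hi : (st.2.1 : ℝ) / st.2.2.1 ≤ (1 + 5 / (s : ℝ) ^ 14) ^ t * (ZZ n s (kOf s st.1) / ZZ n s 0)
  pot : st.2.2.2 = false → 4 * (s : ℝ) ^ 9 * Phi n s (kOf s st.1) + remX n s tab st.1 + t ≤
    4 * (s : ℝ) ^ 9 * Phi n s 0 + remX n s tab []
  fin : st.2.2.2 = true → Fin' n s tab (kOf s st.1)

/-- the adjacency table of `G` -/
def TabOf {n : ℕ} (G : SimpleGraph (Fin n)) (tab : List (List Bool)) : Prop :=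
  ∀ i j : Fin n, adjB tab i j = true ↔ G.Adj i j

/-- `z` approximates `N` within the relative error `1 / s` -/
def Near (s N z : ℕ) : Prop := (1 - 1 / (s : ℝ)) * N ≤ z ∧ (z : ℝ) ≤ (1 + 1 / (s : ℝ)) * N

end Crest.Agent.R304
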