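import Crest.Agent.R304.PC

/-!
# Row 304: Avg
Product measures and conditional expectations on `Fin N → Ω`.
* `ex_one`: `Finset.prod_univ_sum` / `Fintype.piFinset_univ`.  `ex_swap`: `(σ, τ) ↦ (U.piecewise σ τ, U.piecewise τ σ)` is a weight-preserving involution; `ex_keep`, `keep_adj`, `keep_keep` follow.
* `ex_update`: `(σ, x) ↦ (update σ i x, σ i)` is a weight-preserving involution.
* `avg_keep`: `∑ x, π x * keep U ψ (update σ i x) = keep (U.erase i) ψ σ`.
* `bessel3`: `H3 i j k` is symmetric in `i j k`, `ex (H3 i j k ψ * ψ) = nsq (H3 i j k ψ)`, and `ex (H3 i j k ψ * H3 i' j' k' ψ) = 0` if `{i,j,k} ≠ {i',j',k'}` (some index `a` of the first triple is missing in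
  the second: the second factor does not depend on `σ a`, the first has `σ a`-average `0`; `ex_update`, `avg_keep`, `keep_update`).  With `χ = ∑ H3` over ordered distinct triples:
  `A = ex (χ ψ)`, `nsq χ ≤ 6 A` (at most six ordered triples have a given set; `2 |a b| ≤ a^2 + b^2`), Cauchy-Schwarz `A^2 ≤ nsq χ * nsq ψ`.
* `first_order`: `ex (v (σ i) * ψ σ) = ex (v (σ i) * H1 i ψ σ)` (`keep_adj`; `keep ∅ ψ` is constant and `v` has mean zero), Cauchy-Schwarz twice.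
* `prod_sub_le`: induction on the index set: `|∏ (1 + v) - 1 - ∑ v| ≤ (1 + δ)^n - 1 - n δ ≤ (n δ)^2` for `n δ ≤ 1` (`Real.abs_exp_sub_one_sub_id_le`).
-/

set_option autoImplicit false
set_option linter.unusedSectionVars false

noncomputable section

namespace Crest.Agent.R304

open Finset

variable {Ω Λ : Type} [Fintype Ω] [DecidableEq Ω] [Fintype Λ] {N : ℕ}

theorem W_nonneg {ρ : Ω → ℝ} (h : ∀ x, 0 ≤ ρ x) (σ : Fin N → Ω) : 0 ≤ W ρ σ := by
  exact Finset.prod_nonneg fun i _ => h _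

theorem ex_const {ρ : Ω → ℝ} (h : ∑ x, ρ x = 1) (c : ℝ) : ex ρ (fun _ : Fin N → Ω => c) = c := by
  have h1 : ∑ σ : Fin N → Ω, W ρ σ = 1 := by
    have := Finset.prod_univ_sum (fun _ : Fin N => (univ : Finset Ω)) fun _ x => ρ x
    rw [Fintype.piFinset_univ] at this
    unfold W
    rw [← this]
    simp [h]
  unfold ex
  rw [← Finset.sum_mul, h1, one_mul]

theorem ex_add (ρ : Ω → ℝ) (F G : (Fin N → Ω) → ℝ) : ex ρ (fun σ => F σ + G σ) = ex ρ F + ex ρ G := by
  simp only [ex, mul_add, Finset.sum_add_distrib]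

theorem ex_sub (ρ : Ω → ℝ) (F G : (Fin N → Ω) → ℝ) : ex ρ (fun σ => F σ - G σ) = ex ρ F - ex ρ G := by
  simp only [ex, mul_sub, Finset.sum_sub_distrib]

theorem ex_mul_left (ρ : Ω → ℝ) (c : ℝ) (F : (Fin N → Ω) → ℝ) : ex ρ (fun σ => c * F σ) = c * ex ρ F := by
  simp only [ex, Finset.mul_sum]
  exact Finset.sum_congr rfl fun σ _ => by ring

theorem ex_sum {ι : Type} (ρ : Ω → ℝ) (t : Finset ι) (F : ι → (Fin N → Ω) → ℝ) :
    ex ρ (fun σ => ∑ a ∈ t, F a σ) = ∑ a ∈ t, ex ρ (F a) := by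
  simp only [ex, Finset.mul_sum]
  exact Finset.sum_comm

theorem ex_mono {ρ : Ω → ℝ} (h : ∀ x, 0 ≤ ρ x) {F G : (Fin N → Ω) → ℝ} (hFG : ∀ σ, F σ ≤ G σ) :
    ex ρ F ≤ ex ρ G := by
  exact Finset.sum_le_sum fun σ _ => mul_le_mul_of_nonneg_left (hFG σ) (W_nonneg h σ)

theorem ex_mul_sq_le {ρ : Ω → ℝ} (h : ∀ x, 0 ≤ ρ x) (F G : (Fin N → Ω) → ℝ) :
    (ex ρ fun σ => F σ * G σ) ^ 2 ≤ (ex ρ fun σ => F σ ^ 2) * ex ρ fun σ => G σ ^ 2 := by
  unfold ex
  exact Finset.sum_sq_le_sum_mul_sum_of_sq_le_mul _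
    (fun σ _ => mul_nonneg (W_nonneg h σ) (sq_nonneg _))
    (fun σ _ => mul_nonneg (W_nonneg h σ) (sq_nonneg _)) fun σ _ => le_of_eq (by ring)

theorem ex_update {ρ : Ω → ℝ} (h : ∑ x, ρ x = 1) (i : Fin N) (F : (Fin N → Ω) → ℝ) :
    ex ρ F = ex ρ fun σ => ∑ x, ρ x * F (Function.update σ i x) := by
  have hW : ∀ (σ : Fin N → Ω) (x : Ω), W ρ (Function.update σ i x) * ρ (σ i) = W ρ σ * ρ x := by
    intro σ x
    unfold W
    rw [← Finset.mul_prod_erase _ _ (Finset.mem_univ i),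
      ← Finset.mul_prod_erase _ (fun j => ρ (σ j)) (Finset.mem_univ i), Function.update_self,
      Finset.prod_congr rfl fun j hj => by rw [Function.update_of_ne (Finset.ne_of_mem_erase hj)]]
    ring
  have hinv : Function.Involutive fun p : (Fin N → Ω) × Ω => (Function.update p.1 i p.2, p.1 i) := by
    rintro ⟨σ, x⟩
    simp
  have h1 := Equiv.sum_comp hinv.toPerm fun p : (Fin N → Ω) × Ω => W ρ p.1 * ρ p.2 * F p.1
  rw [Fintype.sum_prod_type, Fintype.sum_prod_type] at h1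
  simp only [Function.Involutive.coe_toPerm, hW] at h1
  unfold ex
  calc ∑ σ, W ρ σ * F σ = ∑ σ : Fin N → Ω, ∑ x, W ρ σ * ρ x * F σ := by
        refine Finset.sum_congr rfl fun σ _ => ?_
        rw [← Finset.sum_mul, ← Finset.mul_sum, h, mul_one]
    _ = _ := by
        rw [← h1]
        refine Finset.sum_congr rfl fun σ _ => ?_
        rw [Finset.mul_sum]
        exact Finset.sum_congr rfl fun x _ => by ring

theorem ex_coord {ρ : Ω → ℝ} (h : ∑ x, ρ x = 1) (i : Fin N) (v : Ω → ℝ) :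
    ex ρ (fun σ : Fin N → Ω => v (σ i)) = ∑ x, ρ x * v x := by
  rw [ex_update h i]
  simp only [Function.update_self]
  exact ex_const h _

theorem ex_swap (ρ : Ω → ℝ) (U : Finset (Fin N)) (F : (Fin N → Ω) → (Fin N → Ω) → ℝ) :
    ex ρ (fun σ => ex ρ fun τ => F (U.piecewise σ τ) (U.piecewise τ σ)) = ex ρ fun σ => ex ρ fun τ => F σ τ := by
  have hW : ∀ σ τ : Fin N → Ω, W ρ (U.piecewise σ τ) * W ρ (U.piecewise τ σ) = W ρ σ * W ρ τ := by
    intro σ τ
    unfold W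
    rw [← Finset.prod_mul_distrib, ← Finset.prod_mul_distrib]
    refine Finset.prod_congr rfl fun j _ => ?_
    by_cases hj : j ∈ U
    · simp [Finset.piecewise, hj]
    · simp [Finset.piecewise, hj, mul_comm]
  have hinv : Function.Involutive fun p : (Fin N → Ω) × (Fin N → Ω) =>
      (U.piecewise p.1 p.2, U.piecewise p.2 p.1) := by
    rintro ⟨σ, τ⟩
    refine Prod.ext ?_ ?_ <;> funext j <;> by_cases hj : j ∈ U <;> simp [Finset.piecewise, hj]
  have h1 := Equiv.sum_comp hinv.toPerm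
    fun p : (Fin N → Ω) × (Fin N → Ω) => W ρ p.1 * W ρ p.2 * F p.1 p.2
  rw [Fintype.sum_prod_type, Fintype.sum_prod_type] at h1
  simp only [Function.Involutive.coe_toPerm, hW] at h1
  simp only [ex, Finset.mul_sum, ← mul_assoc]
  exact h1

theorem prod_sub_le (v : Fin N → ℝ) {δ : ℝ} (hv : ∀ i, |v i| ≤ δ) (hδ : N * δ ≤ 1) :
    |∏ i, (1 + v i) - 1 - ∑ i, v i| ≤ (N * δ) ^ 2 := by
  rcases Nat.eq_zero_or_pos N with rfl | hN
  · simp
  have hδ0 : 0 ≤ δ := (abs_nonneg _).trans (hv ⟨0, hN⟩)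
  have key : ∀ s : Finset (Fin N), |∑ i ∈ s, v i| ≤ s.card * δ ∧
      |∏ i ∈ s, (1 + v i) - 1 - ∑ i ∈ s, v i| ≤ (1 + δ) ^ s.card - 1 - s.card * δ := by
    intro s
    induction s using Finset.induction_on with
    | empty => simp
    | insert a s ha ih =>
      obtain ⟨ih1, ih2⟩ := ih
      rw [Finset.sum_insert ha, Finset.prod_insert ha, Finset.card_insert_of_notMem ha]
      push_cast
      refine ⟨(abs_add_le _ _).trans (by linarith [hv a]), ?_⟩
      have e : (1 + v a) * ∏ i ∈ s, (1 + v i) - 1 - (v a + ∑ i ∈ s, v i) =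
          (∏ i ∈ s, (1 + v i) - 1 - ∑ i ∈ s, v i) * (1 + v a) + (∑ i ∈ s, v i) * v a := by ring
      have h1 : |1 + v a| ≤ 1 + δ := (abs_add_le _ _).trans (by rw [abs_one]; linarith [hv a])
      have h2 := mul_le_mul ih2 h1 (abs_nonneg _) ((abs_nonneg _).trans ih2)
      have h3 := mul_le_mul ih1 (hv a) (abs_nonneg _) ((abs_nonneg _).trans ih1)
      rw [e]
      refine (abs_add_le _ _).trans ?_
      rw [abs_mul, abs_mul, pow_succ]
      linarith
  have h1 := (key univ).2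
  rw [Finset.card_univ, Fintype.card_fin] at h1
  have h2 : (1 + δ) ^ N ≤ Real.exp (N * δ) := by
    rw [Real.exp_nat_mul]
    exact pow_le_pow_left₀ (by linarith) (by linarith [Real.add_one_le_exp δ]) N
  have h3 := Real.abs_exp_sub_one_sub_id_le (x := N * δ)
    (by rw [abs_of_nonneg (by positivity)]; exact hδ)
  linarith [le_abs_self (Real.exp (N * δ) - 1 - N * δ)]

theorem Avg_perm {a b c i j k : Fin N} (hab : a ≠ b) (hac : a ≠ c) (hbc : b ≠ c)
    (ha : a ∈ ({i, j, k} : Finset (Fin N))) (hb : b ∈ ({i, j, k} : Finset (Fin N)))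
    (hc : c ∈ ({i, j, k} : Finset (Fin N))) :
    (a, b, c) ∈ ({(i, j, k), (i, k, j), (j, i, k), (j, k, i), (k, i, j), (k, j, i)} :
      Finset (Fin N × Fin N × Fin N)) := by
  simp only [Finset.mem_insert, Finset.mem_singleton, Prod.mk.injEq] at ha hb hc ⊢
  rcases ha with rfl | rfl | rfl <;> rcases hb with rfl | rfl | rfl <;>
    rcases hc with rfl | rfl | rfl <;> first | contradiction | simp

namespace PC

variable (K : PC Ω Λ)

theorem nsq_nonneg (ψ : (Fin N → Ω) → ℝ) : 0 ≤ K.nsq ψ := by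
  exact Finset.sum_nonneg fun σ _ => mul_nonneg (W_nonneg (fun x => (K.pos x).le) σ) (sq_nonneg _)

theorem ex_keep (U : Finset (Fin N)) (ψ : (Fin N → Ω) → ℝ) : ex K.π (K.keep U ψ) = ex K.π ψ := by
  have h := ex_swap K.π U fun a _ => ψ a
  simp only [ex_const K.sum_one] at h
  exact h

theorem keep_update {U : Finset (Fin N)} {i : Fin N} (hi : i ∉ U) (ψ : (Fin N → Ω) → ℝ) (σ : Fin N → Ω) (x : Ω) :
    K.keep U ψ (Function.update σ i x) = K.keep U ψ σ := by
  unfold keep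
  congr 1
  funext τ
  congr 1
  funext j
  by_cases hj : j ∈ U
  · have : j ≠ i := fun e => hi (e ▸ hj)
    simp [Finset.piecewise, hj, Function.update_of_ne this]
  · simp [Finset.piecewise, hj]

theorem avg_keep (U : Finset (Fin N)) (i : Fin N) (ψ : (Fin N → Ω) → ℝ) (σ : Fin N → Ω) :
    ∑ x, K.π x * K.keep U ψ (Function.update σ i x) = K.keep (U.erase i) ψ σ := by
  by_cases hi : i ∈ U
  · unfold keep
    rw [ex_update K.sum_one i, ex_sum]
    refine Finset.sum_congr rfl fun x _ => ?_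
    rw [ex_mul_left]
    congr 2
    funext τ
    congr 1
    funext j
    by_cases hji : j = i
    · subst hji
      simp [Finset.piecewise, hi]
    · by_cases hj : j ∈ U <;> simp [Finset.piecewise, hj, hji]
  · simp only [K.keep_update hi, Finset.erase_eq_of_notMem hi]
    rw [← Finset.sum_mul, K.sum_one, one_mul]

theorem keep_adj (U : Finset (Fin N)) (φ ψ : (Fin N → Ω) → ℝ) :
    ex K.π (fun σ => φ σ * K.keep U ψ σ) = ex K.π fun σ => K.keep U φ σ * ψ σ := by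
  have h := ex_swap K.π U fun a b => φ a * ψ (U.piecewise a b)
  have e : ∀ σ τ : Fin N → Ω, U.piecewise (U.piecewise σ τ) (U.piecewise τ σ) = σ := by
    intro σ τ
    funext j
    by_cases hj : j ∈ U <;> simp [Finset.piecewise, hj]
  simp only [e] at h
  unfold keep
  simp only [← ex_mul_left]
  rw [← h]
  congr 1
  funext σ
  rw [mul_comm, ← ex_mul_left]
  congr 1
  funext τ
  ring

theorem keep_keep (U U' : Finset (Fin N)) (ψ : (Fin N → Ω) → ℝ) :
    K.keep U (K.keep U' ψ) = K.keep (U ∩ U') ψ := by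
  funext σ
  have h := K.ex_keep U' fun τ => ψ ((U ∩ U').piecewise σ τ)
  have e : ∀ τ τ' : Fin N → Ω,
      U'.piecewise (U.piecewise σ τ) τ' = (U ∩ U').piecewise σ (U'.piecewise τ τ') := by
    intro τ τ'
    funext j
    by_cases hj : j ∈ U <;> by_cases hj' : j ∈ U' <;> simp [Finset.piecewise, hj, hj']
  unfold keep at h ⊢
  simp only [e]
  exact h

theorem Avg_orth (a : Fin N) {A B : (Fin N → Ω) → ℝ}
    (hA : ∀ σ, ∑ x, K.π x * A (Function.update σ a x) = 0)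
    (hB : ∀ σ x, B (Function.update σ a x) = B σ) : (ex K.π fun σ => A σ * B σ) = 0 := by
  rw [ex_update K.sum_one a]
  simp only [hB, ← mul_assoc, ← Finset.sum_mul, hA, zero_mul]
  exact ex_const K.sum_one _

theorem Avg_H3_update {i j k a : Fin N} (ha : a ∉ ({i, j, k} : Finset (Fin N))) (ψ : (Fin N → Ω) → ℝ)
    (σ : Fin N → Ω) (x : Ω) : K.H3 i j k ψ (Function.update σ a x) = K.H3 i j k ψ σ := by
  have hu : ∀ U : Finset (Fin N), U ⊆ {i, j, k} →
      K.keep U ψ (Function.update σ a x) = K.keep U ψ σ := fun U hU =>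
    K.keep_update (fun h => ha (hU h)) ψ σ x
  simp only [H3, Pi.add_apply, Pi.sub_apply]
  rw [hu _ subset_rfl, hu {i, j} (by simp [Finset.insert_subset_iff]),
    hu {i, k} (by simp [Finset.insert_subset_iff]), hu {j, k} (by simp), hu {i} (by simp),
    hu {j} (by simp), hu {k} (by simp), hu ∅ (by simp)]

theorem Avg_H3_swap₁ (i j k : Fin N) (ψ : (Fin N → Ω) → ℝ) : K.H3 i j k ψ = K.H3 j i k ψ := by
  unfold H3
  rw [Finset.insert_comm i j, Finset.pair_comm i j]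
  ring

theorem Avg_H3_swap₂ (i j k : Fin N) (ψ : (Fin N → Ω) → ℝ) : K.H3 i j k ψ = K.H3 i k j ψ := by
  unfold H3
  rw [Finset.pair_comm j k]
  ring

theorem Avg_H3_avg₁ {i j k : Fin N} (h12 : i ≠ j) (h13 : i ≠ k) (ψ : (Fin N → Ω) → ℝ)
    (σ : Fin N → Ω) : ∑ x, K.π x * K.H3 i j k ψ (Function.update σ i x) = 0 := by
  simp only [H3, Pi.add_apply, Pi.sub_apply, mul_add, mul_sub, Finset.sum_add_distrib,
    Finset.sum_sub_distrib, K.avg_keep]
  rw [Finset.erase_insert (by simp [h12, h13]), Finset.erase_insert (by simp [h12]),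
    Finset.erase_insert (by simp [h13]),
    Finset.erase_eq_of_notMem (s := {j, k}) (by simp [h12, h13]), Finset.erase_singleton,
    Finset.erase_eq_of_notMem (s := {j}) (by simp [h12]),
    Finset.erase_eq_of_notMem (s := {k}) (by simp [h13]), Finset.erase_empty]
  ring

theorem Avg_H3_avg {i j k : Fin N} (h12 : i ≠ j) (h13 : i ≠ k) (h23 : j ≠ k) (ψ : (Fin N → Ω) → ℝ)
    {a : Fin N} (ha : a ∈ ({i, j, k} : Finset (Fin N))) (σ : Fin N → Ω) :
    ∑ x, K.π x * K.H3 i j k ψ (Function.update σ a x) = 0 := by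
  simp only [Finset.mem_insert, Finset.mem_singleton] at ha
  rcases ha with rfl | rfl | rfl
  · exact K.Avg_H3_avg₁ h12 h13 ψ σ
  · rw [K.Avg_H3_swap₁]
    exact K.Avg_H3_avg₁ h12.symm h23 ψ σ
  · rw [K.Avg_H3_swap₂, K.Avg_H3_swap₁]
    exact K.Avg_H3_avg₁ h13.symm h23.symm ψ σ

theorem Avg_H3_self {i j k : Fin N} (h12 : i ≠ j) (h13 : i ≠ k) (h23 : j ≠ k) (ψ : (Fin N → Ω) → ℝ) :
    (ex K.π fun σ => K.H3 i j k ψ σ * ψ σ) = K.nsq (K.H3 i j k ψ) := by
  have hz : ∀ (U : Finset (Fin N)) (a : Fin N), a ∈ ({i, j, k} : Finset (Fin N)) → a ∉ U →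
      (ex K.π fun σ => K.H3 i j k ψ σ * K.keep U ψ σ) = 0 := fun U a ha hU =>
    K.Avg_orth a (K.Avg_H3_avg h12 h13 h23 ψ ha) (K.keep_update hU ψ)
  have hk : ∀ (U : Finset (Fin N)) (σ τ : Fin N → Ω), U ⊆ {i, j, k} →
      K.keep U ψ (({i, j, k} : Finset (Fin N)).piecewise σ τ) = K.keep U ψ σ := by
    intro U σ τ hU
    unfold keep
    congr 1
    funext τ'
    congr 1
    funext a
    by_cases ha : a ∈ U
    · rw [Finset.piecewise_eq_of_mem _ _ _ ha, Finset.piecewise_eq_of_mem _ _ _ ha,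
        Finset.piecewise_eq_of_mem _ _ _ (hU ha)]
    · rw [Finset.piecewise_eq_of_notMem _ _ _ ha, Finset.piecewise_eq_of_notMem _ _ _ ha]
  have hkeep : ∀ σ, K.keep {i, j, k} (K.H3 i j k ψ) σ = K.H3 i j k ψ σ := by
    intro σ
    have : ∀ τ, K.H3 i j k ψ (({i, j, k} : Finset (Fin N)).piecewise σ τ) = K.H3 i j k ψ σ := by
      intro τ
      simp only [H3, Pi.add_apply, Pi.sub_apply]
      rw [hk _ _ _ subset_rfl, hk {i, j} _ _ (by simp [Finset.insert_subset_iff]),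
        hk {i, k} _ _ (by simp [Finset.insert_subset_iff]), hk {j, k} _ _ (by simp),
        hk {i} _ _ (by simp), hk {j} _ _ (by simp), hk {k} _ _ (by simp), hk ∅ _ _ (by simp)]
    rw [keep]
    simp only [this]
    exact ex_const K.sum_one _
  have h1 := K.keep_adj {i, j, k} (K.H3 i j k ψ) ψ
  simp only [hkeep] at h1
  have h2 : K.nsq (K.H3 i j k ψ) = ex K.π fun σ =>
      K.H3 i j k ψ σ * K.keep {i, j, k} ψ σ - K.H3 i j k ψ σ * K.keep {i, j} ψ σ -
      K.H3 i j k ψ σ * K.keep {i, k} ψ σ - K.H3 i j k ψ σ * K.keep {j, k} ψ σ +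
      K.H3 i j k ψ σ * K.keep {i} ψ σ + K.H3 i j k ψ σ * K.keep {j} ψ σ +
      K.H3 i j k ψ σ * K.keep {k} ψ σ - K.H3 i j k ψ σ * K.keep ∅ ψ σ := by
    unfold nsq
    congr 1
    funext σ
    rw [sq]
    nth_rewrite 2 [H3]
    simp only [Pi.add_apply, Pi.sub_apply]
    ring
  rw [h2]
  simp only [ex_sub, ex_add]
  rw [h1, hz {i, j} k (by simp) (by simp [h13.symm, h23.symm]),
    hz {i, k} j (by simp) (by simp [h12.symm, h23]), hz {j, k} i (by simp) (by simp [h12, h13]),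
    hz {i} j (by simp) (by simp [h12.symm]), hz {j} i (by simp) (by simp [h12]),
    hz {k} i (by simp) (by simp [h13]), hz ∅ i (by simp) (by simp)]
  ring

theorem bessel3 (ψ : (Fin N → Ω) → ℝ) :
    ∑ i, ∑ j, ∑ k, (if i ≠ j ∧ i ≠ k ∧ j ≠ k then K.nsq (K.H3 i j k ψ) else 0) ≤ 6 * K.nsq ψ := by
  classical
  have hπ : ∀ x, 0 ≤ K.π x := fun x => (K.pos x).le
  set T : Finset (Fin N × Fin N × Fin N) :=
    univ.filter fun t => t.1 ≠ t.2.1 ∧ t.1 ≠ t.2.2 ∧ t.2.1 ≠ t.2.2 with hT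
  set H : Fin N × Fin N × Fin N → (Fin N → Ω) → ℝ := fun t => K.H3 t.1 t.2.1 t.2.2 ψ with hH
  set S : Fin N × Fin N × Fin N → Finset (Fin N) := fun t => {t.1, t.2.1, t.2.2} with hS
  have hmem : ∀ t ∈ T, t.1 ≠ t.2.1 ∧ t.1 ≠ t.2.2 ∧ t.2.1 ≠ t.2.2 := fun t ht =>
    (Finset.mem_filter.1 ht).2
  have e0 : ∑ i, ∑ j, ∑ k, (if i ≠ j ∧ i ≠ k ∧ j ≠ k then K.nsq (K.H3 i j k ψ) else 0) =
      ∑ t ∈ T, K.nsq (H t) := by
    rw [hT, Finset.sum_filter, Fintype.sum_prod_type]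
    refine Finset.sum_congr rfl fun i _ => ?_
    rw [Fintype.sum_prod_type]
  rw [e0]
  set A := ∑ t ∈ T, K.nsq (H t) with hA
  have hA0 : 0 ≤ A := Finset.sum_nonneg fun t _ => K.nsq_nonneg _
  have h1 : A = ex K.π fun σ => (∑ t ∈ T, H t σ) * ψ σ := by
    simp only [Finset.sum_mul]
    rw [ex_sum]
    refine Finset.sum_congr rfl fun t ht => ?_
    obtain ⟨a, b, c⟩ := hmem t ht
    exact (K.Avg_H3_self a b c ψ).symm
  have hcardS : ∀ t ∈ T, (S t).card = 3 := fun t ht => by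
    obtain ⟨a, b, c⟩ := hmem t ht
    exact Finset.card_eq_three.2 ⟨_, _, _, a, b, c, rfl⟩
  have h2 : ∀ t ∈ T, ∀ t' ∈ T, (ex K.π fun σ => H t σ * H t' σ) ≤
      (if S t = S t' then K.nsq (H t) else 0) / 2 + (if S t = S t' then K.nsq (H t') else 0) / 2 := by
    intro t ht t' ht'
    split_ifs with hs
    · unfold nsq
      rw [div_eq_inv_mul, div_eq_inv_mul, ← ex_mul_left, ← ex_mul_left, ← ex_add]
      exact ex_mono hπ fun σ => by nlinarith [sq_nonneg (H t σ - H t' σ)]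
    · have : ¬ S t ⊆ S t' := fun hsub =>
        hs (Finset.eq_of_subset_of_card_le hsub (by rw [hcardS t ht, hcardS t' ht']))
      obtain ⟨a, ha, ha'⟩ := Finset.not_subset.1 this
      obtain ⟨h12, h13, h23⟩ := hmem t ht
      have := K.Avg_orth a (K.Avg_H3_avg h12 h13 h23 ψ ha) (K.Avg_H3_update ha' ψ)
      simp only [hH]
      rw [this]
      simp
  have h3 : ∀ t, ((T.filter fun t' => S t = S t').card : ℝ) ≤ 6 := by
    rintro ⟨i, j, k⟩
    have : (T.filter fun t' => S (i, j, k) = S t') ⊆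
        {(i, j, k), (i, k, j), (j, i, k), (j, k, i), (k, i, j), (k, j, i)} := by
      rintro ⟨a, b, c⟩ ht'
      obtain ⟨ht', hs⟩ := Finset.mem_filter.1 ht'
      obtain ⟨hab, hac, hbc⟩ := hmem _ ht'
      simp only [hS] at hs
      exact Avg_perm hab hac hbc (by rw [hs]; simp) (by rw [hs]; simp) (by rw [hs]; simp)
    exact_mod_cast (Finset.card_le_card this).trans Finset.card_le_six
  have h4 : (ex K.π fun σ => (∑ t ∈ T, H t σ) ^ 2) ≤ 6 * A := by
    simp only [sq, Finset.sum_mul_sum]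
    rw [ex_sum]
    simp only [ex_sum]
    refine (Finset.sum_le_sum fun t ht => Finset.sum_le_sum fun t' ht' => h2 t ht t' ht').trans ?_
    simp only [Finset.sum_add_distrib, ← Finset.sum_div]
    rw [Finset.sum_comm (f := fun t t' => if S t = S t' then K.nsq (H t') else 0)]
    have h5 : ∑ t ∈ T, ∑ t' ∈ T, (if S t = S t' then K.nsq (H t) else 0) ≤ 6 * A := by
      rw [hA, Finset.mul_sum]
      refine Finset.sum_le_sum fun t _ => ?_
      rw [← Finset.sum_filter, Finset.sum_const, nsmul_eq_mul]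
      exact mul_le_mul_of_nonneg_right (h3 t) (K.nsq_nonneg _)
    have h6 : ∑ t ∈ T, ∑ t' ∈ T, (if S t' = S t then K.nsq (H t) else 0) =
        ∑ t ∈ T, ∑ t' ∈ T, (if S t = S t' then K.nsq (H t) else 0) := by
      simp only [eq_comm]
    rw [h6]
    linarith
  have h5 := ex_mul_sq_le hπ (fun σ => ∑ t ∈ T, H t σ) ψ
  rw [← h1] at h5
  have h6 : 0 ≤ K.nsq ψ := K.nsq_nonneg ψ
  have h7 : A ^ 2 ≤ 6 * A * K.nsq ψ := h5.trans (mul_le_mul_of_nonneg_right h4 h6)
  rcases hA0.eq_or_lt with h | h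
  · rw [← h]; positivity
  · nlinarith

theorem first_order (v : Ω → ℝ) {δ : ℝ} (hv : ∀ x, |v x| ≤ δ) (h0 : ∑ x, K.π x * v x = 0)
    (ψ : (Fin N → Ω) → ℝ) :
    (ex K.π fun σ => (∑ i, v (σ i)) * ψ σ) ^ 2 ≤ δ ^ 2 * (N * ∑ i, K.nsq (K.H1 i ψ)) := by
  have hπ : ∀ x, 0 ≤ K.π x := fun x => (K.pos x).le
  have h1 : ∀ i : Fin N, (ex K.π fun σ => v (σ i) * ψ σ) = ex K.π fun σ => v (σ i) * K.H1 i ψ σ := by
    intro i
    have e1 : (ex K.π fun σ => v (σ i) * K.keep {i} ψ σ) = ex K.π fun σ => v (σ i) * ψ σ := by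
      rw [K.keep_adj]
      congr 1
      funext σ
      congr 1
      unfold keep
      simp only [Finset.piecewise_singleton, Function.update_self]
      exact ex_const K.sum_one _
    have e2 : (ex K.π fun σ => v (σ i) * K.keep ∅ ψ σ) = 0 := by
      unfold keep
      simp only [Finset.piecewise_empty]
      simp only [mul_comm _ (ex K.π _)]
      rw [ex_mul_left, ex_coord K.sum_one, h0, mul_zero]
    simp only [H1, Pi.sub_apply, mul_sub]
    rw [ex_sub, e1, e2, sub_zero]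
  have h2 : ∀ i : Fin N, (ex K.π fun σ => v (σ i) * K.H1 i ψ σ) ^ 2 ≤ δ ^ 2 * K.nsq (K.H1 i ψ) := by
    intro i
    refine (ex_mul_sq_le hπ (fun σ => v (σ i)) (K.H1 i ψ)).trans ?_
    refine mul_le_mul_of_nonneg_right ?_ (K.nsq_nonneg _)
    refine (ex_mono hπ fun σ => ?_).trans_eq (ex_const K.sum_one (δ ^ 2))
    exact sq_le_sq' (abs_le.1 (hv _)).1 (abs_le.1 (hv _)).2
  simp only [Finset.sum_mul]
  rw [ex_sum]
  simp only [h1]
  refine (sq_sum_le_card_mul_sum_sq).trans ?_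
  rw [Finset.card_univ, Fintype.card_fin, mul_left_comm, Finset.mul_sum univ _ (δ ^ 2)]
  exact mul_le_mul_of_nonneg_left (Finset.sum_le_sum fun i _ => h2 i) (Nat.cast_nonneg _)

end PC

end Crest.Agent.R304
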