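import Crest.Agent.R304.Defs

/-!
# Row 304: Basic
Boundary and weight calculus, the path-switching inequality (`wick`) and its consequences `rE`, `rKW`.
* `bd_symmDiff`: `Finset.sum` over `X ∆ Y` in characteristic two (`X = (X \ Y) ∪ (X ∩ Y)`, `add_self_fn`).
* `exists_join`: let `U = {u | ∃ J ⊆ H, bd J = pr a u}` (classical); `a ∈ U` (`J = ∅`); for `e ∈ H`, `src e ∈ U ↔ tgt e ∈ U` (replace `J` by `J ∆ {e}`).
  Sum `bd H` over the finite set `W` of those elements of `{a, b, c, d} ∪ ends of H` that lie in `U`: every edge contributes `0`, while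
  `pr a b + pr c d` contributes `1 + [b ∈ U] + [c ∈ U] + [d ∈ U]`.
* `lemE`: `X ↦ X ∆ {g}` is injective and `x g * wt X ≤ wt (X ∆ {g})`.
* `wick`: choose `j (H)`, `J (H)` by `exists_join` for `H = X ∆ Y`; `(X, Y) ↦ (X ∆ J, Y ∆ J)` keeps `H` and the weight, so it is injective; split the pairs
  according to `j (H) = b`, `= c` (and `≠ b`), else.
* `rKW`: `wick` with `A = pr p u`, `B = pr q v`, `A + B = pr u v + pr p q`; the terms `j = p`, `j = q` are bounded by `lemE`.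
-/

set_option autoImplicit false

noncomputable section

namespace Crest.Agent.R304

open Finset
open scoped symmDiff

variable {E V : Type} [Fintype E] [DecidableEq E] [DecidableEq V]

theorem Basic_wt_eq (x : E → ℝ) (X : Finset E) : wt x X = ∏ e, if e ∈ X then x e else 1 := by
  rw [← Finset.prod_filter, Finset.filter_mem_eq_inter, Finset.univ_inter, wt]

theorem Basic_sum_le {α β : Type} {s : Finset α} {t : Finset β} {f : α → ℝ} {g : β → ℝ} (φ : α → β)
    (hinj : Set.InjOn φ s) (hmap : ∀ p ∈ s, φ p ∈ t) (hg : ∀ q ∈ t, 0 ≤ g q)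
    (hfg : ∀ p ∈ s, f p ≤ g (φ p)) : ∑ p ∈ s, f p ≤ ∑ q ∈ t, g q := by
  classical
  calc ∑ p ∈ s, f p ≤ ∑ p ∈ s, g (φ p) := Finset.sum_le_sum hfg
    _ = ∑ q ∈ s.image φ, g q := (Finset.sum_image hinj).symm
    _ ≤ ∑ q ∈ t, g q := Finset.sum_le_sum_of_subset_of_nonneg
        (Finset.image_subset_iff.2 hmap) fun q hq _ => hg q hq

theorem add_self_fn (A : V → ZMod 2) : A + A = 0 := by
  funext v
  exact CharTwo.add_self_eq_zero (A v)

theorem pr_self (u : V) : pr u u = 0 := by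
  exact add_self_fn _

theorem pr_comm (u v : V) : pr u v = pr v u := by
  exact add_comm _ _

theorem pr_add_pr (u v w : V) : pr u v + pr v w = pr u w := by
  unfold pr
  linear_combination add_self_fn (Pi.single v 1 : V → ZMod 2)

theorem pr_apply (u v w : V) : pr u v w = (if w = u then 1 else 0) + (if w = v then 1 else 0) := by
  simp only [pr, Pi.add_apply, Pi.single_apply]

theorem pr_apply_of_ne {u v w : V} (h1 : w ≠ u) (h2 : w ≠ v) : pr u v w = 0 := by
  rw [pr_apply, if_neg h1, if_neg h2, add_zero]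

theorem wt_pos {x : E → ℝ} (hx : ∀ e, 0 < x e) (X : Finset E) : 0 < wt x X := by
  exact Finset.prod_pos fun e _ => hx e

theorem wt_symmDiff_mul (x : E → ℝ) {X Y J : Finset E} (h : J ⊆ X ∆ Y) :
    wt x (X ∆ J) * wt x (Y ∆ J) = wt x X * wt x Y := by
  simp only [Basic_wt_eq, ← Finset.prod_mul_distrib]
  refine Finset.prod_congr rfl fun e _ => ?_
  have h1 : e ∈ J → e ∈ X ∆ Y := fun he => h he
  simp only [Finset.mem_symmDiff] at h1 ⊢
  by_cases hX : e ∈ X <;> by_cases hY : e ∈ Y <;> by_cases hJ : e ∈ J <;> simp_all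

/-- `wt (X ∆ J) * wt (X ∩ J) = wt X * wt (J \ X)` -/
theorem wt_symmDiff (x : E → ℝ) (X J : Finset E) :
    wt x (X ∆ J) * wt x (X ∩ J) = wt x X * wt x (J \ X) := by
  simp only [Basic_wt_eq, ← Finset.prod_mul_distrib]
  refine Finset.prod_congr rfl fun e _ => ?_
  simp only [Finset.mem_symmDiff, Finset.mem_inter, Finset.mem_sdiff]
  by_cases hX : e ∈ X <;> by_cases hJ : e ∈ J <;> simp_all

namespace Gr

variable {G : Gr E V}

theorem bd_empty : G.bd ∅ = 0 := by
  exact Finset.sum_empty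

theorem bd_symmDiff (X Y : Finset E) : G.bd (X ∆ Y) = G.bd X + G.bd Y := by
  have h : ∀ Z : Finset E, G.bd Z = ∑ e, if e ∈ Z then pr (G.src e) (G.tgt e) else 0 := by
    intro Z
    rw [← Finset.sum_filter, Finset.filter_mem_eq_inter, Finset.univ_inter, bd]
  simp only [h, ← Finset.sum_add_distrib]
  refine Finset.sum_congr rfl fun e _ => ?_
  simp only [Finset.mem_symmDiff]
  by_cases hX : e ∈ X <;> by_cases hY : e ∈ Y <;> simp [hX, hY, add_self_fn]

theorem joins_src_tgt (e : E) : G.Joins e (G.src e) (G.tgt e) := by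
  exact Or.inl ⟨rfl, rfl⟩

theorem Joins.symm {e : E} {u v : V} (h : G.Joins e u v) : G.Joins e v u := by
  exact Or.symm h

theorem Joins.bd {e : E} {u v : V} (h : G.Joins e u v) : G.bd {e} = pr u v := by
  rw [Gr.bd, Finset.sum_singleton]
  rcases h with ⟨rfl, rfl⟩ | ⟨rfl, rfl⟩
  · rfl
  · exact pr_comm _ _

theorem Joins.inc_left {e : E} {u v : V} (h : G.Joins e u v) : G.Inc e u := by
  rcases h with ⟨h, -⟩ | ⟨-, h⟩
  · exact Or.inl h
  · exact Or.inr h

theorem Joins.inc_right {e : E} {u v : V} (h : G.Joins e u v) : G.Inc e v := by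
  exact h.symm.inc_left

theorem Joins.inc_iff {e : E} {u v w : V} (h : G.Joins e u v) : G.Inc e w ↔ w = u ∨ w = v := by
  unfold Inc
  rcases h with ⟨rfl, rfl⟩ | ⟨rfl, rfl⟩
  · exact or_congr eq_comm eq_comm
  · exact or_comm.trans (or_congr eq_comm eq_comm)

theorem Joins.cases {e : E} {u v p q : V} (h : G.Joins e u v) (h' : G.Joins e p q) :
    (p = u ∧ q = v) ∨ (p = v ∧ q = u) := by
  rcases h with ⟨rfl, rfl⟩ | ⟨rfl, rfl⟩ <;> rcases h' with ⟨rfl, rfl⟩ | ⟨rfl, rfl⟩ <;> simp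

theorem bd_apply (hl : ∀ e, G.src e ≠ G.tgt e) (X : Finset E) (v : V) :
    G.bd X v = ((X.filter fun e => G.Inc e v).card : ZMod 2) := by
  rw [bd, Finset.sum_apply, Finset.card_filter, Nat.cast_sum]
  refine Finset.sum_congr rfl fun e _ => ?_
  rw [pr_apply]
  have h := hl e
  by_cases h1 : v = G.src e
  · have h2 : v ≠ G.tgt e := h1 ▸ h
    rw [if_pos h1, if_neg h2, if_pos (show G.Inc e v from Or.inl h1.symm)]
    simp
  · by_cases h2 : v = G.tgt e
    · rw [if_neg h1, if_pos h2, if_pos (show G.Inc e v from Or.inr h2.symm)]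
      simp
    · rw [if_neg h1, if_neg h2, if_neg (fun h' : G.Inc e v => h'.elim (fun h => h1 h.symm)
        fun h => h2 h.symm)]
      simp

theorem mem_Om {A : V → ZMod 2} {X : Finset E} : X ∈ G.Om A ↔ G.bd X = A := by
  simp [Om]

theorem exists_join {H : Finset E} {a b c d : V} (h : G.bd H = pr a b + pr c d) :
    ∃ j, (j = b ∨ j = c ∨ j = d) ∧ ∃ J ⊆ H, G.bd J = pr a j := by
  classical
  by_contra hcon
  let P : V → Prop := fun u => ∃ J ⊆ H, G.bd J = pr a u
  have hstep : ∀ e ∈ H, ∀ u v, G.Joins e u v → P u → P v := by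
    rintro e he u v huv ⟨J, hJ, hb⟩
    refine ⟨J ∆ {e}, ?_, ?_⟩
    · intro f hf
      rcases Finset.mem_symmDiff.1 hf with hf | hf
      · exact hJ hf.1
      · rw [Finset.mem_singleton.1 hf.1]
        exact he
    · rw [bd_symmDiff, hb, huv.bd, pr_add_pr]
  let W : Finset V := (insert a (H.image G.src ∪ H.image G.tgt)).filter P
  have hφ : ∀ u v, ∑ w ∈ W, pr u v w = (if u ∈ W then 1 else 0) + if v ∈ W then 1 else 0 := by
    intro u v
    simp only [pr_apply, Finset.sum_add_distrib, Finset.sum_ite_eq']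
  have h0 : ∑ w ∈ W, G.bd H w = 0 := by
    simp only [bd, Finset.sum_apply]
    rw [Finset.sum_comm]
    refine Finset.sum_eq_zero fun e he => ?_
    have h1 : G.src e ∈ W ↔ G.tgt e ∈ W := by
      simp only [W, Finset.mem_filter, Finset.mem_insert, Finset.mem_union]
      constructor
      · exact fun h1 => ⟨Or.inr (Or.inr (Finset.mem_image_of_mem _ he)),
          hstep e he _ _ (joins_src_tgt e) h1.2⟩
      · exact fun h1 => ⟨Or.inr (Or.inl (Finset.mem_image_of_mem _ he)),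
          hstep e he _ _ (joins_src_tgt e).symm h1.2⟩
    rw [hφ, if_congr h1 rfl rfl]
    exact CharTwo.add_self_eq_zero _
  have ha : a ∈ W := Finset.mem_filter.2 ⟨Finset.mem_insert_self _ _,
    ∅, Finset.empty_subset _, by rw [bd_empty, pr_self]⟩
  have hn : ∀ j, (j = b ∨ j = c ∨ j = d) → j ∉ W := fun j hj hW =>
    hcon ⟨j, hj, (Finset.mem_filter.1 hW).2⟩
  rw [h] at h0
  simp only [Pi.add_apply, Finset.sum_add_distrib] at h0
  rw [hφ, hφ, if_pos ha, if_neg (hn b (by simp)), if_neg (hn c (by simp)),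
    if_neg (hn d (by simp))] at h0
  simp at h0

theorem comp_subset (S0 S : Finset E) : G.comp S0 S ⊆ S := by
  unfold comp
  generalize Fintype.card E = n
  cases n with
  | zero => exact Finset.inter_subset_right
  | succ n =>
    rw [Function.iterate_succ_apply']
    exact Finset.filter_subset _ _

theorem comp_empty (S : Finset E) : G.comp ∅ S = ∅ := by
  unfold comp
  rw [Finset.empty_inter]
  refine Function.iterate_fixed ?_ _
  simp [grow]

theorem Basic_swS {a : Sw E} (h1 : a.R1 ⊆ a.R) (h2 : a.R2 ⊆ a.R) (X Y : Finset E) :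
    G.swS a (G.sw1 a X Y) (G.sw2 a X Y) = G.swS a X Y := by
  have h : (G.sw1 a X Y ∆ G.sw2 a X Y) \ a.R = (X ∆ Y) \ a.R := by
    ext e
    have h3 : e ∈ a.R1 → e ∈ a.R := fun h => h1 h
    have h4 : e ∈ a.R2 → e ∈ a.R := fun h => h2 h
    simp only [sw1, sw2, Finset.mem_sdiff, Finset.mem_symmDiff]
    tauto
  rw [swS, h, swS]

theorem mv1_inv {a : Mv E} (h1 : a.R1 ⊆ a.R) (h2 : a.R2 ⊆ a.R) (X Y : Finset E) :
    G.mv1 a.inv (G.mv1 a X Y) (G.mv2 a X Y) = X := by
  simp only [mv1, mv2, Mv.inv, symmDiff_symmDiff_cancel_right]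
  rw [sw1, Basic_swS h1 h2, sw1]
  ext e
  simp only [Finset.mem_symmDiff]
  tauto

theorem mv2_inv {a : Mv E} (h1 : a.R1 ⊆ a.R) (h2 : a.R2 ⊆ a.R) (X Y : Finset E) :
    G.mv2 a.inv (G.mv1 a X Y) (G.mv2 a X Y) = Y := by
  simp only [mv1, mv2, Mv.inv, symmDiff_symmDiff_cancel_right]
  rw [sw2, Basic_swS h1 h2, sw2]
  ext e
  simp only [Finset.mem_symmDiff]
  tauto

end Gr

theorem Cyc.l_le {G : Gr E V} (C : Cyc G) : C.l ≤ Fintype.card E := by
  have h := Finset.card_le_card_of_injOn (s := Finset.range C.l) (t := Finset.univ) C.h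
    (fun _ _ => Finset.mem_coe.2 (Finset.mem_univ _))
    fun s hs t ht => C.h_inj s (by simpa using hs) t (by simpa using ht)
  simpa using h

theorem Cyc.isV {G : Gr E V} (C : Cyc G) {t : ℕ} (ht : t ≤ C.l) : G.IsV (C.v t) := by
  rcases ht.lt_or_eq with ht | rfl
  · exact ⟨_, (C.joins t ht).inc_left⟩
  · rw [C.closed]
    exact ⟨_, (C.joins 0 (by have := C.two_le; omega)).inc_left⟩

namespace Model

variable {M : Model E V}

theorem mem_Om {A : V → ZMod 2} {X : Finset E} : X ∈ M.Om A ↔ M.bd X = M.T + A := by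
  exact Gr.mem_Om

theorem symmDiff_mem_Om {A : V → ZMod 2} {X : Finset E} (hX : X ∈ M.Om A) (J : Finset E) :
    X ∆ J ∈ M.Om (A + M.bd J) := by
  rw [mem_Om] at hX ⊢
  rw [Gr.bd_symmDiff, hX, add_assoc]

theorem bd_symmDiff_of_mem {A B : V → ZMod 2} {X Y : Finset E} (hX : X ∈ M.Om A) (hY : Y ∈ M.Om B) :
    M.bd (X ∆ Y) = A + B := by
  rw [mem_Om] at hX hY
  rw [Gr.bd_symmDiff, hX, hY]
  linear_combination add_self_fn M.T

theorem Pos.Z_nonneg (h : M.Pos) (A : V → ZMod 2) : 0 ≤ M.Z A := by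
  exact Finset.sum_nonneg fun X _ => (wt_pos h.x_pos X).le

theorem Pos.pi_nonneg (h : M.Pos) (A : V → ZMod 2) (X : Finset E) : 0 ≤ M.pi A X := by
  exact div_nonneg (wt_pos h.x_pos X).le (h.Z_nonneg A)

theorem sum_pi {A : V → ZMod 2} (h : 0 < M.Z A) : ∑ X ∈ M.Om A, M.pi A X = 1 := by
  unfold pi
  rw [← Finset.sum_div]
  exact div_self h.ne'

theorem Pos.pp_nonneg (h : M.Pos) (p : Finset E × Finset E) : 0 ≤ M.pp p := by
  exact mul_nonneg (h.pi_nonneg _ _) (h.pi_nonneg _ _)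

theorem Pos.rA_nonneg (h : M.Pos) (A : V → ZMod 2) : 0 ≤ M.rA A := by
  exact div_nonneg (h.Z_nonneg _) (h.Z_nonneg _)

theorem Pos.rA_zero (h : M.Pos) : M.rA 0 = 1 := by
  exact div_self h.Z0.ne'

theorem Pos.Tsec_nonneg (h : M.Pos) (a : Sw E) (A B A' B' : V → ZMod 2) (f g f' g' : Finset E → ℝ) :
    0 ≤ M.Tsec a A B A' B' f g f' g' := by
  refine Finset.sum_nonneg fun X _ => Finset.sum_nonneg fun Y _ => ?_
  split_ifs
  · exact mul_nonneg (le_min (mul_nonneg (h.pi_nonneg _ _) (h.pi_nonneg _ _))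
      (mul_nonneg (h.pi_nonneg _ _) (h.pi_nonneg _ _))) (sq_nonneg _)
  · exact le_rfl

theorem r_comm (u v : V) : M.r u v = M.r v u := by
  rw [r, r, pr_comm]

theorem Pos.r_self (h : M.Pos) (u : V) : M.r u u = 1 := by
  rw [r, pr_self, h.rA_zero]

theorem Pos.r_pos (h : M.Pos) {u v : V} (hu : M.IsV u) (hv : M.IsV v) : 0 < M.r u v := by
  exact div_pos (h.Zp u v hu hv) h.Z0

theorem Ok.lemE (h : M.Ok) (g : E) (A : V → ZMod 2) : M.x g * M.Z (A + M.bd {g}) ≤ M.Z A := by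
  rw [Z, Z, Finset.mul_sum]
  refine Basic_sum_le (fun X => X ∆ {g}) (fun X _ Y _ hXY => symmDiff_left_injective _ hXY)
    (fun X hX => ?_) (fun X _ => (wt_pos h.x_pos X).le) fun X _ => ?_
  · have h1 := symmDiff_mem_Om hX {g}
    rwa [add_assoc, add_self_fn, add_zero] at h1
  · have h1 := wt_symmDiff M.x X {g}
    have h2 := wt_pos h.x_pos (X ∆ {g})
    have h3 := h.x_pos g
    have h4 := h.x_le g
    by_cases hg : g ∈ X
    · rw [Finset.inter_singleton_of_mem hg, Finset.sdiff_eq_empty_iff_subset.2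
        (Finset.singleton_subset_iff.2 hg)] at h1
      simp only [wt, Finset.prod_singleton, Finset.prod_empty, mul_one] at h1 h2 ⊢
      rw [← h1]
      have h5 : M.x g * M.x g ≤ 1 := mul_le_one₀ h4 h3.le h4
      nlinarith
    · rw [Finset.inter_singleton_of_notMem hg, Finset.sdiff_eq_self_of_disjoint
        (Finset.disjoint_singleton_left.2 hg)] at h1
      simp only [wt, Finset.prod_singleton, Finset.prod_empty, mul_one] at h1 h2 ⊢
      rw [h1, mul_comm]

theorem Pos.wick (h : M.Pos) {A B : V → ZMod 2} {a b c d : V} (hAB : A + B = pr a b + pr c d) :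
    M.Z A * M.Z B ≤ M.Z (A + pr a b) * M.Z (B + pr a b) + M.Z (A + pr a c) * M.Z (B + pr a c) +
      M.Z (A + pr a d) * M.Z (B + pr a d) := by
  classical
  have hex : ∀ H : Finset E, ∃ j : V, ∃ J : Finset E, M.bd H = pr a b + pr c d →
      (j = b ∨ j = c ∨ j = d) ∧ J ⊆ H ∧ M.bd J = pr a j := by
    intro H
    by_cases hH : M.bd H = pr a b + pr c d
    · obtain ⟨j, hj, J, hJ, hb⟩ := Gr.exists_join hH
      exact ⟨j, J, fun _ => ⟨hj, hJ, hb⟩⟩
    · exact ⟨a, ∅, fun h' => absurd h' hH⟩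
  choose j J hjJ using hex
  have hs : ∀ p ∈ M.Om A ×ˢ M.Om B, (j (p.1 ∆ p.2) = b ∨ j (p.1 ∆ p.2) = c ∨ j (p.1 ∆ p.2) = d) ∧
      J (p.1 ∆ p.2) ⊆ p.1 ∆ p.2 ∧ M.bd (J (p.1 ∆ p.2)) = pr a (j (p.1 ∆ p.2)) := fun p hp =>
    hjJ _ (by rw [bd_symmDiff_of_mem (Finset.mem_product.1 hp).1 (Finset.mem_product.1 hp).2, hAB])
  have hZ : ∀ A B : V → ZMod 2,
      M.Z A * M.Z B = ∑ p ∈ M.Om A ×ˢ M.Om B, wt M.x p.1 * wt M.x p.2 := fun A B => by
    rw [Z, Z, Finset.sum_mul_sum, Finset.sum_product]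
  have hw : ∀ p : Finset E × Finset E, 0 ≤ wt M.x p.1 * wt M.x p.2 := fun p =>
    (mul_pos (wt_pos h.x_pos _) (wt_pos h.x_pos _)).le
  have hk : ∀ k, ∑ p ∈ M.Om A ×ˢ M.Om B, (if j (p.1 ∆ p.2) = k then wt M.x p.1 * wt M.x p.2 else 0) ≤
      M.Z (A + pr a k) * M.Z (B + pr a k) := by
    intro k
    rw [← Finset.sum_filter, hZ]
    refine Basic_sum_le (fun p => (p.1 ∆ J (p.1 ∆ p.2), p.2 ∆ J (p.1 ∆ p.2))) ?_ (fun p hp => ?_)
      (fun p _ => hw p) fun p hp => ?_
    · intro p _ q _ hpq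
      have h1 : p.1 ∆ J (p.1 ∆ p.2) = q.1 ∆ J (q.1 ∆ q.2) := congrArg Prod.fst hpq
      have h2 : p.2 ∆ J (p.1 ∆ p.2) = q.2 ∆ J (q.1 ∆ q.2) := congrArg Prod.snd hpq
      have h3 : ∀ X Y Z : Finset E, (X ∆ Z) ∆ (Y ∆ Z) = X ∆ Y := fun X Y Z => by
        rw [symmDiff_symmDiff_symmDiff_comm, symmDiff_self, symmDiff_bot]
      have h4 : p.1 ∆ p.2 = q.1 ∆ q.2 := by
        rw [← h3 p.1 p.2 (J (p.1 ∆ p.2)), h1, h2, h3]
      rw [h4] at h1 h2
      exact Prod.ext (symmDiff_left_injective _ h1) (symmDiff_left_injective _ h2)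
    · obtain ⟨hp, hpk⟩ := Finset.mem_filter.1 hp
      have h1 := (hs p hp).2.2
      rw [hpk] at h1
      rw [Finset.mem_product, ← h1]
      exact ⟨symmDiff_mem_Om (Finset.mem_product.1 hp).1 _,
        symmDiff_mem_Om (Finset.mem_product.1 hp).2 _⟩
    · exact (wt_symmDiff_mul M.x (hs p (Finset.mem_filter.1 hp).1).2.1).ge
  refine le_trans ?_ (add_le_add (add_le_add (hk b) (hk c)) (hk d))
  rw [hZ, ← Finset.sum_add_distrib, ← Finset.sum_add_distrib]
  refine Finset.sum_le_sum fun p hp => ?_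
  have h0 := hw p
  have h1 := (hs p hp).1
  split_ifs <;> first | linarith | tauto

theorem Ok.rE (h : M.Ok) {g : E} {u v : V} (hg : M.Joins g u v) (p : V) : M.x g * M.r p u ≤ M.r p v := by
  have h1 := h.lemE g (pr p v)
  rw [hg.symm.bd, pr_add_pr] at h1
  rw [r, r, rA, rA, ← mul_div_assoc]
  exact div_le_div_of_nonneg_right h1 h.Z0.le

theorem Ok.rE1 (h : M.Ok) {g : E} {u v : V} (hg : M.Joins g u v) : M.x g * M.r u v ≤ 1 := by
  have h1 := h.rE hg.symm u
  rwa [h.toPos.r_self] at h1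

theorem Ok.rKW (h : M.Ok) {g : E} {u v : V} (hg : M.Joins g u v) (p q : V) :
    M.x g * M.r p u * M.r q v ≤ M.x g * M.r p v * M.r q u + 2 * M.r p q := by
  have h1 := h.toPos.wick (A := pr p u) (B := pr q v) (a := u) (b := v) (c := p) (d := q) (by
    unfold pr
    ring)
  have e1 : pr q v + pr u v = pr q u := by rw [pr_comm u v, pr_add_pr]
  have e2 : pr q v + pr u p = pr p q + M.bd {g} := by
    rw [hg.bd]
    unfold pr
    ring
  have e3 : pr q v + pr u q = 0 + M.bd {g} := by rw [hg.bd, add_comm, pr_add_pr, zero_add]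
  rw [pr_add_pr, pr_add_pr, pr_add_pr, pr_self, e1, e2, e3] at h1
  have h2 := h.lemE g (pr p q)
  have h3 := h.lemE g 0
  have h4 := h.Z0
  have h5 := h.toPos.Z_nonneg (pr p q)
  have h6 := mul_le_mul_of_nonneg_left h1 (h.x_pos g).le
  have h7 := mul_le_mul_of_nonneg_left h2 h4.le
  have h8 := mul_le_mul_of_nonneg_left h3 h5
  have h9 : M.x g * M.Z (pr p u) * M.Z (pr q v) ≤
      M.x g * M.Z (pr p v) * M.Z (pr q u) + 2 * M.Z (pr p q) * M.Z 0 := by linarith
  simp only [r, rA]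
  rw [← sub_nonneg] at h9 ⊢
  have e4 : M.x g * (M.Z (pr p v) / M.Z 0) * (M.Z (pr q u) / M.Z 0) + 2 * (M.Z (pr p q) / M.Z 0) -
      M.x g * (M.Z (pr p u) / M.Z 0) * (M.Z (pr q v) / M.Z 0) =
      (M.x g * M.Z (pr p v) * M.Z (pr q u) + 2 * M.Z (pr p q) * M.Z 0 -
        M.x g * M.Z (pr p u) * M.Z (pr q v)) / (M.Z 0 * M.Z 0) := by
    field_simp
  rw [e4]
  positivity

theorem one_le_LL : 1 ≤ LL E := by
  unfold LL
  have h : (0 : ℝ) ≤ Fintype.card E := Nat.cast_nonneg _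
  nlinarith

end Model

end Crest.Agent.R304
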