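import Crest.Agent.R304.Basic

/-!
# Row 304: Beta
Pure inequalities from `rE`, `rE1`, `rKW`.  `m = card E`, `L = LL E = 200 (m+1)^2`, `c = 6 (2m+1)`; `c (c+4) + 2 ≤ L`, `c + 4 ≤ L`, `4 m ≤ L - 2`, `L ≤ 2 (L-2)`.
* `gd_adj`: `x e * x h * r p a * r q b ≤ 1` in the four cases: `r u v * r v w` (`rE1` twice) or `r u w * r v v` (`rE`, `rE1`).
* `bad_all`: the two pairings differ by at most `2` (`rKW`, `x e * r p q ≤ 1`); `Joins.cases`.
* `run`: `e` joins `p, q`, `Mq u = x e * r p a * r q u`, `ξ j = r a (u j) / Mq (u j)` along the run `u j = v (t'+1+j)`, `a = u 0`.  `Mq a ≥ x h * Mq (u 1) > L - 2` (`rE`), so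
  `ξ 0 < 1 / (L-2)`.  For the bad edge `h = (u, w)`: `rKW` gives `x h * r a w * r q u ≤ x h * r a u * r q w + 2 r a q`, badness gives `L - 2 < x e * x h * r p u * r q w`,
  and `rKW` for `e` gives `x e * r a q * r u p ≤ x e * r a p * r u q + 2 r a u`; hence `ξ (j+1) ≤ ξ j (1 + 4/(L-2)) + 2/(L-2)`, so
  `ξ j ≤ (1 + 4/(L-2))^j (1 + 2j)/(L-2) ≤ 3 (2m+1)/(L-2)` (`(1+y)^j ≤ exp (j y) ≤ e < 3`).
* `cross`: put `N(α, β) = x e x g x g' r p α r ᾱ β r q β̄`, `g = (ā, a)`, `g' = (b, b̄)`, `a = v (t'+1)`, `b = v t`.  `N(ā, b) ≤ c L` (use `run` with `p, q` swapped: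
  `L r a b ≤ c x e r q a r p b`, and `Gd e g`, `Gd e g'`), and changing `α` or `β` costs at most `2 L` (`rKW` for `g` or `g'`, then `Gd`).  So `N ≤ (c+4) L ≤ L^2`.
* `good_child`: `x g x g' r a b r ā b̄ ≤ (c / L) N(a, b̄) ≤ c (c+4)` by `run`; the other pairing is at most `2` larger (`rKW`, `rE1`).
-/

set_option autoImplicit false

noncomputable section

namespace Crest.Agent.R304

open Finset
open scoped symmDiff

variable {E V : Type} [Fintype E] [DecidableEq E] [DecidableEq V]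

namespace Model

variable {M : Model E V}

theorem Gd.symm {e h : E} (hg : M.Gd e h) : M.Gd h e := by
  intro p q u v hp hu
  have h1 := hg u v p q hu hp
  rw [r_comm u p, r_comm v q, mul_comm (M.x e)] at h1
  exact h1

theorem Ok.beta_r_nonneg (hM : M.Ok) (u v : V) : 0 ≤ M.r u v := hM.toPos.rA_nonneg _

theorem beta_step {K lam xe xh rpa rqu rqw rau raw raq rpu : ℝ} (hK : 0 < K) (hl : 4 * lam ≤ K)
    (hxe : 0 < xe) (hxh : 0 < xh) (hpa : 0 < rpa) (hqu : 0 < rqu) (hqw : 0 < rqw) (haq : 0 ≤ raq)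
    (h1 : xh * raw * rqu ≤ xh * rau * rqw + 2 * raq) (h2 : K < xe * xh * rpu * rqw)
    (h3 : xe * raq * rpu ≤ xe * rpa * rqu + 2 * rau) (ih : K * rau ≤ lam * (xe * rpa * rqu)) :
    K * raw ≤ (lam + 3) * (xe * rpa * rqw) := by
  have hN : 0 < xe * rpa * rqu := by positivity
  have h4 : 4 * rau ≤ xe * rpa * rqu := by
    refine le_of_mul_le_mul_left ?_ hK
    have := mul_le_mul_of_nonneg_right hl hN.le
    linarith
  have h5 : K * raq ≤ xh * rqw * (xe * rpa * rqu + 2 * rau) :=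
    calc K * raq ≤ xe * xh * rpu * rqw * raq := mul_le_mul_of_nonneg_right h2.le haq
      _ = xh * rqw * (xe * raq * rpu) := by ring
      _ ≤ _ := mul_le_mul_of_nonneg_left h3 (by positivity)
  have h6 : K * rau + 2 * (xe * rpa * rqu + 2 * rau) ≤ (lam + 3) * (xe * rpa * rqu) := by
    linarith
  have h7 := mul_le_mul_of_nonneg_left h6 (show 0 ≤ xh * rqw by positivity)
  have h8 := mul_le_mul_of_nonneg_left h1 hK.le
  refine le_of_mul_le_mul_left ?_ (show 0 < xh * rqu by positivity)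
  linarith

theorem Ok.gd_adj (hM : M.Ok) {e h : E} {u v w : V} (he : M.Joins e u v) (hh : M.Joins h v w) :
    M.Gd e h := by
  have hxe := hM.x_pos e
  have hxh := hM.x_pos h
  have h1 := hM.rE1 he
  have h2 := hM.rE1 hh
  have h3 := hM.rE hh.symm u
  have h4 : M.x e * M.x h * M.r u v * M.r v w ≤ 1 := by
    have := mul_le_one₀ h1 (mul_nonneg hxh.le (hM.beta_r_nonneg v w)) h2
    linarith
  have h5 : M.x e * M.x h * M.r u w ≤ 1 := by
    have := mul_le_mul_of_nonneg_left h3 hxe.le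
    linarith
  have hL : (1 : ℝ) ≤ LL E := one_le_LL
  intro p q a b hp ha
  rcases he.cases hp with ⟨rfl, rfl⟩ | ⟨rfl, rfl⟩ <;> rcases hh.cases ha with ⟨h6, h7⟩ | ⟨h6, h7⟩ <;>
    rw [h6, h7]
  · linarith
  · rw [hM.toPos.r_self]
    linarith
  · rw [hM.toPos.r_self]
    linarith
  · linarith

theorem Ok.bad_all (hM : M.Ok) {e h : E} (hb : ¬ M.Gd e h) {p q u v : V} (he : M.Joins e p q)
    (hh : M.Joins h u v) : LL E - 2 < M.x e * M.x h * M.r p u * M.r q v := by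
  have hxe := hM.x_pos e
  have h1 := hM.rE1 he
  have h2 := mul_le_mul_of_nonneg_left (hM.rKW hh.symm p q) hxe.le
  simp only [Gd, not_forall, not_le] at hb
  obtain ⟨p0, q0, u0, v0, hp, hu, hlt⟩ := hb
  rcases he.cases hp with ⟨h3, h4⟩ | ⟨h3, h4⟩ <;> rcases hh.cases hu with ⟨h6, h7⟩ | ⟨h6, h7⟩ <;>
    rw [h3, h4, h6, h7] at hlt <;> linarith

theorem Ok.good_succ (hM : M.Ok) (C : Cyc M.toGr) {s : ℕ} (hs : s + 1 < C.l) : M.Good C s (s + 1) := by
  exact Or.inr (hM.gd_adj (C.joins s (by omega)) (C.joins (s + 1) hs))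

theorem Ok.good_last (hM : M.Ok) (C : Cyc M.toGr) : M.Good C 0 (C.l - 1) := by
  have h2 := C.two_le
  have h1 := C.joins (C.l - 1) (by omega)
  rw [Nat.sub_add_cancel (by omega), C.closed] at h1
  exact Or.inr (hM.gd_adj h1 (C.joins 0 (by omega))).symm

theorem Ok.run (hM : M.Ok) {C : Cyc M.toGr} {s t' t : ℕ} (hD : M.Dbl C s t' t) {p q : V}
    (he : M.Joins (C.h s) p q) :
    LL E * M.r (C.v (t' + 1)) (C.v t) ≤
      6 * (2 * (Fintype.card E : ℝ) + 1) * (M.x (C.h s) * M.r p (C.v (t' + 1)) * M.r q (C.v t)) := by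
  obtain ⟨hst, htt, htl, -, -, hbad⟩ := hD
  have hm : C.l ≤ Fintype.card E := C.l_le
  have hm0 : (0 : ℝ) ≤ Fintype.card E := Nat.cast_nonneg _
  have hxe := hM.x_pos (C.h s)
  have hp : M.IsV p := ⟨_, he.inc_left⟩
  have hq : M.IsV q := ⟨_, he.inc_right⟩
  have hpa : 0 < M.r p (C.v (t' + 1)) := hM.toPos.r_pos hp (C.isV (by omega))
  have hK : 4 * (1 + 3 * (Fintype.card E : ℝ)) ≤ LL E - 2 := by
    unfold LL
    nlinarith
  have hb : ∀ j, t' < j → j < t → ¬ M.Gd (C.h s) (C.h j) := fun j h1 h2 h => hbad j h1 h2 (Or.inr h)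
  have key : ∀ j : ℕ, t' + 1 + j ≤ t → (LL E - 2) * M.r (C.v (t' + 1)) (C.v (t' + 1 + j)) ≤
      (1 + 3 * (j : ℝ)) * (M.x (C.h s) * M.r p (C.v (t' + 1)) * M.r q (C.v (t' + 1 + j))) := by
    intro j
    induction j with
    | zero =>
      intro _
      have hj := C.joins (t' + 1) (by omega)
      have h1 := hM.bad_all (hb (t' + 1) (by omega) htt) he hj
      have h2 := mul_le_mul_of_nonneg_left (hM.rE hj.symm q) (mul_pos hxe hpa).le
      rw [add_zero, hM.toPos.r_self]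
      push_cast
      linarith
    | succ j ih =>
      intro hj
      have hjn := C.joins (t' + 1 + j) (by omega)
      have hjm : (j : ℝ) ≤ Fintype.card E := by exact_mod_cast (by omega : j ≤ Fintype.card E)
      have h3 := hM.rKW he.symm (C.v (t' + 1)) (C.v (t' + 1 + j))
      rw [r_comm _ p, r_comm _ p, r_comm (C.v (t' + 1 + j)) q] at h3
      have h := beta_step (by linarith) (by linarith) hxe (hM.x_pos (C.h (t' + 1 + j))) hpa
        (hM.toPos.r_pos hq (C.isV (t := t' + 1 + j) (by omega)))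
        (hM.toPos.r_pos hq (C.isV (t := t' + 1 + j + 1) (by omega))) (hM.beta_r_nonneg _ _)
        (hM.rKW hjn.symm (C.v (t' + 1)) q)
        (hM.bad_all (hb (t' + 1 + j) (by omega) (by omega)) he hjn) h3 (ih (by omega))
      rw [← add_assoc]
      push_cast
      linarith
  obtain ⟨j, rfl⟩ : ∃ j, t = t' + 1 + j := ⟨t - (t' + 1), by omega⟩
  have h := key j le_rfl
  have hjm : (j : ℝ) ≤ Fintype.card E := by exact_mod_cast (by omega : j ≤ Fintype.card E)
  have hN : 0 ≤ M.x (C.h s) * M.r p (C.v (t' + 1)) * M.r q (C.v (t' + 1 + j)) :=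
    mul_nonneg (mul_pos hxe hpa).le (hM.beta_r_nonneg _ _)
  have h1 : LL E ≤ 2 * (LL E - 2) := by linarith
  have h2 := mul_le_mul_of_nonneg_right h1 (hM.beta_r_nonneg (C.v (t' + 1)) (C.v (t' + 1 + j)))
  have h3 : 2 * (1 + 3 * (j : ℝ)) ≤ 6 * (2 * (Fintype.card E : ℝ) + 1) := by linarith
  have h4 := mul_le_mul_of_nonneg_right h3 hN
  linarith

theorem Ok.beta_cross (hM : M.Ok) {C : Cyc M.toGr} {s t' t : ℕ} (hD : M.Dbl C s t' t)
    {p q a a' b b' : V} (he : M.Joins (C.h s) p q) (hg : M.Joins (C.h t') a a')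
    (hg' : M.Joins (C.h t) b b') :
    M.x (C.h s) * M.x (C.h t') * M.x (C.h t) * (M.r p a * M.r a' b * M.r q b') ≤
      (6 * (2 * (Fintype.card E : ℝ) + 1) + 4) * LL E := by
  have hrun := hM.run hD he.symm
  obtain ⟨hst, htt, htl, hg1, hg2, -⟩ := hD
  have hG1 : M.Gd (C.h s) (C.h t') := hg1.resolve_left (by omega)
  have hG2 : M.Gd (C.h s) (C.h t) := hg2.resolve_left (by omega)
  have hj1 := C.joins t' (by omega)
  have hj2 := C.joins t htl
  have hL : (1 : ℝ) ≤ LL E := one_le_LL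
  have hc : (0 : ℝ) ≤ 6 * (2 * (Fintype.card E : ℝ) + 1) := by positivity
  have hx1 := hM.x_pos (C.h s)
  have hx2 := hM.x_pos (C.h t')
  have hx3 := hM.x_pos (C.h t)
  have hr := hM.beta_r_nonneg
  generalize 6 * (2 * (Fintype.card E : ℝ) + 1) = c at *
  have h0 : M.x (C.h s) * M.x (C.h t') * M.x (C.h t) *
      (M.r p (C.v t') * M.r (C.v (t' + 1)) (C.v t) * M.r q (C.v (t + 1))) ≤ c * LL E := by
    have h1 := hG1 p q _ _ he hj1
    have h2 := hG2 p q _ _ he hj2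
    have h3 := mul_le_mul h1 h2 (mul_nonneg (mul_nonneg (mul_pos hx1 hx3).le (hr _ _)) (hr _ _))
      (by linarith)
    have h4 := mul_le_mul_of_nonneg_left h3 hc
    have h5 := mul_le_mul_of_nonneg_left hrun
      (show 0 ≤ M.x (C.h s) * M.x (C.h t') * M.x (C.h t) * M.r p (C.v t') * M.r q (C.v (t + 1)) from
        mul_nonneg (mul_nonneg (by positivity) (hr _ _)) (hr _ _))
    refine le_of_mul_le_mul_left ?_ (show 0 < LL E by linarith)
    linarith
  have hα : ∀ β β', M.Joins (C.h t) β β' → M.x (C.h s) * M.x (C.h t') * M.x (C.h t) *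
      (M.r p (C.v (t' + 1)) * M.r (C.v t') β * M.r q β') ≤ M.x (C.h s) * M.x (C.h t') * M.x (C.h t) *
      (M.r p (C.v t') * M.r (C.v (t' + 1)) β * M.r q β') + 2 * LL E := by
    intro β β' hβ
    have h1 := hM.rKW hj1.symm p β
    rw [r_comm β, r_comm β] at h1
    have h2 := mul_le_mul_of_nonneg_left h1
      (show 0 ≤ M.x (C.h s) * M.x (C.h t) * M.r q β' from mul_nonneg (by positivity) (hr _ _))
    have h3 := hG2 p q _ _ he hβ
    linarith
  have hβ : ∀ α α', M.Joins (C.h t') α α' → M.x (C.h s) * M.x (C.h t') * M.x (C.h t) *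
      (M.r p α * M.r α' (C.v (t + 1)) * M.r q (C.v t)) ≤ M.x (C.h s) * M.x (C.h t') * M.x (C.h t) *
      (M.r p α * M.r α' (C.v t) * M.r q (C.v (t + 1))) + 2 * LL E := by
    intro α α' hα
    have h1 := hM.rKW hj2.symm α' q
    rw [r_comm α' q] at h1
    have h2 := mul_le_mul_of_nonneg_left h1
      (show 0 ≤ M.x (C.h s) * M.x (C.h t') * M.r p α from mul_nonneg (by positivity) (hr _ _))
    have h3 := hG1 p q _ _ he hα
    linarith
  have h1 := hα _ _ hj2
  have h2 := hβ _ _ hj1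
  have h3 := hβ _ _ hj1.symm
  rcases hj1.cases hg with ⟨h4, h5⟩ | ⟨h4, h5⟩ <;> rcases hj2.cases hg' with ⟨h6, h7⟩ | ⟨h6, h7⟩ <;>
    rw [h4, h5, h6, h7] <;> linarith

theorem Ok.cross (hM : M.Ok) {C : Cyc M.toGr} {s t' t : ℕ} (hD : M.Dbl C s t' t) {p q a a' b b' : V}
    (he : M.Joins (C.h s) p q) (hg : M.Joins (C.h t') a a') (hg' : M.Joins (C.h t) b b') :
    M.x (C.h s) * M.x (C.h t') * M.x (C.h t) * (M.r p a * M.r a' b * M.r q b') ≤ LL E ^ 2 := by
  have h := hM.beta_cross hD he hg hg'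
  have hm0 : (0 : ℝ) ≤ Fintype.card E := Nat.cast_nonneg _
  have hL : (1 : ℝ) ≤ LL E := one_le_LL
  have h1 : 6 * (2 * (Fintype.card E : ℝ) + 1) + 4 ≤ LL E := by
    unfold LL
    nlinarith
  have h2 := mul_le_mul_of_nonneg_right h1 (show 0 ≤ LL E by linarith)
  rw [sq]
  linarith

theorem Ok.good_child (hM : M.Ok) {C : Cyc M.toGr} {s t' t : ℕ} (hD : M.Dbl C s t' t) :
    M.Good C t' t := by
  have he := M.toGr.joins_src_tgt (C.h s)
  have hrun := hM.run hD he
  have hj1 := C.joins t' (by have := hD.2.1; have := hD.2.2.1; omega)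
  have hj2 := C.joins t hD.2.2.1
  have hN := hM.beta_cross hD he hj1.symm hj2.symm
  have hm0 : (0 : ℝ) ≤ Fintype.card E := Nat.cast_nonneg _
  have hL : (1 : ℝ) ≤ LL E := one_le_LL
  have hc : (0 : ℝ) ≤ 6 * (2 * (Fintype.card E : ℝ) + 1) := by positivity
  have hcL : 6 * (2 * (Fintype.card E : ℝ) + 1) * (6 * (2 * (Fintype.card E : ℝ) + 1) + 4) + 2 ≤
      LL E := by
    unfold LL
    nlinarith
  have hx2 := hM.x_pos (C.h t')
  have hx3 := hM.x_pos (C.h t)
  have hr := hM.beta_r_nonneg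
  generalize 6 * (2 * (Fintype.card E : ℝ) + 1) = c at *
  have h0 : M.x (C.h t') * M.x (C.h t) * M.r (C.v (t' + 1)) (C.v t) * M.r (C.v t') (C.v (t + 1)) ≤
      c * (c + 4) := by
    have h1 := mul_le_mul_of_nonneg_left hN hc
    have h2 := mul_le_mul_of_nonneg_left hrun
      (show 0 ≤ M.x (C.h t') * M.x (C.h t) * M.r (C.v t') (C.v (t + 1)) from
        mul_nonneg (by positivity) (hr _ _))
    refine le_of_mul_le_mul_left ?_ (show 0 < LL E by linarith)
    linarith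
  have h1 := mul_le_mul_of_nonneg_left (hM.rKW hj2.symm (C.v (t' + 1)) (C.v t')) hx2.le
  have h2 := hM.rE1 hj1.symm
  refine Or.inr fun a a' b b' hg hg' => ?_
  rcases hj1.cases hg with ⟨h4, h5⟩ | ⟨h4, h5⟩ <;> rcases hj2.cases hg' with ⟨h6, h7⟩ | ⟨h6, h7⟩ <;>
    rw [h4, h5, h6, h7] <;> linarith

end Model

end Crest.Agent.R304
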