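import Crest.Agent.R304.Pair

/-!
# Row 304: Chain
* `P_adj`, `dir_eq` from `sum_flip`: `ex (φ * (ψ - P ψ)) = (1 / (N^2 |Λ|)) ∑_{i≠j} ∑ l, ex (acc * φ σ * (ψ σ - ψ σ'))`, symmetrise.
* `psd`: `dir_eq`, `Eij_le_nsq` (at most `N^2` pairs).
* `decay`: `a k = ex (F * P^[k] F)`, `d k = a k - a (k+1)`; `d k - d (k+1) = ex (χ * P^[k] χ) ≥ 0` for `χ = F - P F` (`k` even: a square; odd: `psd`), `∑_{k ≤ 2s} d k = a 0 - a (2s+1) ≤ a 0`, and
  `d (2s) = ex (ψ (ψ - P ψ))` for `ψ = P^[s] F`.  It may be convenient to prove this for an abstract symmetric bilinear form and a self-adjoint linear map.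
* `drift`: `W ρ σ = W π σ * ∏ (1 + v (σ i))`; `ψ = P^[s] F`, `|ψ| ≤ 1`, `ex π ψ = ex π F`; `ex ρ ψ - ex π ψ = ex π ((∑ v) ψ) + ex π ((∏ (1+v) - 1 - ∑ v) ψ)`; `first_order`, `A1_le`, `decay`
  (`Etot ψ ≤ N^2 / (2s+1) ≤ 1 / (2N)`, so `N A1 ≤ 87 C^2 / N`), `prod_sub_le`.
-/

set_option autoImplicit false
set_option linter.unusedSectionVars false

noncomputable section

namespace Crest.Agent.R304

open Finset

variable {Ω Λ : Type} [Fintype Ω] [DecidableEq Ω] [Fintype Λ] {N : ℕ}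

/-- decay of the energy along the iterates of a positive self-adjoint map -/
theorem chain_decay {V : Type} [AddCommGroup V] (B : V → V → ℝ) (T : V → V)
    (hs : ∀ x y, B x y = B y x) (hB : ∀ x y z, B (x - y) z = B x z - B y z)
    (hT : ∀ x y, T (x - y) = T x - T y) (ha : ∀ x y, B x (T y) = B (T x) y)
    (h0 : ∀ x, 0 ≤ B x x) (h1 : ∀ x, 0 ≤ B x (T x)) (F : V) (s : ℕ) :
    (2 * s + 1) * (B (T^[s] F) (T^[s] F) - B (T^[s] F) (T (T^[s] F))) ≤ B F F := by
  have hit : ∀ (m : ℕ) x y, B (T^[m] x) y = B x (T^[m] y) := by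
    intro m
    induction m with
    | zero => intro x y; rfl
    | succ m ih => intro x y; rw [Function.iterate_succ_apply', ← ha, ih, ← Function.iterate_succ_apply]
  have hsub : ∀ (m : ℕ) x y, T^[m] (x - y) = T^[m] x - T^[m] y := by
    intro m
    induction m with
    | zero => intro x y; rfl
    | succ m ih => intro x y; simp only [Function.iterate_succ_apply', ih, hT]
  have hpos : ∀ (k : ℕ) x, 0 ≤ B x (T^[k] x) := by
    intro k x
    obtain ⟨m, rfl | rfl⟩ := Nat.even_or_odd' k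
    · rw [two_mul, Function.iterate_add_apply, ← hit]; exact h0 _
    · rw [show 2 * m + 1 = m + (m + 1) by ring, Function.iterate_add_apply, ← hit,
        Function.iterate_succ_apply']
      exact h1 _
  set a : ℕ → ℝ := fun k => B F (T^[k] F) with hadef
  have hanti : Antitone fun k => a k - a (k + 1) := by
    refine antitone_nat_of_succ_le fun k => ?_
    have h := hpos k (F - T F)
    rw [hsub, hB, hs F, hs (T F), hB, hB, hs _ F, hs _ F, hs _ (T F), hs _ (T F), ← ha, ← ha,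
      ← Function.iterate_succ_apply T k F, ← Function.iterate_succ_apply' T k F,
      ← Function.iterate_succ_apply' T (k + 1) F] at h
    simp only [hadef]
    linarith
  have hsum : ∑ k ∈ range (2 * s + 1), (a k - a (k + 1)) = a 0 - a (2 * s + 1) :=
    Finset.sum_range_sub' a _
  have hle : ∑ _k ∈ range (2 * s + 1), (a (2 * s) - a (2 * s + 1))
      ≤ ∑ k ∈ range (2 * s + 1), (a k - a (k + 1)) :=
    Finset.sum_le_sum fun k hk => hanti (Nat.lt_succ_iff.1 (mem_range.1 hk))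
  have e1 : B (T^[s] F) (T^[s] F) = a (2 * s) := by
    rw [hit, ← Function.iterate_add_apply, ← two_mul]
  have e2 : B (T^[s] F) (T (T^[s] F)) = a (2 * s + 1) := by
    rw [hit, ← Function.iterate_succ_apply' T s F, ← Function.iterate_add_apply]
    simp only [hadef]
    congr 2
    omega
  rw [sum_const, card_range, nsmul_eq_mul, hsum] at hle
  push_cast at hle
  have := hpos (2 * s + 1) F
  have e0 : a 0 = B F F := rfl
  rw [e1, e2]
  simp only [hadef] at *
  linarith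

namespace PC

variable (K : PC Ω Λ)

include K in
theorem chain_card_pos : (0 : ℝ) < Fintype.card Λ := by
  have := K.ne
  exact_mod_cast Fintype.card_pos

theorem chain_P_sub (φ ψ : (Fin N → Ω) → ℝ) : K.P (φ - ψ) = K.P φ - K.P ψ := by
  funext σ
  simp only [P, Pi.sub_apply, ← sub_div, ← sum_sub_distrib]
  congr 1
  refine sum_congr rfl fun i _ => sum_congr rfl fun j _ => sum_congr rfl fun l _ => ?_
  split_ifs <;> ring

theorem chain_P_const (hN : 0 < N) (c : ℝ) : K.P (fun _ : Fin N → Ω => c) = fun _ => c := by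
  funext σ
  have h1 := K.chain_card_pos
  have h2 : (0 : ℝ) < N := by exact_mod_cast hN
  have : ∀ (i j : Fin N) (l : Λ), (if i = j then c else
      K.acc l (σ i) (σ j) * c + (1 - K.acc l (σ i) (σ j)) * c) = c := fun i j l => by
    split_ifs <;> ring
  simp only [P, this, sum_const, card_univ, Fintype.card_fin, nsmul_eq_mul]
  field_simp

theorem chain_P_nonneg {F : (Fin N → Ω) → ℝ} (hF : ∀ σ, 0 ≤ F σ) (σ : Fin N → Ω) :
    0 ≤ K.P F σ := by
  refine div_nonneg (sum_nonneg fun i _ => sum_nonneg fun j _ => sum_nonneg fun l _ => ?_)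
    (by positivity)
  split_ifs
  · exact hF σ
  · exact add_nonneg (mul_nonneg (K.acc_nonneg _ _ _) (hF _))
      (mul_nonneg (by linarith [K.acc_le l (σ i) (σ j)]) (hF _))

theorem chain_ex_mul_P (φ ψ : (Fin N → Ω) → ℝ) :
    ex K.π (fun σ => φ σ * K.P ψ σ) =
      (∑ i : Fin N, ∑ j : Fin N, if i = j then Fintype.card Λ * ex K.π (fun σ => φ σ * ψ σ) else
        (∑ l, ex K.π fun σ => K.acc l (σ i) (σ j) * (φ σ * ψ (K.step i j l σ))) +
          (Fintype.card Λ * ex K.π (fun σ => φ σ * ψ σ)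
            - ∑ l, ex K.π fun σ => K.acc l (σ i) (σ j) * (φ σ * ψ σ))) /
        ((N : ℝ) ^ 2 * Fintype.card Λ) := by
  have e : (fun σ => φ σ * K.P ψ σ) = fun σ => ((N : ℝ) ^ 2 * Fintype.card Λ)⁻¹ *
      ∑ i : Fin N, ∑ j : Fin N, ∑ l, φ σ * (if i = j then ψ σ else
        K.acc l (σ i) (σ j) * ψ (K.step i j l σ) + (1 - K.acc l (σ i) (σ j)) * ψ σ) := by
    funext σ
    simp only [P, ← mul_sum]
    ring
  rw [e, ex_mul_left, div_eq_inv_mul, ex_sum]
  congr 1
  refine sum_congr rfl fun i _ => ?_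
  rw [ex_sum]
  refine sum_congr rfl fun j _ => ?_
  rw [ex_sum]
  by_cases hij : i = j
  · simp [hij]
  · simp only [if_neg hij]
    have : ∀ l, (ex K.π fun σ => φ σ * (K.acc l (σ i) (σ j) * ψ (K.step i j l σ)
        + (1 - K.acc l (σ i) (σ j)) * ψ σ)) =
        (ex K.π fun σ => K.acc l (σ i) (σ j) * (φ σ * ψ (K.step i j l σ))) +
          (ex K.π (fun σ => φ σ * ψ σ) - ex K.π fun σ => K.acc l (σ i) (σ j) * (φ σ * ψ σ)) := by
      intro l
      rw [← ex_sub, ← ex_add]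
      congr 1
      funext σ
      ring
    simp only [this, sum_add_distrib, sum_sub_distrib, sum_const, card_univ, nsmul_eq_mul]

theorem chain_self (hN : 0 < N) (ψ : (Fin N → Ω) → ℝ) :
    ex K.π (fun σ => ψ σ * K.P ψ σ) = K.nsq ψ - K.Etot ψ / (N : ℝ) ^ 2 := by
  have h1 := K.chain_card_pos
  have h2 : (0 : ℝ) < N := by exact_mod_cast hN
  have hn : ex K.π (fun σ => ψ σ * ψ σ) = K.nsq ψ := by simp only [nsq, sq]
  have key : ∀ i j : Fin N, (if i = j then Fintype.card Λ * ex K.π (fun σ => ψ σ * ψ σ) else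
        (∑ l, ex K.π fun σ => K.acc l (σ i) (σ j) * (ψ σ * ψ (K.step i j l σ))) +
          (Fintype.card Λ * ex K.π (fun σ => ψ σ * ψ σ)
            - ∑ l, ex K.π fun σ => K.acc l (σ i) (σ j) * (ψ σ * ψ σ)))
      = Fintype.card Λ * (K.nsq ψ - if i = j then 0 else K.Eij i j ψ) := by
    intro i j
    rw [hn]
    by_cases hij : i = j
    · simp [hij]
    · simp only [if_neg hij]
      have hf := K.sum_flip hij fun _ b => ψ b * ψ b
      have : ∀ l, (ex K.π fun σ => K.acc l (σ i) (σ j) * (ψ σ - ψ (K.step i j l σ)) ^ 2) =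
          (ex K.π fun σ => K.acc l (σ i) (σ j) * (ψ σ * ψ σ)) +
          (ex K.π fun σ => K.acc l (σ i) (σ j) * (ψ (K.step i j l σ) * ψ (K.step i j l σ))) -
          2 * ex K.π fun σ => K.acc l (σ i) (σ j) * (ψ σ * ψ (K.step i j l σ)) := by
        intro l
        rw [← ex_mul_left, ← ex_add, ← ex_sub]
        congr 1
        funext σ
        ring
      simp only [Eij, this, sum_add_distrib, sum_sub_distrib, ← mul_sum, hf]
      field_simp
      ring
  rw [chain_ex_mul_P]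
  simp only [key, ← mul_sum, sum_sub_distrib, sum_const, card_univ, Fintype.card_fin,
    nsmul_eq_mul, Etot]
  field_simp

theorem P_abs_le (hN : 0 < N) {F : (Fin N → Ω) → ℝ} (hF : ∀ σ, |F σ| ≤ 1) (σ : Fin N → Ω) : |K.P F σ| ≤ 1 := by
  have h1 := K.chain_P_nonneg (F := (fun _ => 1) - F)
    (fun τ => sub_nonneg.2 (le_of_abs_le (hF τ))) σ
  have h2 := K.chain_P_nonneg (F := F - fun _ => -1)
    (fun τ => sub_nonneg.2 (neg_le_of_abs_le (hF τ))) σ
  rw [chain_P_sub, K.chain_P_const hN] at h1 h2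
  simp only [Pi.sub_apply] at h1 h2
  rw [abs_le]
  constructor <;> linarith

theorem P_iter_abs_le (hN : 0 < N) {F : (Fin N → Ω) → ℝ} (hF : ∀ σ, |F σ| ≤ 1) (s : ℕ) (σ : Fin N → Ω) :
    |K.P^[s] F σ| ≤ 1 := by
  induction s generalizing σ with
  | zero => exact hF σ
  | succ s ih => rw [Function.iterate_succ_apply']; exact K.P_abs_le hN ih σ

theorem P_adj (φ ψ : (Fin N → Ω) → ℝ) :
    ex K.π (fun σ => φ σ * K.P ψ σ) = ex K.π fun σ => K.P φ σ * ψ σ := by
  have e : (fun σ => K.P φ σ * ψ σ) = fun σ => ψ σ * K.P φ σ := funext fun σ => mul_comm _ _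
  rw [e, chain_ex_mul_P, chain_ex_mul_P]
  congr 1
  refine sum_congr rfl fun i _ => sum_congr rfl fun j _ => ?_
  simp only [mul_comm (ψ _)]
  split_ifs with hij
  · rfl
  · rw [K.sum_flip hij fun a b => φ a * ψ b]

theorem ex_P (hN : 0 < N) (ψ : (Fin N → Ω) → ℝ) : ex K.π (K.P ψ) = ex K.π ψ := by
  have h := K.P_adj (fun _ => 1) ψ
  rw [K.chain_P_const hN] at h
  simpa using h

theorem dir_eq (hN : 0 < N) (ψ : (Fin N → Ω) → ℝ) :
    ex K.π (fun σ => ψ σ * (ψ σ - K.P ψ σ)) = K.Etot ψ / (N : ℝ) ^ 2 := by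
  simp only [mul_sub, ex_sub, K.chain_self hN, ← sq]
  simp [nsq]

theorem psd (hN : 0 < N) (ψ : (Fin N → Ω) → ℝ) : 0 ≤ ex K.π fun σ => ψ σ * K.P ψ σ := by
  have h2 : (0 : ℝ) < N := by exact_mod_cast hN
  rw [K.chain_self hN, sub_nonneg, div_le_iff₀ (by positivity)]
  calc K.Etot ψ ≤ ∑ _i : Fin N, ∑ _j : Fin N, K.nsq ψ :=
        sum_le_sum fun i _ => sum_le_sum fun j _ => by
          split_ifs with hij
          · exact K.nsq_nonneg ψ
          · exact K.Eij_le_nsq hij ψ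
    _ = _ := by simp; ring

theorem decay (hN : 0 < N) (F : (Fin N → Ω) → ℝ) (s : ℕ) :
    K.Etot (K.P^[s] F) / (N : ℝ) ^ 2 ≤ K.nsq F / (2 * s + 1) := by
  have h := chain_decay (fun φ ψ : (Fin N → Ω) → ℝ => ex K.π fun σ => φ σ * ψ σ) K.P
    (fun φ ψ => by simp only [mul_comm]) (fun φ ψ χ => by simp only [Pi.sub_apply, sub_mul, ex_sub])
    K.chain_P_sub K.P_adj (fun φ => by simpa only [nsq, sq] using K.nsq_nonneg φ) (K.psd hN) F s
  simp only [K.chain_self hN, ← sq] at h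
  rw [le_div_iff₀ (by positivity)]
  simp only [nsq] at h ⊢
  linarith

/-- the particle system follows a small change of the weights -/
theorem drift {C δ : ℝ} (h : K.LI C) (hC : 1 ≤ C) (hN : 4 ≤ N) {s : ℕ} (hs : N ^ 3 ≤ s) {ρ : Ω → ℝ}
    (hρ : ∑ x, ρ x = 1) (hv : ∀ x, |ρ x - K.π x| ≤ δ * K.π x) (hδ : N * δ ≤ 1)
    {F : (Fin N → Ω) → ℝ} (hF : ∀ σ, |F σ| ≤ 1) :
    |ex ρ (K.P^[s] F) - ex K.π F| ≤ 10 * C * δ / Real.sqrt N + (N * δ) ^ 2 := by
  have hN0 : 0 < N := by omega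
  have hNr : (4 : ℝ) ≤ N := by exact_mod_cast hN
  have hπ : ∀ x, 0 ≤ K.π x := fun x => (K.pos x).le
  set v : Ω → ℝ := fun x => (ρ x - K.π x) / K.π x with hvdef
  have hv1 : ∀ x, |v x| ≤ δ := fun x => by
    rw [hvdef, abs_div, abs_of_pos (K.pos x), div_le_iff₀ (K.pos x)]
    exact hv x
  have hmul : ∀ x, K.π x * v x = ρ x - K.π x := fun x => mul_div_cancel₀ _ (K.pos x).ne'
  have hv0 : ∑ x, K.π x * v x = 0 := by
    simp only [hmul, sum_sub_distrib, hρ, K.sum_one, sub_self]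
  have hδ0 : 0 ≤ δ := by
    by_contra hneg
    have : ∀ x : Ω, False := fun x => hneg ((abs_nonneg _).trans (hv1 x))
    have h1 := K.sum_one
    rw [sum_eq_zero fun x _ => (this x).elim] at h1
    exact zero_ne_one h1
  set ψ := K.P^[s] F with hψ
  have hψ1 : ∀ σ, |ψ σ| ≤ 1 := K.P_iter_abs_le hN0 hF s
  have hex : ex K.π ψ = ex K.π F := by
    rw [hψ]
    clear hψ1 hψ hs
    induction s with
    | zero => rfl
    | succ s ih => rw [Function.iterate_succ_apply', K.ex_P hN0]; exact ih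
  have hnsq : ∀ φ : (Fin N → Ω) → ℝ, (∀ σ, |φ σ| ≤ 1) → K.nsq φ ≤ 1 := fun φ hφ =>
    (ex_mono hπ fun σ => (sq_le_one_iff_abs_le_one _).2 (hφ σ)).trans_eq (ex_const K.sum_one 1)
  have hsplit : ex ρ ψ - ex K.π ψ = (ex K.π fun σ => (∑ i, v (σ i)) * ψ σ) +
      ex K.π fun σ => (∏ i, (1 + v (σ i)) - 1 - ∑ i, v (σ i)) * ψ σ := by
    have hW : ∀ σ : Fin N → Ω, W ρ σ = W K.π σ * ∏ i, (1 + v (σ i)) := fun σ => by
      simp only [W, ← prod_mul_distrib, mul_add, mul_one, hmul, add_sub_cancel]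
    simp only [ex, ← sum_sub_distrib, ← sum_add_distrib, hW]
    exact sum_congr rfl fun σ _ => by ring
  have h2 : |ex K.π fun σ => (∏ i, (1 + v (σ i)) - 1 - ∑ i, v (σ i)) * ψ σ| ≤ (N * δ) ^ 2 := by
    have hb : ∀ σ : Fin N → Ω,
        |(∏ i, (1 + v (σ i)) - 1 - ∑ i, v (σ i)) * ψ σ| ≤ (N * δ) ^ 2 := fun σ => by
      rw [abs_mul]
      exact (mul_le_mul (prod_sub_le (fun i => v (σ i)) (fun i => hv1 _) hδ) (hψ1 σ)
        (abs_nonneg _) (sq_nonneg _)).trans_eq (mul_one _)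
    exact abs_le.2 ⟨(ex_const K.sum_one _).symm.trans_le (ex_mono hπ fun σ => (abs_le.1 (hb σ)).1),
      (ex_mono hπ fun σ => (abs_le.1 (hb σ)).2).trans_eq (ex_const K.sum_one _)⟩
  have hE : K.Etot ψ ≤ 1 / (2 * N) := by
    have h3 := K.decay hN0 F s
    have hs' : (N : ℝ) ^ 3 ≤ s := by exact_mod_cast hs
    have h4 : K.nsq F / (2 * s + 1) ≤ 1 / (2 * (N : ℝ) ^ 3) :=
      div_le_div₀ zero_le_one (hnsq F hF) (by positivity) (by linarith)
    have h5 := h3.trans h4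
    rw [div_le_iff₀ (by positivity)] at h5
    refine h5.trans_eq ?_
    field_simp
  have h1 : |ex K.π fun σ => (∑ i, v (σ i)) * ψ σ| ≤ 10 * C * δ / Real.sqrt N := by
    refine abs_le_of_sq_le_sq ?_ (by positivity)
    refine (K.first_order v hv1 hv0 ψ).trans ?_
    have h6 : N * ∑ i, K.nsq (K.H1 i ψ) ≤ 100 * C ^ 2 / N := by
      refine (h.A1_le hC hN ψ).trans ?_
      calc 46 * C ^ 2 * K.Etot ψ + 64 * C ^ 2 / N * K.nsq ψ
          ≤ 46 * C ^ 2 * (1 / (2 * N)) + 64 * C ^ 2 / N * 1 := by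
            gcongr
            exact hnsq ψ hψ1
        _ = 87 * C ^ 2 / N := by field_simp; ring
        _ ≤ 100 * C ^ 2 / N := by gcongr; norm_num
    calc δ ^ 2 * (N * ∑ i, K.nsq (K.H1 i ψ)) ≤ δ ^ 2 * (100 * C ^ 2 / N) := by gcongr
      _ = _ := by rw [div_pow, Real.sq_sqrt (by positivity)]; ring
  rw [← hex, hsplit]
  exact (abs_add_le _ _).trans (add_le_add h1 h2)

end PC

end Crest.Agent.R304
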