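import Crest.Agent.R304.CycLI

/-!
# Row 304: Close
* `Pos.sec_LI` (arbitrary positive weights): let `Dg = {e | 1 < x e}`, `M'` the model with the same graph, `x' e = if 1 < x e then (x e)⁻¹ else x e`, `T' = T + bd Dg`.  `X ↦ X ∆ Dg` is a bijection
  `M.Om A → M'.Om A`, `wt x X = wt x Dg * wt x' (X ∆ Dg)`, so `Z`, `pi` correspond; `swS a (X ∆ Dg) (Y ∆ Dg) = swS a X Y`, so `Tsec` corresponds for the functions `· ∘ (· ∆ Dg)`.  Apply `Ok.sec_LI` to `M'`.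
* `LI`: `Φ u v X = f (X ∆ c u v)`, `Ψ u v Y = g (Y ∆ c u v)`; `(X, Y) ↦ (X ∆ c1, Y ∆ c2)` maps the terms of `Tsec` injectively to terms of `Tmv`, and `min (a b) (a' b') ≤ κ^2 min …` by `Closure.le`;
  so `Small Φ Ψ (κ ^ 2 * D)`.
-/

set_option autoImplicit false

noncomputable section

namespace Crest.Agent.R304

open Finset
open scoped symmDiff

variable {E V : Type} [Fintype E] [DecidableEq E] [DecidableEq V]

namespace Model

variable {M : Model E V}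

omit [Fintype E] in
theorem Close_sum {S S' : Finset (Finset E)} {J : Finset E} (h : ∀ X, X ∈ S' ↔ X ∆ J ∈ S)
    (φ : Finset E → ℝ) : ∑ X ∈ S, φ X = ∑ X ∈ S', φ (X ∆ J) := by
  refine Finset.sum_nbij' (fun X => X ∆ J) (fun X => X ∆ J) ?_ ?_ ?_ ?_ ?_
  · intro X hX
    rw [h, symmDiff_symmDiff_cancel_right]
    exact hX
  · intro X hX
    exact (h X).1 hX
  · intro X _
    exact symmDiff_symmDiff_cancel_right _ _
  · intro X _
    exact symmDiff_symmDiff_cancel_right _ _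
  · intro X _
    rw [symmDiff_symmDiff_cancel_right]

theorem Close_add_iff {A B C : V → ZMod 2} : A = B + C ↔ A + C = B := by
  constructor
  · rintro rfl
    rw [add_assoc, add_self_fn, add_zero]
  · rintro rfl
    rw [add_assoc, add_self_fn, add_zero]

theorem Close_wt_eq (x : E → ℝ) (X : Finset E) : wt x X = ∏ e, if e ∈ X then x e else 1 := by
  simp [wt, Finset.prod_ite_mem]

/-- the edges of weight larger than one -/
def Close_Dg (M : Model E V) : Finset E := univ.filter fun e => 1 < M.x e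

/-- the model with the large weights inverted -/
def Close_flip (M : Model E V) : Model E V :=
  ⟨M.toGr, fun e => if 1 < M.x e then (M.x e)⁻¹ else M.x e, M.T + M.bd (Close_Dg M)⟩

theorem Close_mem (A : V → ZMod 2) (X : Finset E) :
    X ∈ (Close_flip M).Om A ↔ X ∆ Close_Dg M ∈ M.Om A := by
  rw [mem_Om, mem_Om, Gr.bd_symmDiff, ← Close_add_iff, add_right_comm]
  rfl

theorem Close_wt (hM : M.Pos) (X : Finset E) :
    wt M.x (X ∆ Close_Dg M) = wt M.x (Close_Dg M) * wt (Close_flip M).x X := by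
  rw [Close_wt_eq, Close_wt_eq, Close_wt_eq, ← Finset.prod_mul_distrib]
  refine Finset.prod_congr rfl fun e _ => ?_
  have h0 := (hM.x_pos e).ne'
  by_cases h1 : e ∈ X <;> by_cases h2 : 1 < M.x e <;>
    simp [Close_Dg, Close_flip, mem_symmDiff, h0, h1, h2]

theorem Close_Z (hM : M.Pos) (A : V → ZMod 2) :
    M.Z A = wt M.x (Close_Dg M) * (Close_flip M).Z A := by
  unfold Z
  rw [Close_sum (Close_mem A), Finset.mul_sum]
  exact Finset.sum_congr rfl fun X _ => Close_wt hM X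

theorem Close_pi (hM : M.Pos) (A : V → ZMod 2) (X : Finset E) :
    M.pi A (X ∆ Close_Dg M) = (Close_flip M).pi A X := by
  unfold pi
  rw [Close_wt hM, Close_Z hM, mul_div_mul_left _ _ (wt_pos hM.x_pos _).ne']

theorem Close_ok (hM : M.Pos) (hc : M.Cubic) : (Close_flip M).Ok where
  x_pos e := by
    have := hM.x_pos e
    simp only [Close_flip]
    split_ifs <;> positivity
  Z0 := by
    have h := hM.Z0
    rw [Close_Z hM] at h
    exact (mul_pos_iff_of_pos_left (wt_pos hM.x_pos _)).1 h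
  Zp u v hu hv := by
    have h := hM.Zp u v hu hv
    rw [Close_Z hM] at h
    exact (mul_pos_iff_of_pos_left (wt_pos hM.x_pos _)).1 h
  cubic := hc
  x_le e := by
    simp only [Close_flip]
    split_ifs with h
    · exact inv_le_one_of_one_le₀ h.le
    · exact not_lt.1 h

theorem Close_swS (G : Gr E V) (a : Sw E) (X Y J : Finset E) :
    G.swS a (X ∆ J) (Y ∆ J) = G.swS a X Y := by
  unfold Gr.swS
  rw [symmDiff_symmDiff_symmDiff_comm, symmDiff_self, symmDiff_bot]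

theorem Close_sw1 (G : Gr E V) (a : Sw E) (X Y J : Finset E) :
    G.sw1 a (X ∆ J) (Y ∆ J) = G.sw1 a X Y ∆ J := by
  unfold Gr.sw1
  rw [Close_swS, symmDiff_right_comm X J, symmDiff_right_comm _ J]

theorem Close_sw2 (G : Gr E V) (a : Sw E) (X Y J : Finset E) :
    G.sw2 a (X ∆ J) (Y ∆ J) = G.sw2 a X Y ∆ J := by
  unfold Gr.sw2
  rw [Close_swS, symmDiff_right_comm Y J, symmDiff_right_comm _ J]

theorem Close_Tsec (hM : M.Pos) (a : Sw E) (A B A' B' : V → ZMod 2) (f g f' g' : Finset E → ℝ) :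
    (Close_flip M).Tsec a A B A' B' (fun X => f (X ∆ Close_Dg M)) (fun X => g (X ∆ Close_Dg M))
      (fun X => f' (X ∆ Close_Dg M)) (fun X => g' (X ∆ Close_Dg M)) =
      M.Tsec a A B A' B' f g f' g' := by
  unfold Tsec
  rw [Close_sum (Close_mem (M := M) A)]
  refine Finset.sum_congr rfl fun X _ => ?_
  rw [Close_sum (Close_mem (M := M) B)]
  refine Finset.sum_congr rfl fun Y _ => ?_
  rw [Close_sw1, Close_sw2, Close_pi hM, Close_pi hM, Close_pi hM, Close_pi hM]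
  exact if_congr (and_congr (Close_mem _ _) (Close_mem _ _)) rfl rfl

theorem Close_mem_c {c : V → V → Finset E} {κ : ℝ} (hcl : M.Closure c κ) {u v : V} (hu : M.IsV u)
    (hv : M.IsV v) (X : Finset E) : X ∈ M.Om 0 ↔ X ∆ c u v ∈ M.Om (pr u v) := by
  rw [mem_Om, mem_Om, Gr.bd_symmDiff, hcl.bd_c u v hu hv, add_zero, add_left_inj]

theorem Close_mem_c' {c : V → V → Finset E} {κ : ℝ} (hcl : M.Closure c κ) {u v : V} (hu : M.IsV u)
    (hv : M.IsV v) (X : Finset E) : X ∈ M.Om (pr u v) ↔ X ∆ c u v ∈ M.Om 0 := by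
  rw [Close_mem_c hcl hu hv, symmDiff_symmDiff_cancel_right]

theorem Close_pi_mul (hM : M.Pos) {c : V → V → Finset E} {κ : ℝ} (hκ : 0 ≤ κ) (hcl : M.Closure c κ)
    {u v u' v' : V} (hu : M.IsV u) (hv : M.IsV v) (hu' : M.IsV u') (hv' : M.IsV v') {X Y : Finset E}
    (hX : X ∈ M.Om (pr u v)) (hY : Y ∈ M.Om (pr u' v')) :
    M.pi (pr u v) X * M.pi (pr u' v') Y ≤ κ ^ 2 * (M.pi 0 (X ∆ c u v) * M.pi 0 (Y ∆ c u' v')) := by
  refine (mul_le_mul (hcl.le u v hu hv X hX) (hcl.le u' v' hu' hv' Y hY) (hM.pi_nonneg _ _)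
    (mul_nonneg hκ (hM.pi_nonneg _ _))).trans (le_of_eq ?_)
  ring

theorem Close_Tsec_le (hM : M.Pos) {c : V → V → Finset E} {κ : ℝ} (hκ : 0 ≤ κ) (hcl : M.Closure c κ)
    (f g : Finset E → ℝ) (a : Sw E) {u1 v1 u2 v2 u3 v3 u4 v4 : V} (h1 : M.IsV u1) (h1' : M.IsV v1)
    (h2 : M.IsV u2) (h2' : M.IsV v2) (h3 : M.IsV u3) (h3' : M.IsV v3) (h4 : M.IsV u4)
    (h4' : M.IsV v4) :
    M.Tsec a (pr u1 v1) (pr u2 v2) (pr u3 v3) (pr u4 v4) (fun X => f (X ∆ c u1 v1))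
      (fun X => g (X ∆ c u2 v2)) (fun X => f (X ∆ c u3 v3)) (fun X => g (X ∆ c u4 v4)) ≤
      κ ^ 2 * M.Tmv ⟨a, c u1 v1, c u2 v2, c u3 v3, c u4 v4⟩ f g := by
  unfold Tsec Tmv
  rw [Close_sum (Close_mem_c hcl h1 h1'), Finset.mul_sum]
  refine Finset.sum_le_sum fun X hX => ?_
  rw [Close_sum (Close_mem_c hcl h2 h2'), Finset.mul_sum]
  refine Finset.sum_le_sum fun Y hY => ?_
  simp only [Gr.mv1, Gr.mv2, symmDiff_symmDiff_cancel_right]
  by_cases h : M.sw1 a (X ∆ c u1 v1) (Y ∆ c u2 v2) ∈ M.Om (pr u3 v3) ∧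
      M.sw2 a (X ∆ c u1 v1) (Y ∆ c u2 v2) ∈ M.Om (pr u4 v4)
  · rw [if_pos h, if_pos ⟨(Close_mem_c' hcl h3 h3' _).1 h.1, (Close_mem_c' hcl h4 h4' _).1 h.2⟩,
      ← mul_assoc]
    refine mul_le_mul_of_nonneg_right ?_ (sq_nonneg _)
    rw [mul_min_of_nonneg _ _ (sq_nonneg κ)]
    refine min_le_min ?_ (Close_pi_mul hM hκ hcl h3 h3' h4 h4' h.1 h.2)
    have h5 := Close_pi_mul hM hκ hcl h1 h1' h2 h2' ((Close_mem_c hcl h1 h1' X).1 hX)
      ((Close_mem_c hcl h2 h2' Y).1 hY)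
    rwa [symmDiff_symmDiff_cancel_right, symmDiff_symmDiff_cancel_right] at h5
  · rw [if_neg h]
    refine mul_nonneg (sq_nonneg κ) ?_
    split_ifs
    · exact mul_nonneg (le_min (mul_nonneg (hM.pi_nonneg _ _) (hM.pi_nonneg _ _))
        (mul_nonneg (hM.pi_nonneg _ _) (hM.pi_nonneg _ _))) (sq_nonneg _)
    · exact le_rfl

theorem Pos.sec_LI (hM : M.Pos) (hc : M.Cubic) {Φ Ψ : V → V → Finset E → ℝ} {f : Finset E → ℝ} {D : ℝ}
    (hS : M.Small Φ Ψ D) (hD : 0 ≤ D) (hΦ : ∀ u, M.IsV u → Φ u u = f) :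
    ∑ I ∈ M.Om 0, ∑ F ∈ M.Om 0, M.pi 0 I * M.pi 0 F * (f I - f F) ^ 2 ≤
      10 ^ 6 * ((Fintype.card E : ℝ) + 1) ^ 14 * D := by
  have h := (Close_ok hM hc).sec_LI (Φ := fun u v X => Φ u v (X ∆ Close_Dg M))
    (Ψ := fun u v X => Ψ u v (X ∆ Close_Dg M)) (f := fun X => f (X ∆ Close_Dg M)) (D := D)
    (fun a ha u1 v1 u2 v2 u3 v3 u4 v4 h1 h1' h2 h2' h3 h3' h4 h4' =>
      (Close_Tsec hM a _ _ _ _ _ _ _ _).trans_le
        (hS a ha u1 v1 u2 v2 u3 v3 u4 v4 h1 h1' h2 h2' h3 h3' h4 h4')) hD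
    (fun u hu => by rw [hΦ u hu])
  refine le_trans (le_of_eq ?_) h
  rw [Close_sum (Close_mem (M := M) 0)]
  refine Finset.sum_congr rfl fun X _ => ?_
  rw [Close_sum (Close_mem (M := M) 0)]
  refine Finset.sum_congr rfl fun Y _ => ?_
  rw [Close_pi hM, Close_pi hM]

/-- the linear Poincaré inequality for the pair chain -/
theorem Pos.LI (hM : M.Pos) (hc : M.Cubic) {c : V → V → Finset E} {κ : ℝ} (hκ : 0 ≤ κ) (hcl : M.Closure c κ)
    (f g : Finset E → ℝ) {D : ℝ} (hD : 0 ≤ D)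
    (hS : ∀ a : Sw E, a.Adm → ∀ u1 v1 u2 v2 u3 v3 u4 v4 : V, M.IsV u1 → M.IsV v1 → M.IsV u2 → M.IsV v2 →
      M.IsV u3 → M.IsV v3 → M.IsV u4 → M.IsV v4 → M.Tmv ⟨a, c u1 v1, c u2 v2, c u3 v3, c u4 v4⟩ f g ≤ D) :
    ∑ I ∈ M.Om 0, ∑ F ∈ M.Om 0, M.pi 0 I * M.pi 0 F * (f I - f F) ^ 2 ≤
      10 ^ 6 * ((Fintype.card E : ℝ) + 1) ^ 14 * κ ^ 2 * D := by
  rw [mul_assoc _ (κ ^ 2) D]
  refine hM.sec_LI hc (Φ := fun u v X => f (X ∆ c u v)) (Ψ := fun u v X => g (X ∆ c u v))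
    (fun a ha u1 v1 u2 v2 u3 v3 u4 v4 h1 h1' h2 h2' h3 h3' h4 h4' =>
      (Close_Tsec_le hM hκ hcl f g a h1 h1' h2 h2' h3 h3' h4 h4').trans
        (mul_le_mul_of_nonneg_left (hS a ha u1 v1 u2 v2 u3 v3 u4 v4 h1 h1' h2 h2' h3 h3' h4 h4')
          (sq_nonneg κ))) (mul_nonneg (sq_nonneg κ) hD) fun u _ => ?_
  funext X
  rw [hcl.c_self, ← Finset.bot_eq_empty, symmDiff_bot]

end Model

end Crest.Agent.R304
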