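import Crest.Agent.R304.Link

/-!
# Row 304: Count
The uniform start.  For `B ⊆ E` let `w B = {v < nV n | bd B v ≠ TT v}` and `ψ B = B ∆ (symmetric sum of cc v 0 over v ∈ w B)`; `fixL (toL B) = toL (ψ B)`.  (It is easiest to define `ψ B = fs (fun e => …)` by the parity count as in
`fixL`, and `qq Wn = fs (fun e => parity of #{v ∈ Wn | cB n v 0 e})`, with `qq (insert v Wn) = qq Wn ∆ cc v 0`, `bd (qq Wn) = ∑ v ∈ Wn, pr v 0`.)
* `bd (ψ B) = TT + |w B| δ 0`, and `|w B|` is even: `∑_{v < nV} bd B v = 0`, `∑_{v < nV} TT v = n` is even.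
* `B ↦ (ψ B, w B \ {0})` is a bijection from the subsets of `E` onto `St n × (subsets of the nodes ≠ 0)`; the inverse sends `(X, U)` to `X ∆ qq U` (`cc 0 0 = ∅`).  Hence `2 ^ mE = card (St n) * 2 ^ (nV - 1)` and
  `ψ` has fibres of size `2 ^ (nV - 1)`.
* `u ↦ fs u.testBit` is a bijection `range (2 ^ mE) → Finset (Fin mE)` (`Nat.eq_of_testBit_eq`, cardinalities); `avgN_mod`, `Nat.testBit_mod_two_pow`.
* `pop0_law`: induction on the number of particles (`Fin.consEquiv` / `Fin.sum_univ_succ`-type formula `ex ρ F = ∑ x, ρ x * ex ρ (fun σ => F (Fin.cons x σ))`); the unused part of the tape: `avgL_append`, `avgL_const`.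
-/

set_option autoImplicit false

noncomputable section

namespace Crest.Agent.R304

open Finset
open scoped symmDiff
open Crest.Agent.R309 (avgN avgL Tape digs ind blk)

variable {n s : ℕ}

/-- symmetric sum of the connections to the node `0` -/
def Count_qq (n : ℕ) (U : Finset ℕ) : Finset (Fin (mE n)) :=
  fs n fun e => decide ((U.filter fun v => cB n v 0 e = true).card % 2 = 1)

/-- the nodes with the wrong parity -/
def Count_ww (n : ℕ) (B : Finset (Fin (mE n))) : Finset ℕ :=
  (range (nV n)).filter fun v => (gr n).bd B v ≠ TT n v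

/-- the repair map -/
def Count_ps (n : ℕ) (B : Finset (Fin (mE n))) : Finset (Fin (mE n)) :=
  B ∆ Count_qq n (Count_ww n B)

theorem Count_qq_empty : Count_qq n ∅ = ∅ := by
  ext e; simp [Count_qq, mem_fs]

theorem Count_qq_insert {U : Finset ℕ} {v : ℕ} (hv : v ∉ U) :
    Count_qq n (insert v U) = Count_qq n U ∆ cc n v 0 := by
  rw [Count_qq, Count_qq, cc, ← fs_xor]
  congr 1
  funext e
  rw [filter_insert]
  by_cases h : cB n v 0 e = true
  · rw [if_pos h, card_insert_of_notMem (fun h' => hv (mem_filter.1 h').1), h]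
    rcases Nat.mod_two_eq_zero_or_one (U.filter fun v => cB n v 0 e = true).card with a | a <;>
      simp [Nat.add_mod, a]
  · rw [if_neg h]; simp [h]

theorem Count_qq_erase (U : Finset ℕ) : Count_qq n (U.erase 0) = Count_qq n U := by
  by_cases h : 0 ∈ U
  · conv_rhs => rw [← insert_erase h, Count_qq_insert (notMem_erase _ _), cc_self]
    exact (symmDiff_bot _).symm
  · rw [erase_eq_of_notMem h]

theorem Count_bd_qq (h0 : 0 < nV n) (U : Finset ℕ) (hU : ∀ v ∈ U, v < nV n) (w : ℕ) :
    (gr n).bd (Count_qq n U) w =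
      (if w ∈ U then 1 else 0) + if w = 0 then (U.card : ZMod 2) else 0 := by
  induction U using Finset.induction_on with
  | empty => rw [Count_qq_empty, Gr.bd_empty]; simp
  | insert v U hv ih =>
    rw [Count_qq_insert hv, Gr.bd_symmDiff, bd_cc (hU v (mem_insert_self _ _)) h0, Pi.add_apply,
      ih fun u hu => hU u (mem_insert_of_mem hu), pr_apply, card_insert_of_notMem hv]
    push_cast
    by_cases a : w = v
    · subst a
      simp only [hv, mem_insert_self, if_true, if_false]
      split_ifs <;> ring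
    · simp only [mem_insert, a, false_or, if_false]
      split_ifs <;> ring

theorem Count_sum_bd (B : Finset (Fin (mE n))) : ∑ v ∈ range (nV n), (gr n).bd B v = 0 := by
  simp only [Gr.bd, Finset.sum_apply]
  rw [sum_comm]
  refine sum_eq_zero fun e _ => ?_
  have h1 : (gr n).src e ∈ range (nV n) := mem_range.2 (srcN_lt e.2)
  have h2 : (gr n).tgt e ∈ range (nV n) := mem_range.2 (tgtN_lt e.2)
  simp only [pr_apply, sum_add_distrib, sum_ite_eq', h1, h2, if_true]
  decide

theorem Count_sum_TT (h : Par n s) : ∑ v ∈ range (nV n), TT n v = 0 := by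
  have hn : 0 < 2 * n := by have := h.n_ge; omega
  have e : (range (nV n)).filter (fun v => tB n v = true) = (range n).image (· * (2 * n)) := by
    ext v
    simp only [mem_filter, mem_range, mem_image, tB, Bool.and_eq_true, decide_eq_true_eq, nV]
    constructor
    · rintro ⟨h1, -, h2⟩
      obtain ⟨c, rfl⟩ := Nat.dvd_of_mod_eq_zero h2
      exact ⟨c, by rw [mul_comm] at h1; exact lt_of_mul_lt_mul_right h1 hn.le, mul_comm _ _⟩
    · rintro ⟨c, hc, rfl⟩
      have := Nat.mul_lt_mul_of_pos_right hc hn
      exact ⟨this, this, Nat.mul_mod_left _ _⟩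
  simp only [TT]
  rw [sum_boole, e, card_image_of_injective _ (mul_left_injective₀ hn.ne'), card_range]
  exact (ZMod.natCast_eq_zero_iff_even).2 h.n_even

theorem Count_z2 (a b : ZMod 2) : (if a ≠ b then (1 : ZMod 2) else 0) = a + b := by
  revert a b; decide

theorem Count_out {v : ℕ} (hv : ¬ v < nV n) (B : Finset (Fin (mE n))) :
    (gr n).bd B v = 0 ∧ TT n v = 0 := by
  refine ⟨?_, by simp [TT, tB, hv]⟩
  simp only [Gr.bd, Finset.sum_apply]
  refine sum_eq_zero fun e _ => pr_apply_of_ne ?_ ?_
  · rintro rfl; exact hv (srcN_lt e.2)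
  · rintro rfl; exact hv (tgtN_lt e.2)

theorem Par.Count_pos (h : Par n s) : 0 < nV n := by
  have := h.n_ge
  unfold nV; positivity

theorem Par.Count_bd (h : Par n s) (B : Finset (Fin (mE n))) :
    (gr n).bd (Count_ps n B) = TT n := by
  have hc : ((Count_ww n B).card : ZMod 2) = 0 := by
    rw [Count_ww, ← sum_boole]
    simp only [Count_z2]
    rw [sum_add_distrib, Count_sum_bd, Count_sum_TT h, add_zero]
  funext w
  rw [Count_ps, Gr.bd_symmDiff, Pi.add_apply, Count_bd_qq h.Count_pos (Count_ww n B)
    (fun v hv => mem_range.1 (mem_filter.1 hv).1), hc, ite_self, add_zero]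
  by_cases hw : w < nV n
  · simp only [Count_ww, mem_filter, mem_range, hw, true_and, Count_z2]
    generalize (gr n).bd B w = a
    generalize TT n w = b
    revert a b; decide
  · have : w ∉ Count_ww n B := fun c => hw (mem_range.1 (mem_filter.1 c).1)
    rw [(Count_out hw B).1, (Count_out hw B).2, if_neg this, add_zero]

theorem Par.Count_sum (h : Par n s) (G : Finset (Fin (mE n)) → ℝ) :
    ∑ B, G (Count_ps n B) = 2 ^ (nV n - 1) * ∑ X : St n, G X.1 := by
  have hw : ∀ (X : St n), ∀ U ∈ ((range (nV n)).erase 0).powerset,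
      (Count_ww n (X.1 ∆ Count_qq n U)).erase 0 = U := by
    intro X U hU
    have hU' := mem_powerset.1 hU
    ext v
    rw [mem_erase, Count_ww, mem_filter, Gr.bd_symmDiff, Pi.add_apply, X.2,
      Count_bd_qq h.Count_pos _ fun v hv => mem_range.1 (mem_erase.1 (hU' hv)).2]
    constructor
    · rintro ⟨h1, -, h2⟩
      by_contra c
      simp [h1, c] at h2
    · intro c
      have := mem_erase.1 (hU' c)
      refine ⟨this.1, this.2, ?_⟩
      simp [this.1, c]
  have hp : ∀ (X : St n), ∀ U ∈ ((range (nV n)).erase 0).powerset,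
      Count_ps n (X.1 ∆ Count_qq n U) = X.1 := by
    intro X U hU
    rw [Count_ps, ← Count_qq_erase (Count_ww _ _), hw X U hU, symmDiff_symmDiff_cancel_right]
  have : ∑ B, G (Count_ps n B) =
      ∑ p ∈ (univ : Finset (St n)) ×ˢ ((range (nV n)).erase 0).powerset, G p.1.1 := by
    refine sum_nbij' (fun B => (⟨Count_ps n B, h.Count_bd B⟩, (Count_ww n B).erase 0))
      (fun p => p.1.1 ∆ Count_qq n p.2) (fun B _ => ?_) (fun _ _ => mem_univ _) (fun B _ => ?_)
      (fun p hp' => ?_) fun _ _ => rfl
    · exact mem_product.2 ⟨mem_univ _, mem_powerset.2 (erase_subset_erase _ (filter_subset _ _))⟩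
    · show Count_ps n B ∆ Count_qq n _ = B
      rw [Count_qq_erase, Count_ps, symmDiff_symmDiff_cancel_right]
    · have := (mem_product.1 hp').2
      exact Prod.ext (Subtype.ext (hp _ _ this)) (hw _ _ this)
  rw [this, sum_product, mul_sum]
  refine sum_congr rfl fun X _ => ?_
  simp only [sum_const, card_powerset, card_erase_of_mem (mem_range.2 h.Count_pos), card_range,
    nsmul_eq_mul]
  push_cast
  rfl

theorem Par.Count_card (h : Par n s) : 2 ^ mE n = 2 ^ (nV n - 1) * Fintype.card (St n) := by
  have := h.Count_sum fun _ => 1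
  simp only [sum_const, card_univ, Fintype.card_finset, Fintype.card_fin, nsmul_eq_mul,
    mul_one] at this
  exact_mod_cast this

theorem Par.card_St (h : Par n s) : Fintype.card (St n) = 2 ^ (mE n + 1 - nV n) := by
  have h1 := h.Count_card
  have h2 : nV n - 1 ≤ mE n := (Nat.pow_dvd_pow_iff_le_right one_lt_two).1 ⟨_, h1⟩
  have h3 := h.Count_pos
  rw [show mE n = nV n - 1 + (mE n + 1 - nV n) by omega, pow_add] at h1
  exact (Nat.eq_of_mul_eq_mul_left (by positivity) h1).symm

theorem Par.nonempty_St (h : Par n s) : Nonempty (St n) := by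
  exact ⟨⟨_, h.Count_bd ∅⟩⟩

theorem Par.ZZ_zero (h : Par n s) : ZZ n s 0 = 2 ^ (mE n + 1 - nV n) := by
  rw [ZZ, Model.Z, ← sum_St 0 (wt (mdl n s 0).x)]
  simp [wt, mdl, h.card_St]

theorem Count_fix (B : Finset (Fin (mE n))) : fixL n (toL n B) = toL n (Count_ps n B) := by
  rw [fixL, ← toL_fs, fs_xor, Count_ps]
  refine congrArg (toL n) (congrArg₂ symmDiff ?_ ?_)
  · exact (congrArg (fs n) (funext (bt_toL B))).trans (fs_memB B)
  · rw [Count_qq]
    refine congrArg (fs n) (funext fun e => congrArg (fun c => decide (c % 2 = 1)) ?_)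
    rw [Count_ww, filter_filter, List.countP_eq_length_filter, ← List.toFinset_card_of_nodup
      (List.nodup_range.filter _)]
    refine congrArg card ?_
    ext v
    simp only [List.toFinset_filter, List.toFinset_range, mem_filter, Bool.and_eq_true, bne_iff_ne]
    refine and_congr_right fun _ => and_congr_left fun _ => not_congr ?_
    have := degB_toL B v
    rw [TT]
    revert this
    generalize degB n (toL n B) v = a
    generalize (gr n).bd B v = b
    generalize tB n v = c
    revert a b c; decide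

theorem Count_bits (G : Finset (Fin (mE n)) → ℝ) :
    ∑ u ∈ range (2 ^ mE n), G (fs n u.testBit) = ∑ B, G B := by
  have hi : Set.InjOn (fun u : ℕ => fs n u.testBit) (range (2 ^ mE n)) := by
    intro u hu v hv huv
    refine Nat.eq_of_testBit_eq fun i => ?_
    by_cases c : i < mE n
    · have := congrArg (fun X => (⟨i, c⟩ : Fin (mE n)) ∈ X) huv
      simp only [mem_fs, eq_iff_iff] at this
      exact Bool.eq_iff_iff.2 this
    · have p : 2 ^ mE n ≤ 2 ^ i := Nat.pow_le_pow_right two_pos (not_lt.1 c)
      rw [Nat.testBit_lt_two_pow ((mem_range.1 hu).trans_le p),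
        Nat.testBit_lt_two_pow ((mem_range.1 hv).trans_le p)]
  rw [← sum_image hi, eq_univ_of_card (image _ _)]
  rw [card_image_of_injOn hi, card_range, Fintype.card_finset, Fintype.card_fin]

theorem Par.initL_law (h : Par n s) (F : List Bool → ℝ) :
    avgN (pBs s) (fun u => F (initL n u)) = ∑ X : St n, piS n s 0 X * F (toL n X.1) := by
  have e1 : ∀ u, initL n u = toL n (Count_ps n (fs n (u % 2 ^ mE n).testBit)) := fun u => by
    rw [← Count_fix, toL_fs, initL]
    congr 1
    refine List.map_congr_left fun e he => ?_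
    rw [Nat.testBit_mod_two_pow, decide_eq_true (List.mem_range.1 he), Bool.true_and]
  simp only [e1]
  rw [R309.avgN_mod (pBs_pos h.s_ge) h.two_pow_dvd
    fun u => F (toL n (Count_ps n (fs n u.testBit))), avgN,
    Count_bits fun B => F (toL n (Count_ps n B)), h.Count_sum fun B => F (toL n B), h.Count_card,
    h.card_St]
  have e2 : ∀ X : St n, piS n s 0 X = 1 / 2 ^ (mE n + 1 - nV n) := fun X => by
    rw [← h.ZZ_zero, piS, Model.pi, ZZ]
    simp [wt, mdl]
  simp only [e2]
  rw [← mul_sum]
  push_cast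
  field_simp

theorem Count_prod {Ω β : Type} [Fintype Ω] {N : ℕ} {ρ : Ω → ℝ} {φ : ℕ → β} {ι : Ω → β}
    (h : ∀ F : β → ℝ, avgN N (fun u => F (φ u)) = ∑ x, ρ x * F (ι x)) (T : ℕ) (F : List β → ℝ) :
    avgL N T (fun us => F (us.map φ)) =
      ex ρ fun σ : Fin T → Ω => F (List.ofFn fun i => ι (σ i)) := by
  induction T generalizing F with
  | zero => simp [avgL, ex, W]
  | succ T ih =>
    have e1 : ∀ u, avgL N T (fun us => F ((u :: us).map φ)) =
        ex ρ fun σ : Fin T → Ω => F (φ u :: List.ofFn fun i => ι (σ i)) := fun u =>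
      ih fun l => F (φ u :: l)
    simp only [avgL, e1]
    rw [h fun b => ex ρ fun σ : Fin T → Ω => F (b :: List.ofFn fun i => ι (σ i))]
    simp only [ex]
    rw [← (Fin.consEquiv fun _ : Fin (T + 1) => Ω).sum_comp, Fintype.sum_prod_type]
    refine sum_congr rfl fun x _ => ?_
    rw [mul_sum]
    refine sum_congr rfl fun σ _ => ?_
    simp [W, Fin.prod_univ_succ, List.ofFn_succ, Fin.consEquiv, mul_assoc]

theorem Par.pop0_law (h : Par n s) (F : List (List Bool) → ℝ) :
    avgL (pBs s) (pN s) (fun us => F (pop0 n s us)) =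
      ex (piS n s 0) fun σ : Fin (pN s) → St n => F (emb n σ) := by
  rw [R309.avgL_congr (g := fun us => F (us.map (initL n))) fun us hus => ?_]
  · exact Count_prod h.initL_law _ F
  · congr 1
    refine List.ext_getElem (by simp [pop0, hus.1]) fun i h1 h2 => ?_
    have : i < us.length := by simpa using h2
    simp [pop0, this]

end Crest.Agent.R304
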