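import Crest.Agent.R304.Fam

/-!
# Row 304: Ctrl
Analysis of the potential.  `τ = 1/(8s)`, `ζ = 1/s^4`, `b = pB s`, `Δ = - pJ log lam ∈ [1/s^5, 2/s^5]`.
* `Phi_addK_virt`, `Phi_addK_real`: `ZZ_addK`.
* `Inv.range`: first phase: `odds` with `k (rE e) = 0` gives `pm = y / (1 + y)`, `y = lam ^ k e ∈ [1/(16 s), 1]`.  Second phase: test `Gap` with `addK k e (∓ b)` (`θ = - b log lam ∈ [1, 1.01]`): if `pm < τ/4` then
  `log (1 + pm (e^θ - 1)) - τ θ ≤ 1.75 τ/4 - τ < -τ/2`; if `pm > 1/2` then `log (1 - pm (1 - e^{-θ})) + τ θ ≤ -0.31 + 1.01 τ < -τ/2`.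
* `Inv.virt_le`: `odds` and `range` give `lam ^ (2 pK) / (32 s) ≤ lam ^ k e ≤ lam ^ (-2 pK)`, so `|k e| / b ≤ |k e log lam| ≤ 4.04 s + log (32 s) ≤ 5 s - 1`.
* `gap_of_near`: `jensen`; only virtual edges contribute, `Phi k - Phi k' ≤ ∑ |pm - τ| |k' - k| |log lam| ≤ s (2/s^4) (11 s) 1.01 ≤ 1/(32 s)`.
* `drop_hi`, `drop_lo`: `log (1 + y) ≤ y`, `1 - e^{-Δ} ≥ Δ - Δ²/2`, `e^Δ - 1 ≤ Δ + Δ²`.
* `Inv.step_y`: in the first phase check `y lam^J ≥ y/2`, resp. `y ≤ 2 τ` so `y lam^{-J} ≤ 1`; in the second phase `Phi` drops and the comparison class is unchanged.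
* `Inv.step_x`: for `k'` in the class of `addK k e J` compare with `addK k' e (-J)`, which is in the class of `k`; `Phi (addK k' e (-J)) ≤ Phi k' + Δ`.
-/

set_option autoImplicit false

noncomputable section

namespace Crest.Agent.R304

open Finset
open scoped symmDiff
open Crest.Agent.R309 (avgN avgL Tape digs ind blk)

variable {n s : ℕ}

variable {k : ℕ → ℤ} {e : ℕ}

theorem Ctrl_pm0 (h : Par n s) (k : ℕ → ℤ) (e : ℕ) : 0 ≤ pm n s k e := h.prB_nonneg k _

theorem Ctrl_pm1 (h : Par n s) (k : ℕ → ℤ) (e : ℕ) : pm n s k e ≤ 1 := h.prB_le_one k _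

theorem Ctrl_exp (h : Par n s) (j : ℤ) : lam s ^ j = Real.exp (j * Real.log (lam s)) := by
  rw [← Real.log_zpow, Real.exp_log (zpow_pos (lam_pos h.s_ge) j)]

theorem Ctrl_fac (h : Par n s) (k : ℕ → ℤ) (e : ℕ) (j : ℤ) :
    0 < 1 + pm n s k e * (lam s ^ j - 1) := by
  have h1 := h.ZZ_pos (addK k e j)
  rw [h.ZZ_addK] at h1
  exact (mul_pos_iff_of_pos_left (h.ZZ_pos k)).1 h1

theorem Ctrl_log (h : Par n s) (k : ℕ → ℤ) (e : ℕ) (j : ℤ) :
    Real.log (ZZ n s (addK k e j)) =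
      Real.log (ZZ n s k) + Real.log (1 + pm n s k e * (lam s ^ j - 1)) := by
  rw [h.ZZ_addK, Real.log_mul (h.ZZ_pos k).ne' (Ctrl_fac h k e j).ne']

theorem Ctrl_log_le (h : Par n s) (k : ℕ → ℤ) (e : ℕ) (j : ℤ) :
    Real.log (1 + pm n s k e * (lam s ^ j - 1)) ≤
      pm n s k e * (Real.exp (j * Real.log (lam s)) - 1) := by
  have := Real.log_le_sub_one_of_pos (Ctrl_fac h k e j)
  rw [← Ctrl_exp h]
  linarith

theorem Ctrl_self (k : ℕ → ℤ) (e : ℕ) (j : ℤ) : addK k e j e = k e + j := by simp [addK]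

theorem Ctrl_ne (k : ℕ → ℤ) {e e' : ℕ} (j : ℤ) (h : e' ≠ e) : addK k e j e' = k e' := by
  simp [addK, h]

theorem Ctrl_b (h : Par n s) : 0 < pB s := (pJ_pos h.s_ge).trans_le (pJ_le_pB h.s_ge)

theorem Ctrl_sb (h : Par n s) : (pB s : ℤ) ≤ s * pB s := by
  have h1 : 1 ≤ s := le_trans (by norm_num) h.s_ge
  exact_mod_cast Nat.le_mul_of_pos_left (pB s) h1

theorem Ctrl_K (s : ℕ) : ((2 * pK s : ℕ) : ℤ) = 4 * (s * pB s) := by
  rw [(pK_eq s).2]; push_cast; ring

theorem Ctrl_5 (s : ℕ) : ((5 * s * pB s : ℕ) : ℤ) = 5 * (s * pB s) := by push_cast; ring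

theorem Ctrl_6 (s : ℕ) : ((6 * s * pB s : ℕ) : ℤ) = 6 * (s * pB s) := by push_cast; ring

theorem Ctrl_L (h : Par n s) : Real.log (lam s) < 0 :=
  Real.log_neg (lam_pos h.s_ge) (lam_lt_one h.s_ge)

theorem Ctrl_absL (h : Par n s) {j : ℤ} {c : ℕ} (hj : |j| ≤ (c * s * pB s : ℕ)) :
    |(j : ℝ) * Real.log (lam s)| ≤ 101 / 100 * (c * s) := by
  have h1 : |(j : ℝ)| ≤ c * s * pB s := by exact_mod_cast hj
  have h2 := log_lam_ge h.s_ge
  have h3 := Ctrl_L h
  have h4 : (0 : ℝ) ≤ c * s := by positivity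
  rw [abs_mul, abs_of_neg h3]
  calc |(j : ℝ)| * -Real.log (lam s) ≤ c * s * pB s * -Real.log (lam s) :=
        mul_le_mul_of_nonneg_right h1 (by linarith)
    _ = c * s * -(Real.log (lam s) * pB s) := by ring
    _ ≤ c * s * (101 / 100) := mul_le_mul_of_nonneg_left (by linarith) h4
    _ = _ := by ring

theorem Ctrl_card (h : Par n s) :
    (#((range (mE n)).filter fun e => isVirt n e = true) : ℝ) ≤ s := by
  have h1 : #((range (mE n)).filter fun e => isVirt n e = true) ≤ s :=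
    (card_filter_le _ _).trans (by rw [card_range]; exact h.mE_lt.le)
  exact_mod_cast h1

theorem Par.Phi_addK_virt (h : Par n s) (k : ℕ → ℤ) (he : isVirt n e = true) (j : ℤ) :
    Phi n s (addK k e j) = Phi n s k + Real.log (1 + pm n s k e * (lam s ^ j - 1)) -
      1 / (8 * (s : ℝ)) * (j * Real.log (lam s)) := by
  have h1 : ∑ e' ∈ (range (mE n)).filter (fun e => isVirt n e = true),
      (addK k e j e' : ℝ) * Real.log (lam s) =
      ∑ e' ∈ (range (mE n)).filter (fun e => isVirt n e = true), (k e' : ℝ) * Real.log (lam s) +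
        j * Real.log (lam s) := by
    have hm : e ∈ (range (mE n)).filter (fun e => isVirt n e = true) :=
      mem_filter.2 ⟨mem_range.2 (lt_mE (isVirt_lt he)), he⟩
    rw [← add_sum_erase _ _ hm, ← add_sum_erase _ _ hm, Ctrl_self,
      sum_congr rfl fun e' he' => by rw [Ctrl_ne k j (ne_of_mem_erase he')]]
    push_cast
    ring
  rw [Phi, Phi, Ctrl_log h, h1]
  ring

theorem Par.Phi_addK_real (h : Par n s) (k : ℕ → ℤ) (he : isVirt n e = false) (j : ℤ) :
    Phi n s (addK k e j) = Phi n s k + Real.log (1 + pm n s k e * (lam s ^ j - 1)) := by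
  have h1 : ∑ e' ∈ (range (mE n)).filter (fun e => isVirt n e = true),
      (addK k e j e' : ℝ) * Real.log (lam s) =
      ∑ e' ∈ (range (mE n)).filter (fun e => isVirt n e = true), (k e' : ℝ) * Real.log (lam s) := by
    refine sum_congr rfl fun e' he' => ?_
    rw [Ctrl_ne k j]
    rintro rfl
    rw [(mem_filter.1 he').2] at he
    exact absurd he (by simp)
  rw [Phi, Phi, Ctrl_log h, h1]
  ring

theorem Par.inv_zero (h : Par n s) : Inv n s 0 := by
  have hs := h.s_ge'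
  refine ⟨fun _ _ _ => rfl, fun _ _ => ⟨le_rfl, Int.natCast_nonneg _⟩,
    fun _ _ => by rw [Pi.zero_apply, abs_zero]; exact Int.natCast_nonneg _,
    Or.inl ⟨fun _ _ => rfl, fun _ _ => ⟨le_rfl, ?_⟩⟩⟩
  rw [Pi.zero_apply, zpow_zero, div_le_one (by positivity)]
  linarith

/-- first phase: the odds are exactly `lam ^ k e` -/
theorem Ctrl_odds (hI : Inv n s k) (h : Par n s) (he : isVirt n e = true)
    (h0 : ∀ e, isReal n e = true → k e = 0) :
    pm n s k e = lam s ^ k e * (1 - pm n s k e) := by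
  have h1 := h0 _ (rE_real he).1
  obtain ⟨a, b⟩ := h.odds hI.zero he h1.ge
  rw [h1, zpow_zero, mul_one] at a b
  exact le_antisymm b a

theorem Ctrl_test (hI : Inv n s k) (h : Par n s) (he : isVirt n e = true) {γ : ℝ}
    (hg : Gap n s k γ) {j : ℤ} (hj : |j| ≤ pB s) :
    1 / (8 * (s : ℝ)) * (j * Real.log (lam s)) ≤
      pm n s k e * (Real.exp (j * Real.log (lam s)) - 1) + γ := by
  have h1 := hg (addK k e j) (fun e' he' => Ctrl_ne k j (by
      rintro rfl
      rw [he] at he'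
      exact absurd he' (by simp))) (fun e' he' => by
    have a1 := hI.virt e' he'
    have a2 := Ctrl_sb h
    have a3 := abs_nonneg j
    rw [Ctrl_5] at a1
    rw [Ctrl_6]
    by_cases e1 : e' = e
    · subst e1
      rw [Ctrl_self]
      have := abs_add_le (k e') j
      omega
    · rw [Ctrl_ne k j e1]
      omega)
  rw [h.Phi_addK_virt k he] at h1
  have h2 := Ctrl_log_le h k e j
  linarith

theorem Ctrl_exp3 {θ : ℝ} (h : θ ≤ 101 / 100) : Real.exp θ ≤ 3 := by
  have h1 := Real.exp_one_lt_d9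
  have h2 := Real.add_one_le_exp (-(1 / 100) : ℝ)
  have h3 : Real.exp (101 / 100) * Real.exp (-(1 / 100)) = Real.exp 1 := by
    rw [← Real.exp_add]; norm_num
  have h4 := Real.exp_le_exp.2 h
  have h5 := Real.exp_pos (101 / 100)
  nlinarith

theorem Ctrl_exph {θ : ℝ} (h : θ ≤ -1) : Real.exp θ ≤ 1 / 2 := by
  have h1 := Real.add_one_le_exp (1 : ℝ)
  have h3 : Real.exp (-1) * Real.exp 1 = 1 := by rw [← Real.exp_add]; norm_num
  have h4 := Real.exp_le_exp.2 h
  have h5 := Real.exp_pos (-1)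
  nlinarith

theorem Inv.range (hI : Inv n s k) (h : Par n s) (he : isVirt n e = true) :
    1 / (32 * (s : ℝ)) ≤ pm n s k e ∧ pm n s k e ≤ 1 / 2 := by
  have hs := h.s_ge'
  have p0 := Ctrl_pm0 h k e
  have p1 := Ctrl_pm1 h k e
  have ht : 0 < 1 / (32 * (s : ℝ)) := by positivity
  have ht' : 1 / (32 * (s : ℝ)) ≤ 1 / 1000 := one_div_le_one_div_of_le (by norm_num) (by linarith)
  have e16 : 1 / (16 * (s : ℝ)) = 2 * (1 / (32 * (s : ℝ))) := by field_simp; norm_num
  have e8 : 1 / (8 * (s : ℝ)) = 4 * (1 / (32 * (s : ℝ))) := by field_simp; norm_num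
  rcases hI.phase with ⟨h0, h1⟩ | hg
  · obtain ⟨a, b⟩ := h1 e he
    have c := Ctrl_odds hI h he h0
    have d : lam s ^ k e ≤ 1 := zpow_le_one₀ (lam_pos h.s_ge) (lam_lt_one h.s_ge).le a
    rw [e16] at b
    have p2 : pm n s k e ≤ 1 / 2 := by nlinarith
    exact ⟨by nlinarith, p2⟩
  · have a := Ctrl_test hI h he hg (j := -(pB s : ℤ)) (by simp)
    have b := Ctrl_test hI h he hg (j := (pB s : ℤ)) (by simp)
    have l1 := log_lam_le h.s_ge
    have l2 := log_lam_ge h.s_ge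
    push_cast at a b
    rw [e16, e8] at a b
    rw [neg_mul, mul_comm (pB s : ℝ)] at a
    rw [mul_comm (pB s : ℝ)] at b
    generalize Real.log (lam s) * pB s = θ at *
    have c := Ctrl_exp3 (θ := -θ) (by linarith)
    have d := Ctrl_exph l1
    constructor <;> nlinarith

theorem Inv.virt_le (hI : Inv n s k) (h : Par n s) (he : isVirt n e = true) :
    |k e| + pB s ≤ (5 * s * pB s : ℕ) := by
  have hs := h.s_ge'
  obtain ⟨r1, r2⟩ := hI.range h he
  obtain ⟨k1, k2⟩ := hI.real _ (rE_real he).1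
  obtain ⟨a, b⟩ := h.odds hI.zero he k1
  have hl := lam_pos h.s_ge
  have hl1 := lam_lt_one h.s_ge
  have y0 := zpow_pos hl (k e)
  have z0 := zpow_pos hl (k (rE n e))
  have sb := Ctrl_sb h
  rw [Ctrl_K] at k2
  rw [Ctrl_5]
  have c1 : 0 ≤ k e + k (rE n e) := by
    have : lam s ^ (k e + k (rE n e)) ≤ lam s ^ (0 : ℤ) := by
      rw [zpow_add₀ hl.ne', zpow_zero]
      nlinarith [mul_pos y0 z0]
    exact (zpow_le_zpow_iff_right_of_lt_one₀ hl hl1).1 this
  have c2 : k e - k (rE n e) ≤ s * pB s - pB s := by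
    have d1 : 1 / (32 * (s : ℝ)) * lam s ^ k (rE n e) ≤ lam s ^ k e := by
      have := Ctrl_pm0 h k e
      nlinarith
    have d2 := Real.log_le_log (by positivity) d1
    rw [Real.log_mul (by positivity) z0.ne', Real.log_zpow, Real.log_zpow, one_div, Real.log_inv,
      show 32 * (s : ℝ) = 64 * (s / 2) by ring, Real.log_mul (by norm_num) (by positivity)] at d2
    have d3 := Real.log_le_sub_one_of_pos (show (0 : ℝ) < 64 by norm_num)
    have d4 := Real.log_le_sub_one_of_pos (show (0 : ℝ) < s / 2 by positivity)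
    have d5 := log_lam_le h.s_ge
    have d6 : (0 : ℝ) < pB s := by exact_mod_cast Ctrl_b h
    have d7 : ((k e : ℝ) - k (rE n e)) * -Real.log (lam s) ≤ s - 1 := by linarith
    have d8 : (k e : ℝ) - k (rE n e) ≤ s * pB s - pB s := by
      by_contra! d9
      have d10 : (0 : ℝ) ≤ s * pB s - pB s := by nlinarith
      have d11 := mul_le_mul_of_nonneg_right d7 d6.le
      nlinarith
    exact_mod_cast d8
  rcases abs_cases (k e) with ⟨e1, -⟩ | ⟨e1, -⟩ <;> omega

theorem Inv.le (hI : Inv n s k) (h : Par n s) (e : ℕ) : |k e| ≤ (5 * s * pB s : ℕ) := by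
  by_cases h1 : isVirt n e = true
  · exact hI.virt e h1
  by_cases h2 : isReal n e = true
  · obtain ⟨a, b⟩ := hI.real e h2
    have sb := Ctrl_sb h
    rw [Ctrl_K] at b
    rw [Ctrl_5, abs_of_nonneg a]
    omega
  · rw [hI.zero e (by simpa using h2) (by simpa using h1), abs_zero]
    exact Int.natCast_nonneg _

theorem Inv.good_addK (hI : Inv n s k) (h : Par n s) (he : isReal n e = true ∨ isVirt n e = true) {j : ℤ}
    (hj : j.natAbs ≤ pJ s) : Good n s (addK k e j) := by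
  have hs := h.s_ge'
  have e64 : 1 / (64 * (s : ℝ)) = 1 / (32 * (s : ℝ)) / 2 := by field_simp; norm_num
  refine ⟨fun e' h1 h2 => ?_, fun e' => ?_, fun e' he' => ?_, fun e' he' => ?_⟩
  · rw [Ctrl_ne k j, hI.zero e' h1 h2]
    rintro rfl
    rw [h1, h2] at he
    simp at he
  · have a1 := hI.le h e'
    have a2 := Ctrl_sb h
    have a3 : |j| ≤ pB s := by
      rw [Int.abs_eq_natAbs]
      exact_mod_cast hj.trans (pJ_le_pB h.s_ge)
    have a4 := abs_nonneg j
    rw [Ctrl_5] at a1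
    rw [Ctrl_6]
    by_cases e1 : e' = e
    · subst e1
      rw [Ctrl_self]
      have := abs_add_le (k e') j
      omega
    · rw [Ctrl_ne k j e1]
      omega
  · have a1 := (h.pm_addK k e hj e').1
    have a2 := (hI.range h he').1
    linarith
  · have a1 := (h.pm_addK k e hj e').2
    obtain ⟨a2, a3⟩ := hI.range h he'
    linarith

theorem Inv.good (hI : Inv n s k) (h : Par n s) : Good n s k := by
  have hs := h.s_ge'
  have e64 : 1 / (64 * (s : ℝ)) = 1 / (32 * (s : ℝ)) / 2 := by field_simp; norm_num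
  have e0 : 0 < 1 / (32 * (s : ℝ)) := by positivity
  refine ⟨hI.zero, fun e' => ?_, fun e' he' => ?_, fun e' he' => ?_⟩
  · have a1 := hI.le h e'
    have a2 := abs_nonneg (k e')
    rw [Ctrl_5] at a1
    rw [Ctrl_6]
    omega
  · have a2 := (hI.range h he').1
    linarith
  · obtain ⟨a2, a3⟩ := hI.range h he'
    linarith

theorem Inv.gap_of_near (hI : Inv n s k) (h : Par n s)
    (hn : ∀ e, isVirt n e = true → |pm n s k e - 1 / (8 * (s : ℝ))| ≤ 2 / (s : ℝ) ^ 4) :
    Gap n s k (1 / (32 * (s : ℝ))) := by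
  intro k' h1 h2
  have hs := h.s_ge'
  have hj := h.jensen k k'
  set V := (Finset.range (mE n)).filter (fun e => isVirt n e = true) with hV
  have e1 : ∑ e ∈ Finset.range (mE n), pm n s k e * ((k' e - k e : ℤ) * Real.log (lam s)) =
      ∑ e ∈ V, pm n s k e * ((k' e - k e : ℤ) * Real.log (lam s)) := by
    refine (sum_filter_of_ne fun e _ hne => ?_).symm
    by_contra h3
    rw [h1 e (by simpa using h3)] at hne
    simp at hne
  have e2 : ∀ e ∈ V, 1 / (8 * (s : ℝ)) * ((k' e : ℝ) * Real.log (lam s)) -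
      1 / (8 * (s : ℝ)) * ((k e : ℝ) * Real.log (lam s)) -
      pm n s k e * ((k' e - k e : ℤ) * Real.log (lam s)) ≤
      2 / (s : ℝ) ^ 4 * (101 / 100 * ((11 : ℕ) * s)) := by
    intro e he
    have hv := (mem_filter.1 he).2
    have a1 : |k' e - k e| ≤ (11 * s * pB s : ℕ) := by
      have b1 := h2 e hv
      have b2 := hI.virt e hv
      have b3 := abs_sub (k' e) (k e)
      rw [Ctrl_5] at b2
      rw [Ctrl_6] at b1
      have : ((11 * s * pB s : ℕ) : ℤ) = 11 * (s * pB s) := by push_cast; ring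
      omega
    have a2 := mul_le_mul (hn e hv) (Ctrl_absL h a1) (abs_nonneg _) (by positivity)
    rw [← abs_mul] at a2
    refine le_trans (le_of_eq ?_) ((neg_le_abs _).trans a2)
    push_cast
    ring
  have e3 := sum_le_sum e2
  rw [sum_sub_distrib, sum_sub_distrib, ← mul_sum, ← mul_sum, sum_const, nsmul_eq_mul] at e3
  have e4 : (#V : ℝ) * (2 / (s : ℝ) ^ 4 * (101 / 100 * ((11 : ℕ) * s))) ≤ 1 / (32 * (s : ℝ)) := by
    refine (mul_le_mul_of_nonneg_right (Ctrl_card h) (by positivity)).trans ?_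
    have : (s : ℝ) * (2 / (s : ℝ) ^ 4 * (101 / 100 * ((11 : ℕ) * s))) = 1 / (50 / 1111 * s * s) := by
      push_cast
      field_simp
      norm_num
    rw [this]
    exact one_div_le_one_div_of_le (by positivity) (by nlinarith)
  rw [Phi, Phi]
  rw [e1] at hj
  linarith

theorem Ctrl_num {S Δ X : ℝ} (hs : 1024 ≤ S) (h1 : 1 / S ^ 5 ≤ Δ) (h2 : Δ ≤ 2 / S ^ 5)
    (hX : X ≤ -(1 / (2 * S ^ 4)) * Δ + Δ ^ 2) : 4 * S ^ 9 * X + 1 ≤ 0 := by
  have hS : 0 < S := by linarith
  rw [div_le_iff₀ (by positivity)] at h1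
  rw [le_div_iff₀ (by positivity)] at h2
  have h3 := mul_le_mul_of_nonneg_left hX (show 0 ≤ 4 * S ^ 9 by positivity)
  have h4 : 4 * S ^ 9 * (-(1 / (2 * S ^ 4)) * Δ + Δ ^ 2) =
      -2 * (Δ * S ^ 5) + 4 * (Δ * S ^ 5) ^ 2 / S := by
    field_simp
    ring
  generalize Δ * S ^ 5 = u at *
  have h5 : 4 * u ^ 2 / S ≤ u := by
    rw [div_le_iff₀ hS]
    nlinarith
  linarith

theorem Ctrl_small (h : Par n s) : 2 / (s : ℝ) ^ 5 ≤ 1 / (32 * (s : ℝ)) := by
  have hs := h.s_ge'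
  rw [div_le_div_iff₀ (by positivity) (by positivity)]
  have h1 : (s : ℝ) ^ 2 ≤ (s : ℝ) ^ 5 := pow_le_pow_right₀ (by linarith) (by norm_num)
  nlinarith

theorem Ctrl_small' (h : Par n s) : 2 / (s : ℝ) ^ 5 ≤ 1 := by
  have hs := h.s_ge'
  exact (Ctrl_small h).trans ((div_le_one (by positivity)).2 (by linarith))

theorem Par.drop_hi (h : Par n s) (he : isVirt n e = true)
    (hp : 1 / (8 * (s : ℝ)) + 1 / (2 * (s : ℝ) ^ 4) ≤ pm n s k e) :
    4 * (s : ℝ) ^ 9 * Phi n s (addK k e (pJ s)) + 1 ≤ 4 * (s : ℝ) ^ 9 * Phi n s k := by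
  obtain ⟨d1, d2⟩ := log_lam_J h.s_ge
  have d0 : 0 ≤ -(pJ s * Real.log (lam s)) := le_trans (by positivity) d1
  have d3 := d2.trans (Ctrl_small' h)
  have a := Ctrl_log_le h k e (pJ s)
  have p1 := Ctrl_pm1 h k e
  have p0 := Ctrl_pm0 h k e
  rw [h.Phi_addK_virt k he]
  rw [Int.cast_natCast] at a ⊢
  generalize pJ s * Real.log (lam s) = x at *
  have b := (abs_le.1 (Real.abs_exp_sub_one_sub_id_le (x := x)
    (abs_le.2 ⟨by linarith, by linarith⟩))).2
  have c := Ctrl_num (X := Real.log (1 + pm n s k e * (lam s ^ (pJ s : ℤ) - 1)) -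
    1 / (8 * (s : ℝ)) * x) h.s_ge' d1 d2 (by
      have b1 := mul_le_mul_of_nonneg_left b p0
      have b2 := mul_le_mul_of_nonneg_right hp d0
      have b3 := mul_le_mul_of_nonneg_right p1 (sq_nonneg x)
      nlinarith)
  linarith

theorem Par.drop_lo (h : Par n s) (he : isVirt n e = true)
    (hp : pm n s k e + 1 / (2 * (s : ℝ) ^ 4) ≤ 1 / (8 * (s : ℝ))) :
    4 * (s : ℝ) ^ 9 * Phi n s (addK k e (-(pJ s : ℤ))) + 1 ≤ 4 * (s : ℝ) ^ 9 * Phi n s k := by
  obtain ⟨d1, d2⟩ := log_lam_J h.s_ge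
  have d0 : 0 ≤ -(pJ s * Real.log (lam s)) := le_trans (by positivity) d1
  have d3 := d2.trans (Ctrl_small' h)
  have a := Ctrl_log_le h k e (-(pJ s : ℤ))
  have p1 := Ctrl_pm1 h k e
  have p0 := Ctrl_pm0 h k e
  rw [h.Phi_addK_virt k he]
  rw [Int.cast_neg, Int.cast_natCast, neg_mul] at a ⊢
  generalize -(pJ s * Real.log (lam s)) = x at *
  have b := (abs_le.1 (Real.abs_exp_sub_one_sub_id_le (x := x)
    (abs_le.2 ⟨by linarith, by linarith⟩))).2
  have c := Ctrl_num (X := Real.log (1 + pm n s k e * (lam s ^ (-(pJ s : ℤ)) - 1)) -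
    1 / (8 * (s : ℝ)) * x) h.s_ge' d1 d2 (by
      have b1 := mul_le_mul_of_nonneg_left b p0
      have b2 := mul_le_mul_of_nonneg_right hp d0
      have b3 := mul_le_mul_of_nonneg_right p1 (sq_nonneg x)
      nlinarith)
  linarith

theorem Par.drop_x (h : Par n s) (k : ℕ → ℤ) (he : isReal n e = true) :
    Phi n s (addK k e (pJ s)) ≤ Phi n s k := by
  rw [h.Phi_addK_real k (not_virt_of_real he)]
  have a := Real.log_le_sub_one_of_pos (Ctrl_fac h k e (pJ s))
  have d : lam s ^ (pJ s : ℤ) ≤ 1 :=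
    zpow_le_one₀ (lam_pos h.s_ge) (lam_lt_one h.s_ge).le (Int.natCast_nonneg _)
  have p0 := Ctrl_pm0 h k e
  nlinarith

theorem Ctrl_step (hI : Inv n s k) (h : Par n s) (he : isVirt n e = true) {j : ℤ} (hj : |j| ≤ pB s)
    (hd : 4 * (s : ℝ) ^ 9 * Phi n s (addK k e j) + 1 ≤ 4 * (s : ℝ) ^ 9 * Phi n s k)
    (h1 : pm n s k e = lam s ^ k e * (1 - pm n s k e) → 1 / (16 * (s : ℝ)) ≤ lam s ^ k e → 0 ≤ k e →
      0 ≤ k e + j ∧ 1 / (16 * (s : ℝ)) ≤ lam s ^ (k e + j)) : Inv n s (addK k e j) := by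
  have hne : ∀ e', isVirt n e' = false → addK k e j e' = k e' := fun e' he' => Ctrl_ne k j (by
    rintro rfl
    rw [he] at he'
    exact absurd he' (by simp))
  refine ⟨fun e' a b => (hne e' b).trans (hI.zero e' a b), fun e' a => ?_, fun e' a => ?_, ?_⟩
  · rw [hne e' (not_virt_of_real a)]
    exact hI.real e' a
  · by_cases e1 : e' = e
    · subst e1
      rw [Ctrl_self]
      exact (abs_add_le _ _).trans ((add_le_add le_rfl hj).trans (hI.virt_le h a))
    · rw [Ctrl_ne k j e1]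
      exact hI.virt e' a
  · rcases hI.phase with ⟨h0, h2⟩ | hg
    · refine Or.inl ⟨fun e' a => (hne e' (not_virt_of_real a)).trans (h0 e' a), fun e' a => ?_⟩
      by_cases e1 : e' = e
      · subst e1
        rw [Ctrl_self]
        exact h1 (Ctrl_odds hI h a h0) (h2 e' a).2 (h2 e' a).1
      · rw [Ctrl_ne k j e1]
        exact h2 e' a
    · refine Or.inr fun k' a b => le_trans ?_ (hg k' (fun e' c => (a e' c).trans (hne e' c)) b)
      have hs := h.s_pos
      exact le_of_mul_le_mul_left (by linarith) (show 0 < 4 * (s : ℝ) ^ 9 by positivity)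

theorem Ctrl_J (h : Par n s) : |(pJ s : ℤ)| ≤ pB s := by
  rw [abs_of_nonneg (Int.natCast_nonneg _)]
  exact_mod_cast pJ_le_pB h.s_ge

theorem Inv.step_hi (hI : Inv n s k) (h : Par n s) (he : isVirt n e = true)
    (hp : 1 / (8 * (s : ℝ)) + 1 / (2 * (s : ℝ) ^ 4) ≤ pm n s k e) : Inv n s (addK k e (pJ s)) := by
  refine Ctrl_step hI h he (Ctrl_J h) (h.drop_hi he hp) fun a _ c => ⟨by positivity, ?_⟩
  have hs := h.s_pos
  have hl := lam_pos h.s_ge
  have y0 := zpow_pos hl (k e)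
  have p0 := Ctrl_pm0 h k e
  have e8 : 1 / (8 * (s : ℝ)) = 2 * (1 / (16 * (s : ℝ))) := by field_simp; norm_num
  have e4 : 0 < 1 / (2 * (s : ℝ) ^ 4) := by positivity
  have d := half_le_lam_J h.s_ge
  rw [zpow_add₀ hl.ne', zpow_natCast]
  nlinarith [mul_le_mul_of_nonneg_left d y0.le, mul_nonneg y0.le p0]

theorem Inv.step_lo (hI : Inv n s k) (h : Par n s) (he : isVirt n e = true)
    (hp : pm n s k e + 1 / (2 * (s : ℝ) ^ 4) ≤ 1 / (8 * (s : ℝ))) : Inv n s (addK k e (-(pJ s : ℤ))) := by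
  refine Ctrl_step hI h he (by rw [abs_neg]; exact Ctrl_J h) (h.drop_lo he hp) fun a b c => ?_
  have hs := h.s_ge'
  have hl := lam_pos h.s_ge
  have hl1 := lam_lt_one h.s_ge
  have y0 := zpow_pos hl (k e)
  have e8 : 1 / (8 * (s : ℝ)) ≤ 1 / 8 := one_div_le_one_div_of_le (by norm_num) (by linarith)
  have e4 : 0 < 1 / (2 * (s : ℝ) ^ 4) := by positivity
  have d := half_le_lam_J h.s_ge
  have d1 : lam s ^ k e ≤ lam s ^ (pJ s : ℤ) := by
    rw [zpow_natCast]
    nlinarith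
  have d2 := (zpow_le_zpow_iff_right_of_lt_one₀ hl hl1).1 d1
  refine ⟨by omega, b.trans ((zpow_le_zpow_iff_right_of_lt_one₀ hl hl1).2 ?_)⟩
  omega

theorem Inv.step_x (hI : Inv n s k) (h : Par n s) (he : isReal n e = true) (hk : k e + pJ s ≤ (2 * pK s : ℕ))
    (hn : ∀ e, isVirt n e = true → |pm n s k e - 1 / (8 * (s : ℝ))| ≤ 2 / (s : ℝ) ^ 4) :
    Inv n s (addK k e (pJ s)) := by
  have hv := not_virt_of_real he
  have hne : ∀ e', isVirt n e' = true → e' ≠ e := by
    rintro e' a rfl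
    rw [a] at hv
    exact absurd hv (by simp)
  refine ⟨fun e' a b => ?_, fun e' a => ?_, fun e' a => ?_, Or.inr fun k' a b => ?_⟩
  · rw [Ctrl_ne k _, hI.zero e' a b]
    rintro rfl
    rw [a] at he
    exact absurd he (by simp)
  · by_cases e1 : e' = e
    · subst e1
      rw [Ctrl_self]
      exact ⟨add_nonneg (hI.real e' a).1 (Int.natCast_nonneg _), hk⟩
    · rw [Ctrl_ne k _ e1]
      exact hI.real e' a
  · rw [Ctrl_ne k _ (hne e' a)]
    exact hI.virt e' a
  · have g := hI.gap_of_near h hn (addK k' e (-(pJ s : ℤ))) (fun e' c => by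
      have := a e' c
      by_cases e1 : e' = e
      · subst e1
        rw [Ctrl_self] at this ⊢
        omega
      · rw [Ctrl_ne _ _ e1] at this ⊢
        exact this) (fun e' c => by
      rw [Ctrl_ne _ _ (hne e' c)]
      exact b e' c)
    rw [h.Phi_addK_real k' hv] at g
    have d := h.drop_x k he
    obtain ⟨d1, d2⟩ := log_lam_J h.s_ge
    have hs := h.s_pos
    have d0 : 0 ≤ -(pJ s * Real.log (lam s)) := le_trans (by positivity) d1
    have d3 : Real.log (1 + pm n s k' e * (lam s ^ (-(pJ s : ℤ)) - 1)) ≤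
        -(pJ s * Real.log (lam s)) := by
      rw [Real.log_le_iff_le_exp (Ctrl_fac h k' e _), Ctrl_exp h, Int.cast_neg, Int.cast_natCast,
        neg_mul]
      have c1 := Real.one_le_exp d0
      have c2 := Ctrl_pm1 h k' e
      nlinarith
    have d4 := Ctrl_small h
    have e16 : 1 / (16 * (s : ℝ)) = 2 * (1 / (32 * (s : ℝ))) := by field_simp; norm_num
    linarith

theorem Inv.Phi_ge (hI : Inv n s k) (h : Par n s) : -(8 * (s : ℝ) ^ 2) ≤ Phi n s k := by
  have hs := h.s_ge'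
  have a := h.log_ZZ_ge (hI.good h).le
  have b : ∑ e ∈ (Finset.range (mE n)).filter (fun e => isVirt n e = true),
      (k e : ℝ) * Real.log (lam s) ≤
      s * (101 / 100 * ((5 : ℕ) * s)) := by
    refine (sum_le_sum fun e _ => (le_abs_self _).trans (Ctrl_absL h (hI.le h e))).trans ?_
    rw [sum_const, nsmul_eq_mul]
    exact mul_le_mul_of_nonneg_right (Ctrl_card h) (by positivity)
  have c := mul_le_mul_of_nonneg_left b (show 0 ≤ 1 / (8 * (s : ℝ)) by positivity)
  have d : 1 / (8 * (s : ℝ)) * (s * (101 / 100 * ((5 : ℕ) * s))) = 101 / 160 * s := by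
    push_cast
    field_simp
    norm_num
  rw [Phi]
  nlinarith

theorem Par.Phi_zero_le (h : Par n s) : Phi n s 0 ≤ s := by
  have a := h.log_ZZ_zero
  simpa [Phi] using a

end Crest.Agent.R304
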