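import Crest.Agent.R304.Basic

/-!
# Row 304: Load
Abstract congestion lemmas.  `pp p = wt p.1 * wt p.2 / Z 0 ^ 2`.
* `sum_fib`: `Finset.sum_fiberwise`; an empty fibre contributes `0`.
* `load1`: for a fixed `X0 ∈ Om A` the pairs with `X p = X0` have total weight `≤ θ wt X0 Z B / Z 0 ^ 2 = θ rA A rA B pi A X0 ≤ L pi A X0` (`W` is injective on the fibre and lands in
  `Om B`), and likewise `≤ L pi A' (X0 ∆ R1)`.  The move `⟨R1, R1, ∅, ∅⟩` sends `(X, Y)` to `(X ∆ R1, Y)` (`comp_empty`), `min (a y) (b y) = min a b * y`, `sum_pi`.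
* `load2`: exchange the sums.  Fix `X0 ∈ Om A`, `Y ∈ Om Bf`.  If some `p0 ∈ P` has `X p0 = X0` and `Y ∩ τ p0 = W p0 ∩ τ p0`, then every such `p` has `σ p = swS a X0 Y = σ p0`, hence the
  same `τ`, the same pattern and the same `zc`; `W` is injective on them, so their total weight is `≤ θ wt X0 zc Bn / Z 0 ^ 2`; multiply by `wt Y / zc Bf` and use `hL`, `hL'`.
-/

set_option autoImplicit false

noncomputable section

namespace Crest.Agent.R304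

open Finset
open scoped symmDiff

variable {E V : Type} [Fintype E] [DecidableEq E] [DecidableEq V]

theorem sum_fib {α δ : Type} [Fintype δ] [DecidableEq δ] (P : Finset α) (dat : α → δ) (φ : α → ℝ) {B : ℝ}
    (hB : 0 ≤ B) (h : ∀ p0 ∈ P, ∑ p ∈ P.filter (fun p => dat p = dat p0), φ p ≤ B) :
    ∑ p ∈ P, φ p ≤ Fintype.card δ * B := by
  rw [← Finset.sum_fiberwise P dat φ]
  calc ∑ d : δ, ∑ p ∈ P with dat p = d, φ p ≤ ∑ _d : δ, B := by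
        refine Finset.sum_le_sum fun d _ => ?_
        rcases (P.filter fun p => dat p = d).eq_empty_or_nonempty with he | ⟨p0, hp0⟩
        · rw [he, Finset.sum_empty]
          exact hB
        · obtain ⟨h1, h2⟩ := Finset.mem_filter.1 hp0
          rw [← h2]
          exact h p0 h1
    _ = Fintype.card δ * B := by rw [Finset.sum_const, Finset.card_univ, nsmul_eq_mul]

theorem load_num {θ wx wy ZA ZB Z0 zn zf L : ℝ} (hx : 0 ≤ wx) (hy : 0 ≤ wy) (hA : 0 < ZA) (hB : 0 < ZB)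
    (h0 : 0 < Z0) (hf : 0 < zf) (h : θ * (ZA / Z0) * (ZB / Z0) * zn ≤ L * zf) :
    θ * (wx * wy) * zn / Z0 ^ 2 / zf ≤ L * (wx / ZA * (wy / ZB)) := by
  have e : θ * (wx * wy) * zn / Z0 ^ 2 / zf =
      (θ * (ZA / Z0) * (ZB / Z0) * zn / zf) * (wx / ZA * (wy / ZB)) := by
    field_simp
  rw [e]
  exact mul_le_mul_of_nonneg_right ((div_le_iff₀ hf).2 h) (by positivity)

theorem load_num1 {θ wx ZA ZB Z0 L : ℝ} (hx : 0 ≤ wx) (hA : 0 < ZA)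
    (h0 : 0 < Z0) (h : θ * (ZA / Z0) * (ZB / Z0) ≤ L) :
    θ * wx * ZB / Z0 ^ 2 ≤ L * (wx / ZA) := by
  have e : θ * wx * ZB / Z0 ^ 2 = (θ * (ZA / Z0) * (ZB / Z0)) * (wx / ZA) := by
    field_simp
  rw [e]
  exact mul_le_mul_of_nonneg_right h (by positivity)

namespace Model

variable {M : Model E V}

theorem Pos.fib_le (hM : M.Pos) (Q : Finset (Finset E × Finset E))
    (W : Finset E × Finset E → Finset E) (S : Finset (Finset E)) {c : ℝ} (hc : 0 ≤ c)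
    (hW : ∀ p ∈ Q, W p ∈ S) (hw : ∀ p ∈ Q, wt M.x p.1 * wt M.x p.2 = c * wt M.x (W p))
    (hi : ∀ p ∈ Q, ∀ q ∈ Q, W p = W q → p = q) :
    ∑ p ∈ Q, M.pp p ≤ c * (∑ Y ∈ S, wt M.x Y) / M.Z 0 ^ 2 := by
  have h0 := hM.Z0
  have h1 : ∑ p ∈ Q, M.pp p = c * (∑ p ∈ Q, wt M.x (W p)) / M.Z 0 ^ 2 := by
    rw [Finset.mul_sum, Finset.sum_div]
    refine Finset.sum_congr rfl fun p hp => ?_
    rw [← hw p hp, pp, pi, pi]
    field_simp
  have h2 : ∑ p ∈ Q, wt M.x (W p) ≤ ∑ Y ∈ S, wt M.x Y := by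
    rw [← Finset.sum_image (s := Q) (g := W) (f := wt M.x) hi]
    refine Finset.sum_le_sum_of_subset_of_nonneg (fun Y hY => ?_)
      fun Y _ _ => (wt_pos hM.x_pos Y).le
    obtain ⟨p, hp, rfl⟩ := Finset.mem_image.1 hY
    exact hW p hp
  rw [h1]
  gcongr

open Classical in
theorem Pos.Tsec_flip (hM : M.Pos) (R1 : Finset E) (A A' : V → ZMod 2) (f g f' : Finset E → ℝ) :
    M.Tsec ⟨R1, R1, ∅, ∅⟩ A 0 A' 0 f g f' g = ∑ X ∈ M.Om A,
      if X ∆ R1 ∈ M.Om A' then min (M.pi A X) (M.pi A' (X ∆ R1)) * (f X - f' (X ∆ R1)) ^ 2 else 0 := by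
  have e1 : ∀ X Y : Finset E, M.sw1 ⟨R1, R1, ∅, ∅⟩ X Y = X ∆ R1 := fun X Y => by
    simp only [Gr.sw1, Gr.swS, Gr.comp_empty]
    rw [← Finset.bot_eq_empty, symmDiff_bot]
  have e2 : ∀ X Y : Finset E, M.sw2 ⟨R1, R1, ∅, ∅⟩ X Y = Y := fun X Y => by
    simp only [Gr.sw2, Gr.swS, Gr.comp_empty]
    rw [← Finset.bot_eq_empty, symmDiff_bot, symmDiff_bot]
  unfold Tsec
  refine Finset.sum_congr rfl fun X _ => ?_
  simp only [e1, e2]
  by_cases h : X ∆ R1 ∈ M.Om A'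
  · rw [if_pos h]
    calc _ = ∑ Y ∈ M.Om 0, min (M.pi A X) (M.pi A' (X ∆ R1)) * (f X - f' (X ∆ R1)) ^ 2 * M.pi 0 Y := by
          refine Finset.sum_congr rfl fun Y hY => ?_
          rw [if_pos ⟨h, hY⟩, ← min_mul_of_nonneg _ _ (hM.pi_nonneg 0 Y)]
          ring
      _ = _ := by rw [← Finset.mul_sum, sum_pi hM.Z0, mul_one]
  · rw [if_neg h]
    exact Finset.sum_eq_zero fun Y _ => if_neg fun h' => h h'.1

theorem Pos.load1 (hM : M.Pos) (P : Finset (Finset E × Finset E))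
    (X W W' : Finset E × Finset E → Finset E) (R1 : Finset E) (A B A' B' : V → ZMod 2) (θ θ' L : ℝ)
    (f g f' : Finset E → ℝ) (hA : 0 < M.Z A) (hA' : 0 < M.Z A')
    (hX : ∀ p ∈ P, X p ∈ M.Om A) (hW : ∀ p ∈ P, W p ∈ M.Om B)
    (hX' : ∀ p ∈ P, X p ∆ R1 ∈ M.Om A') (hW' : ∀ p ∈ P, W' p ∈ M.Om B')
    (hw : ∀ p ∈ P, wt M.x p.1 * wt M.x p.2 = θ * (wt M.x (X p) * wt M.x (W p)))
    (hw' : ∀ p ∈ P, wt M.x p.1 * wt M.x p.2 = θ' * (wt M.x (X p ∆ R1) * wt M.x (W' p)))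
    (hi : ∀ p ∈ P, ∀ q ∈ P, X p = X q → W p = W q → p = q)
    (hi' : ∀ p ∈ P, ∀ q ∈ P, X p = X q → W' p = W' q → p = q)
    (hθ : 0 ≤ θ) (hθ' : 0 ≤ θ') (hL : θ * M.rA A * M.rA B ≤ L) (hL' : θ' * M.rA A' * M.rA B' ≤ L) :
    ∑ p ∈ P, M.pp p * (f (X p) - f' (X p ∆ R1)) ^ 2 ≤ L * M.Tsec ⟨R1, R1, ∅, ∅⟩ A 0 A' 0 f g f' g := by
  classical
  have hL0 : 0 ≤ L :=
    le_trans (mul_nonneg (mul_nonneg hθ (hM.rA_nonneg A)) (hM.rA_nonneg B)) hL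
  rw [hM.Tsec_flip, Finset.mul_sum, ← Finset.sum_fiberwise_of_maps_to hX]
  refine Finset.sum_le_sum fun X0 _ => ?_
  rcases (P.filter fun p => X p = X0).eq_empty_or_nonempty with he | ⟨p0, hp0⟩
  · rw [he, Finset.sum_empty]
    refine mul_nonneg hL0 ?_
    split_ifs
    · exact mul_nonneg (le_min (hM.pi_nonneg _ _) (hM.pi_nonneg _ _)) (sq_nonneg _)
    · exact le_rfl
  · obtain ⟨h1, h2⟩ := Finset.mem_filter.1 hp0
    have hw0 := (wt_pos hM.x_pos X0).le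
    have hw1 := (wt_pos hM.x_pos (X0 ∆ R1)).le
    have b1 : ∑ p ∈ P with X p = X0, M.pp p ≤ L * M.pi A X0 := by
      refine (hM.fib_le _ W (M.Om B) (mul_nonneg hθ hw0) (fun p hp => ?_) (fun p hp => ?_)
        (fun p hp q hq h => ?_)).trans (load_num1 hw0 hA hM.Z0 hL)
      · exact hW p (Finset.mem_filter.1 hp).1
      · obtain ⟨h3, h4⟩ := Finset.mem_filter.1 hp
        rw [hw p h3, h4, mul_assoc]
      · obtain ⟨h3, h4⟩ := Finset.mem_filter.1 hp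
        obtain ⟨h5, h6⟩ := Finset.mem_filter.1 hq
        exact hi p h3 q h5 (h4.trans h6.symm) h
    have b2 : ∑ p ∈ P with X p = X0, M.pp p ≤ L * M.pi A' (X0 ∆ R1) := by
      refine (hM.fib_le _ W' (M.Om B') (mul_nonneg hθ' hw1) (fun p hp => ?_) (fun p hp => ?_)
        (fun p hp q hq h => ?_)).trans (load_num1 hw1 hA' hM.Z0 hL')
      · exact hW' p (Finset.mem_filter.1 hp).1
      · obtain ⟨h3, h4⟩ := Finset.mem_filter.1 hp
        rw [hw' p h3, h4, mul_assoc]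
      · obtain ⟨h3, h4⟩ := Finset.mem_filter.1 hp
        obtain ⟨h5, h6⟩ := Finset.mem_filter.1 hq
        exact hi' p h3 q h5 (h4.trans h6.symm) h
    rw [if_pos (h2 ▸ hX' p0 h1), ← mul_assoc, mul_min_of_nonneg _ _ hL0]
    calc ∑ p ∈ P with X p = X0, M.pp p * (f (X p) - f' (X p ∆ R1)) ^ 2
        = (∑ p ∈ P with X p = X0, M.pp p) * (f X0 - f' (X0 ∆ R1)) ^ 2 := by
          rw [Finset.sum_mul]
          exact Finset.sum_congr rfl fun p hp => by rw [(Finset.mem_filter.1 hp).2]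
      _ ≤ _ := mul_le_mul_of_nonneg_right (le_min b1 b2) (sq_nonneg _)

theorem Pos.load2 (hM : M.Pos) (P : Finset (Finset E × Finset E))
    (X W σ : Finset E × Finset E → Finset E) (K : Finset E) (a : Sw E) (A Bn Bf A' Bf' : V → ZMod 2)
    (θ θ' L : ℝ) (f g f' g' : Finset E → ℝ)
    (hA : 0 < M.Z A) (hA' : 0 < M.Z A') (hBf : 0 < M.Z Bf) (hBf' : 0 < M.Z Bf')
    (hX : ∀ p ∈ P, X p ∈ M.Om A) (hW : ∀ p ∈ P, W p ∈ M.Om Bn)
    (hw : ∀ p ∈ P, wt M.x p.1 * wt M.x p.2 = θ * (wt M.x (X p) * wt M.x (W p)))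
    (hi : ∀ p ∈ P, ∀ q ∈ P, X p = X q → W p = W q → p = q)
    (hY : ∀ p ∈ P, ∀ Y ∈ M.Om Bf, Y ∩ (σ p ∪ K) = W p ∩ (σ p ∪ K) →
      M.swS a (X p) Y = σ p ∧ M.sw1 a (X p) Y ∈ M.Om A' ∧ M.sw2 a (X p) Y ∈ M.Om Bf' ∧
      θ * (wt M.x (X p) * wt M.x Y) = θ' * (wt M.x (M.sw1 a (X p) Y) * wt M.x (M.sw2 a (X p) Y)))
    (hθ : 0 ≤ θ) (hθ' : 0 ≤ θ') (hL0 : 0 ≤ L)
    (hz : ∀ p ∈ P, 0 < M.zc Bf (σ p ∪ K) (W p))
    (hL : ∀ p ∈ P, θ * M.rA A * M.rA Bf * M.zc Bn (σ p ∪ K) (W p) ≤ L * M.zc Bf (σ p ∪ K) (W p))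
    (hL' : ∀ p ∈ P, θ' * M.rA A' * M.rA Bf' * M.zc Bn (σ p ∪ K) (W p) ≤ L * M.zc Bf (σ p ∪ K) (W p)) :
    ∑ p ∈ P, M.pp p * ∑ Y ∈ (M.Om Bf).filter (fun Y => Y ∩ (σ p ∪ K) = W p ∩ (σ p ∪ K)),
        wt M.x Y / M.zc Bf (σ p ∪ K) (W p) *
          (f (X p) + g Y - f' (M.sw1 a (X p) Y) - g' (M.sw2 a (X p) Y)) ^ 2 ≤
      L * M.Tsec a A Bf A' Bf' f g f' g' := by
  classical
  have e1 : ∑ p ∈ P, M.pp p *
      ∑ Y ∈ (M.Om Bf).filter (fun Y => Y ∩ (σ p ∪ K) = W p ∩ (σ p ∪ K)),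
        wt M.x Y / M.zc Bf (σ p ∪ K) (W p) *
          (f (X p) + g Y - f' (M.sw1 a (X p) Y) - g' (M.sw2 a (X p) Y)) ^ 2 =
      ∑ X0 ∈ M.Om A, ∑ Y ∈ M.Om Bf,
        ∑ p ∈ P with X p = X0 ∧ Y ∩ (σ p ∪ K) = W p ∩ (σ p ∪ K),
          M.pp p * (wt M.x Y / M.zc Bf (σ p ∪ K) (W p) *
            (f X0 + g Y - f' (M.sw1 a X0 Y) - g' (M.sw2 a X0 Y)) ^ 2) := by
    rw [← Finset.sum_fiberwise_of_maps_to hX]
    refine Finset.sum_congr rfl fun X0 _ => ?_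
    simp only [← Finset.filter_filter]
    simp only [Finset.sum_filter (s := P.filter _), Finset.sum_filter (s := M.Om Bf),
      Finset.mul_sum]
    rw [Finset.sum_comm]
    refine Finset.sum_congr rfl fun Y _ => Finset.sum_congr rfl fun p hp => ?_
    rw [(Finset.mem_filter.1 hp).2]
    split_ifs
    · rfl
    · rw [mul_zero]
  rw [e1, Tsec, Finset.mul_sum]
  refine Finset.sum_le_sum fun X0 _ => ?_
  rw [Finset.mul_sum]
  refine Finset.sum_le_sum fun Y hYB => ?_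
  rcases (P.filter fun p => X p = X0 ∧ Y ∩ (σ p ∪ K) = W p ∩ (σ p ∪ K)).eq_empty_or_nonempty with
    he | ⟨p0, hp0⟩
  · rw [he, Finset.sum_empty]
    refine mul_nonneg hL0 ?_
    split_ifs
    · exact mul_nonneg (le_min (mul_nonneg (hM.pi_nonneg _ _) (hM.pi_nonneg _ _))
        (mul_nonneg (hM.pi_nonneg _ _) (hM.pi_nonneg _ _))) (sq_nonneg _)
    · exact le_rfl
  · obtain ⟨h1, h2, h3⟩ := Finset.mem_filter.1 hp0
    obtain ⟨k1, k2, k3, k4⟩ := hY p0 h1 Y hYB h3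
    rw [h2] at k1 k2 k3 k4
    have hσ : ∀ p ∈ P.filter fun p => X p = X0 ∧ Y ∩ (σ p ∪ K) = W p ∩ (σ p ∪ K),
        σ p = σ p0 ∧ W p ∩ (σ p0 ∪ K) = W p0 ∩ (σ p0 ∪ K) := fun p hp => by
      obtain ⟨h4, h5, h6⟩ := Finset.mem_filter.1 hp
      have h7 : σ p = σ p0 := by rw [← (hY p h4 Y hYB h6).1, h5, k1]
      rw [h7] at h6
      exact ⟨h7, h6.symm.trans h3⟩
    have hw0 := (wt_pos hM.x_pos X0).le
    have hwY := (wt_pos hM.x_pos Y).le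
    have b0 : ∑ p ∈ P with X p = X0 ∧ Y ∩ (σ p ∪ K) = W p ∩ (σ p ∪ K), M.pp p ≤
        θ * wt M.x X0 * M.zc Bn (σ p0 ∪ K) (W p0) / M.Z 0 ^ 2 := by
      refine hM.fib_le _ W _ (mul_nonneg hθ hw0) (fun p hp => ?_) (fun p hp => ?_)
        (fun p hp q hq h => ?_)
      · exact Finset.mem_filter.2 ⟨hW p (Finset.mem_filter.1 hp).1, (hσ p hp).2⟩
      · obtain ⟨h4, h5, -⟩ := Finset.mem_filter.1 hp
        rw [hw p h4, h5, mul_assoc]
      · obtain ⟨h4, h5, -⟩ := Finset.mem_filter.1 hp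
        obtain ⟨h6, h7, -⟩ := Finset.mem_filter.1 hq
        exact hi p h4 q h6 (h5.trans h7.symm) h
    have hzf := hz p0 h1
    have b1 := load_num hw0 hwY hA hBf hM.Z0 hzf (hL p0 h1)
    have b2 := load_num (wt_pos hM.x_pos (M.sw1 a X0 Y)).le (wt_pos hM.x_pos (M.sw2 a X0 Y)).le
      hA' hBf' hM.Z0 hzf (hL' p0 h1)
    rw [← k4] at b2
    rw [if_pos ⟨k2, k3⟩, ← mul_assoc, mul_min_of_nonneg _ _ hL0]
    calc ∑ p ∈ P with X p = X0 ∧ Y ∩ (σ p ∪ K) = W p ∩ (σ p ∪ K),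
          M.pp p * (wt M.x Y / M.zc Bf (σ p ∪ K) (W p) *
            (f X0 + g Y - f' (M.sw1 a X0 Y) - g' (M.sw2 a X0 Y)) ^ 2)
        = (∑ p ∈ P with X p = X0 ∧ Y ∩ (σ p ∪ K) = W p ∩ (σ p ∪ K), M.pp p) *
            (wt M.x Y / M.zc Bf (σ p0 ∪ K) (W p0)) *
            (f X0 + g Y - f' (M.sw1 a X0 Y) - g' (M.sw2 a X0 Y)) ^ 2 := by
          rw [Finset.sum_mul, Finset.sum_mul]
          refine Finset.sum_congr rfl fun p hp => ?_
          have h4 : M.zc Bf (σ p ∪ K) (W p) = M.zc Bf (σ p0 ∪ K) (W p0) := by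
            rw [zc, zc, (hσ p hp).1, (hσ p hp).2]
          rw [h4, mul_assoc]
      _ ≤ θ * (wt M.x X0 * wt M.x Y) * M.zc Bn (σ p0 ∪ K) (W p0) / M.Z 0 ^ 2 /
            M.zc Bf (σ p0 ∪ K) (W p0) *
            (f X0 + g Y - f' (M.sw1 a X0 Y) - g' (M.sw2 a X0 Y)) ^ 2 := by
          refine mul_le_mul_of_nonneg_right ?_ (sq_nonneg _)
          refine (mul_le_mul_of_nonneg_right b0 (div_nonneg hwY hzf.le)).trans_eq ?_
          ring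
      _ ≤ _ := mul_le_mul_of_nonneg_right (le_min b1 b2) (sq_nonneg _)

end Model

end Crest.Agent.R304
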