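import Crest.Agent.R304.Fresh
import Crest.Agent.R304.Load

/-!
# Row 304: Double
The defect of a run.  For `p = (I, F)`, `C = cy (I ∆ F)`, `τ = seg (t'+1) t ∪ {h t', h t}` put `z b = zc (pr (pL F b) (qL F b t')) τ (stn F b t')`; it is positive (`stn F b t'` is a member), and by
`pat_eq` the pattern does not depend on `b ∈ {s, t'}`.  Choose `b' p ∈ {s, t'}` by `either_or`.  For every fresh `Y` (sector and pattern of `stn F b' t'`), with `Y' = Y ∆ σ ∆ rr F b' t' t`,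
`d b = val b t' + Ψ Y - val b t - Ψ Y'` (`fresh_move`), the defect equals `d t' - d s`; average over `Y` with the weights `wt Y / z b'` (they sum to one), `(x - y)^2 ≤ 2 x^2 + 2 y^2`.
`sum_fib` over the data `(dat s, dat t', dat t, h (t'+1), h (t-1), decide (b' = s))` (`128 card E ^ 5` values); on a fibre the move `swD`, the labels, `θ`, `thB` are those of the representative
(`dat_eq`), and `load2` with `X = stn I b t'`, `W = stn F b t'`, `Bn` the sector of `W`, `Bf` the sector of `stn F b' t'` bounds each `d b` term by `L * D` (`Small`, `swD_adm`, `wt_stn`, `stn_inj`).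
It is convenient to prove first one lemma for a general base `b ∈ {s, t'}`.
-/

set_option autoImplicit false
set_option linter.unusedSectionVars false

noncomputable section

namespace Crest.Agent.R304

open Finset
open scoped symmDiff

variable {E V : Type} [Fintype E] [DecidableEq E] [DecidableEq V]

namespace Model

variable {M : Model E V} {Φ Ψ : V → V → Finset E → ℝ} {D : ℝ}

/-- two cycles with the same local data at position `j` -/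
def DblSm (C C' : Cyc M.toGr) (I I' : Finset E) (j : ℕ) : Prop :=
  C.h j = C'.h j ∧ C.v j = C'.v j ∧ C.v (j + 1) = C'.v (j + 1) ∧ (C.h j ∈ I ↔ C'.h j ∈ I')

section aux

variable {C C' : Cyc M.toGr} {I I' F F' : Finset E}

theorem DblSm.other {j : ℕ} (h : DblSm C C' I I' j) (hC : C.all ⊆ I ∆ F) (hC' : C'.all ⊆ I' ∆ F')
    (hj : j < C.l) (hj' : j < C'.l) : DblSm C C' F F' j := by
  refine ⟨h.1, h.2.1, h.2.2.1, ?_⟩
  rw [C.mem_iff hC hj, C'.mem_iff hC' hj', h.2.2.2]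

theorem DblSm.pL_eq {j : ℕ} (h : DblSm C C' I I' j) : C.pL I j = C'.pL I' j := by
  unfold Cyc.pL
  by_cases h1 : C.h j ∈ I
  · rw [if_pos h1, if_pos (h.2.2.2.1 h1), h.2.1]
  · rw [if_neg h1, if_neg (fun h2 => h1 (h.2.2.2.2 h2)), h.2.2.1]

theorem DblSm.qL_eq {j : ℕ} (h : DblSm C C' I I' j) (b : ℕ) : C.qL I b j = C'.qL I' b j := by
  unfold Cyc.qL
  by_cases hb : b = j
  · rw [if_pos hb, if_pos hb, hb, h.2.2.1]
  · rw [if_neg hb, if_neg hb]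
    by_cases h1 : C.h j ∈ I
    · rw [if_pos h1, if_pos (h.2.2.2.1 h1), h.2.2.1]
    · rw [if_neg h1, if_neg (fun h2 => h1 (h.2.2.2.2 h2)), h.2.1]

theorem DblSm.rr_eq {t' t : ℕ} (h' : DblSm C C' I I' t') (h : DblSm C C' I I' t) (b : ℕ) :
    C.rr I b t' t = C'.rr I' b t' t := by
  unfold Cyc.rr
  have e1 : (b < t' ∧ C.h t' ∉ I) ↔ (b < t' ∧ C'.h t' ∉ I') := by rw [h'.2.2.2]
  have e2 := h.2.2.2
  congr 1
  · by_cases h1 : b < t' ∧ C.h t' ∉ I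
    · rw [if_pos h1, if_pos (e1.1 h1), h'.1]
    · rw [if_neg h1, if_neg (fun h2 => h1 (e1.2 h2))]
  · by_cases h1 : C.h t ∈ I
    · rw [if_pos h1, if_pos (e2.1 h1), h.1]
    · rw [if_neg h1, if_neg (fun h2 => h1 (e2.2 h2))]

theorem DblSm.thB_eq {b t' t : ℕ} (hb : C.h b = C'.h b) (h' : DblSm C C' I I' t') (h : C.h t = C'.h t) (β : ℕ) :
    thB C I b β t' t = thB C' I' b β t' t := by
  unfold thB
  have e1 : (b < t' ∧ C.h t' ∉ I) ↔ (b < t' ∧ C'.h t' ∉ I') := by rw [h'.2.2.2]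
  have e2 : (β < t' ∧ C.h t' ∈ I) ↔ (β < t' ∧ C'.h t' ∈ I') := by rw [h'.2.2.2]
  have e3 : (if b < t' ∧ C.h t' ∉ I then M.x (C.h t') else 1) =
      (if b < t' ∧ C'.h t' ∉ I' then M.x (C'.h t') else 1) := by
    by_cases h1 : b < t' ∧ C.h t' ∉ I
    · rw [if_pos h1, if_pos (e1.1 h1), h'.1]
    · rw [if_neg h1, if_neg (fun h2 => h1 (e1.2 h2))]
  have e4 : (if β < t' ∧ C.h t' ∈ I then M.x (C.h t') else 1) =
      (if β < t' ∧ C'.h t' ∈ I' then M.x (C'.h t') else 1) := by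
    by_cases h1 : β < t' ∧ C.h t' ∈ I
    · rw [if_pos h1, if_pos (e2.1 h1), h'.1]
    · rw [if_neg h1, if_neg (fun h2 => h1 (e2.2 h2))]
  rw [e3, e4, hb, h'.1, h]

theorem DblSm.swD_eq {t' t : ℕ} (h' : DblSm C C' I I' t') (h : DblSm C C' I I' t)
    (g' : DblSm C C' F F' t') (g : DblSm C C' F F' t) (e1 : C.h (t' + 1) = C'.h (t' + 1))
    (e2 : C.h (t - 1) = C'.h (t - 1)) (b β : ℕ) : swD C I F b β t' t = swD C' I' F' b β t' t := by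
  unfold swD
  rw [h'.rr_eq h b, g'.rr_eq g β, e1]
  congr 1
  unfold Cyc.cutR
  rw [e1, e2, h'.2.2.1, h.2.1]

end aux

/-- the pattern set of the run -/
def dblTau (C : Cyc M.toGr) (t' t : ℕ) : Finset E := C.seg (t' + 1) t ∪ {C.h t', C.h t}

/-- conditioned partition function as a function of the base -/
def dblZ (C : Cyc M.toGr) (F : Finset E) (t' t b : ℕ) : ℝ :=
  M.zc (pr (C.pL F b) (C.qL F b t')) (dblTau C t' t) (C.stn F b t')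

/-- averaged energy of the step with base `b` and a fresh partner with base `β` -/
def dblPhi (Φ Ψ : V → V → Finset E → ℝ) (C : Cyc M.toGr) (I F : Finset E) (b β t' t : ℕ) : ℝ :=
  ∑ Y ∈ (M.Om (pr (C.pL F β) (C.qL F β t'))).filter
      (fun Y => Y ∩ dblTau C t' t = C.stn F β t' ∩ dblTau C t' t),
    wt M.x Y / dblZ C F t' t β *
      (C.val Φ I b t' + Ψ (C.pL F β) (C.qL F β t') Y - C.val Φ I b t -
        Ψ (C.pL F β) (C.qL F β t) (Y ∆ C.seg (t' + 1) t ∆ C.rr F β t' t)) ^ 2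

theorem Ok.dblZ_pos (hM : M.Ok) (C : Cyc M.toGr) {F : Finset E} (hF : F ∈ M.Om 0) {t' b : ℕ} (t : ℕ)
    (hb : b ≤ t') (ht : t' < C.l) : 0 < dblZ C F t' t b := by
  unfold dblZ zc
  refine Finset.sum_pos (fun Y _ => wt_pos hM.x_pos Y) ⟨C.stn F b t', ?_⟩
  exact Finset.mem_filter.2 ⟨stn_mem_Om C hF hb ht, rfl⟩

theorem Ok.dbl_point (hM : M.Ok) (C : Cyc M.toGr) (I : Finset E) {F : Finset E} (hF : F ∈ M.Om 0)
    {t' β : ℕ} (s t : ℕ) (hβ : β ≤ t') (ht : t' < C.l) :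
    (C.val Φ I s t - C.val Φ I s t' - (C.val Φ I t' t - C.val Φ I t' t')) ^ 2 ≤
      2 * dblPhi Φ Ψ C I F s β t' t + 2 * dblPhi Φ Ψ C I F t' β t' t := by
  have hz := hM.dblZ_pos C hF t hβ ht
  have h1 : ∑ Y ∈ (M.Om (pr (C.pL F β) (C.qL F β t'))).filter
      (fun Y => Y ∩ dblTau C t' t = C.stn F β t' ∩ dblTau C t' t), wt M.x Y / dblZ C F t' t β = 1 := by
    rw [← Finset.sum_div]
    exact div_self hz.ne'
  unfold dblPhi
  rw [Finset.mul_sum, Finset.mul_sum, ← Finset.sum_add_distrib]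
  refine le_trans (le_of_eq ?_) (Finset.sum_le_sum (f := fun Y => wt M.x Y / dblZ C F t' t β *
    (C.val Φ I s t - C.val Φ I s t' - (C.val Φ I t' t - C.val Φ I t' t')) ^ 2) ?_)
  · rw [← Finset.sum_mul, h1, one_mul]
  · intro Y _
    have hw : 0 ≤ wt M.x Y / dblZ C F t' t β := div_nonneg (wt_pos hM.x_pos Y).le hz.le
    generalize wt M.x Y / dblZ C F t' t β = w at hw
    generalize Ψ (C.pL F β) (C.qL F β t') Y = y1
    generalize Ψ (C.pL F β) (C.qL F β t) (Y ∆ C.seg (t' + 1) t ∆ C.rr F β t' t) = y2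
    generalize C.val Φ I s t = a1
    generalize C.val Φ I s t' = a2
    generalize C.val Φ I t' t = a3
    generalize C.val Φ I t' t' = a4
    have h2 : (a1 - a2 - (a3 - a4)) ^ 2 ≤ 2 * (a2 + y1 - a1 - y2) ^ 2 + 2 * (a4 + y1 - a3 - y2) ^ 2 := by
      nlinarith [sq_nonneg ((a2 + y1 - a1 - y2) + (a4 + y1 - a3 - y2))]
    calc w * (a1 - a2 - (a3 - a4)) ^ 2
        ≤ w * (2 * (a2 + y1 - a1 - y2) ^ 2 + 2 * (a4 + y1 - a3 - y2) ^ 2) := mul_le_mul_of_nonneg_left h2 hw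
      _ = _ := by ring

theorem dbl_pat {C : Cyc M.toGr} {s t' t : ℕ} (hD : M.Dbl C s t' t) (F : Finset E) {b β : ℕ}
    (hb : b = s ∨ b = t') (hβ : β = s ∨ β = t') :
    C.stn F b t' ∩ dblTau C t' t = C.stn F β t' ∩ dblTau C t' t := by
  have h := pat_eq hD F
  unfold dblTau
  rcases hb with hb | hb <;> rcases hβ with hβ | hβ <;> rw [hb, hβ]
  · exact h
  · exact h.symm

theorem Ok.dbl_fib (hM : M.Ok) (hS : M.Small Φ Ψ D) (cy : Finset E → Cyc M.toGr) {s t' t b β : ℕ}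
    (hb : b = s ∨ b = t') (hβ : β = s ∨ β = t') (P : Finset (Finset E × Finset E))
    {p0 : Finset E × Finset E} (hp0 : p0 ∈ P)
    (hP : ∀ p ∈ P, p ∈ M.PP cy) (hD : ∀ p ∈ P, M.Dbl (cy (p.1 ∆ p.2)) s t' t)
    (hL : ∀ p ∈ P, LoadOK (cy (p.1 ∆ p.2)) p.1 p.2 b β t' t (dblZ (cy (p.1 ∆ p.2)) p.2 t' t))
    (d1 : ∀ p ∈ P, (cy (p.1 ∆ p.2)).dat p.1 s = (cy (p0.1 ∆ p0.2)).dat p0.1 s)
    (d2 : ∀ p ∈ P, (cy (p.1 ∆ p.2)).dat p.1 t' = (cy (p0.1 ∆ p0.2)).dat p0.1 t')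
    (d3 : ∀ p ∈ P, (cy (p.1 ∆ p.2)).dat p.1 t = (cy (p0.1 ∆ p0.2)).dat p0.1 t)
    (d4 : ∀ p ∈ P, (cy (p.1 ∆ p.2)).h (t' + 1) = (cy (p0.1 ∆ p0.2)).h (t' + 1))
    (d5 : ∀ p ∈ P, (cy (p.1 ∆ p.2)).h (t - 1) = (cy (p0.1 ∆ p0.2)).h (t - 1)) :
    ∑ p ∈ P, M.pp p * dblPhi Φ Ψ (cy (p.1 ∆ p.2)) p.1 p.2 b β t' t ≤ LL E * D := by
  have hI : ∀ p ∈ P, p.1 ∈ M.Om 0 := fun p hp => (mem_PP.1 (hP p hp)).1
  have hF : ∀ p ∈ P, p.2 ∈ M.Om 0 := fun p hp => (mem_PP.1 (hP p hp)).2.1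
  have hC : ∀ p ∈ P, (cy (p.1 ∆ p.2)).all ⊆ p.1 ∆ p.2 := fun p hp => (mem_PP.1 (hP p hp)).2.2
  have hst : s < t' := (hD p0 hp0).1
  have htt : t' + 1 < t := (hD p0 hp0).2.1
  have htl : ∀ p ∈ P, t < (cy (p.1 ∆ p.2)).l := fun p hp => (hD p hp).2.2.1
  have hbt : b ≤ t' := by omega
  have hβt : β ≤ t' := by omega
  -- the local data
  have s1 : ∀ p ∈ P, DblSm (cy (p.1 ∆ p.2)) (cy (p0.1 ∆ p0.2)) p.1 p0.1 s := fun p hp =>
    (cy (p.1 ∆ p.2)).dat_eq hM.cubic.1 (by have := htl p hp; omega) (by have := htl p0 hp0; omega) (d1 p hp)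
  have s2 : ∀ p ∈ P, DblSm (cy (p.1 ∆ p.2)) (cy (p0.1 ∆ p0.2)) p.1 p0.1 t' := fun p hp =>
    (cy (p.1 ∆ p.2)).dat_eq hM.cubic.1 (by have := htl p hp; omega) (by have := htl p0 hp0; omega) (d2 p hp)
  have s3 : ∀ p ∈ P, DblSm (cy (p.1 ∆ p.2)) (cy (p0.1 ∆ p0.2)) p.1 p0.1 t := fun p hp =>
    (cy (p.1 ∆ p.2)).dat_eq hM.cubic.1 (htl p hp) (htl p0 hp0) (d3 p hp)
  have sb : ∀ p ∈ P, DblSm (cy (p.1 ∆ p.2)) (cy (p0.1 ∆ p0.2)) p.1 p0.1 b := fun p hp => by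
    rcases hb with hb | hb <;> rw [hb]
    · exact s1 p hp
    · exact s2 p hp
  have sβ : ∀ p ∈ P, DblSm (cy (p.1 ∆ p.2)) (cy (p0.1 ∆ p0.2)) p.1 p0.1 β := fun p hp => by
    rcases hβ with hβ | hβ <;> rw [hβ]
    · exact s1 p hp
    · exact s2 p hp
  have oth : ∀ j, j ≤ t → ∀ p ∈ P, DblSm (cy (p.1 ∆ p.2)) (cy (p0.1 ∆ p0.2)) p.1 p0.1 j →
      DblSm (cy (p.1 ∆ p.2)) (cy (p0.1 ∆ p0.2)) p.2 p0.2 j := fun j hj p hp h =>
    h.other (hC p hp) (hC p0 hp0) (by have := htl p hp; omega) (by have := htl p0 hp0; omega)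
  have f2 := fun p hp => oth t' (by omega) p hp (s2 p hp)
  have f3 := fun p hp => oth t le_rfl p hp (s3 p hp)
  have fb := fun p hp => oth b (by omega) p hp (sb p hp)
  have fβ := fun p hp => oth β (by omega) p hp (sβ p hp)
  have eτ : ∀ p ∈ P, (cy (p.1 ∆ p.2)).seg (t' + 1) t ∪ {(cy (p0.1 ∆ p0.2)).h t', (cy (p0.1 ∆ p0.2)).h t} =
      dblTau (cy (p.1 ∆ p.2)) t' t := fun p hp => by
    unfold dblTau
    rw [(s2 p hp).1, (s3 p hp).1]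
  have ea : ∀ p ∈ P, swD (cy (p0.1 ∆ p0.2)) p0.1 p0.2 b β t' t = swD (cy (p.1 ∆ p.2)) p.1 p.2 b β t' t :=
    fun p hp => ((s2 p hp).swD_eq (s3 p hp) (f2 p hp) (f3 p hp) (d4 p hp) (d5 p hp) b β).symm
  have eθ : ∀ p ∈ P, wt M.x {(cy (p0.1 ∆ p0.2)).h b, (cy (p0.1 ∆ p0.2)).h t'} =
      wt M.x {(cy (p.1 ∆ p.2)).h b, (cy (p.1 ∆ p.2)).h t'} := fun p hp => by
    rw [(sb p hp).1, (s2 p hp).1]
  have eθ' : ∀ p ∈ P, thB (cy (p0.1 ∆ p0.2)) p0.1 b β t' t = thB (cy (p.1 ∆ p.2)) p.1 b β t' t :=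
    fun p hp => (DblSm.thB_eq (sb p hp).1 (s2 p hp) (s3 p hp).1 β).symm
  have ez : ∀ p ∈ P, M.zc (pr ((cy (p.1 ∆ p.2)).pL p.2 β) ((cy (p.1 ∆ p.2)).qL p.2 β t'))
      (dblTau (cy (p.1 ∆ p.2)) t' t) ((cy (p.1 ∆ p.2)).stn p.2 b t') = dblZ (cy (p.1 ∆ p.2)) p.2 t' t β :=
    fun p hp => by
      unfold dblZ zc
      rw [dbl_pat (hD p hp) p.2 hb hβ]
  have l0 := htl p0 hp0
  have v1 := (cy (p0.1 ∆ p0.2)).isV_pL p0.1 (s := b) (by omega)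
  have v2 := (cy (p0.1 ∆ p0.2)).isV_qL p0.1 b (t := t') (by omega)
  have v3 := (cy (p0.1 ∆ p0.2)).isV_pL p0.2 (s := β) (by omega)
  have v4 := (cy (p0.1 ∆ p0.2)).isV_qL p0.2 β (t := t') (by omega)
  have v5 := (cy (p0.1 ∆ p0.2)).isV_qL p0.1 b (t := t) l0
  have v6 := (cy (p0.1 ∆ p0.2)).isV_qL p0.2 β (t := t) l0
  have hL0 : (0 : ℝ) ≤ LL E := le_trans zero_le_one one_le_LL
  have key := hM.toPos.load2 P (fun p => (cy (p.1 ∆ p.2)).stn p.1 b t') (fun p => (cy (p.1 ∆ p.2)).stn p.2 b t')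
    (fun p => (cy (p.1 ∆ p.2)).seg (t' + 1) t) {(cy (p0.1 ∆ p0.2)).h t', (cy (p0.1 ∆ p0.2)).h t}
    (swD (cy (p0.1 ∆ p0.2)) p0.1 p0.2 b β t' t)
    (pr ((cy (p0.1 ∆ p0.2)).pL p0.1 b) ((cy (p0.1 ∆ p0.2)).qL p0.1 b t'))
    (pr ((cy (p0.1 ∆ p0.2)).pL p0.2 b) ((cy (p0.1 ∆ p0.2)).qL p0.2 b t'))
    (pr ((cy (p0.1 ∆ p0.2)).pL p0.2 β) ((cy (p0.1 ∆ p0.2)).qL p0.2 β t'))
    (pr ((cy (p0.1 ∆ p0.2)).pL p0.1 b) ((cy (p0.1 ∆ p0.2)).qL p0.1 b t))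
    (pr ((cy (p0.1 ∆ p0.2)).pL p0.2 β) ((cy (p0.1 ∆ p0.2)).qL p0.2 β t))
    (wt M.x {(cy (p0.1 ∆ p0.2)).h b, (cy (p0.1 ∆ p0.2)).h t'}) (thB (cy (p0.1 ∆ p0.2)) p0.1 b β t' t) (LL E)
    (Φ ((cy (p0.1 ∆ p0.2)).pL p0.1 b) ((cy (p0.1 ∆ p0.2)).qL p0.1 b t'))
    (Ψ ((cy (p0.1 ∆ p0.2)).pL p0.2 β) ((cy (p0.1 ∆ p0.2)).qL p0.2 β t'))
    (Φ ((cy (p0.1 ∆ p0.2)).pL p0.1 b) ((cy (p0.1 ∆ p0.2)).qL p0.1 b t))
    (Ψ ((cy (p0.1 ∆ p0.2)).pL p0.2 β) ((cy (p0.1 ∆ p0.2)).qL p0.2 β t))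
    (hM.Zp _ _ v1 v2) (hM.Zp _ _ v1 v5) (hM.Zp _ _ v3 v4) (hM.Zp _ _ v3 v6)
    (fun p hp => by
      rw [← (sb p hp).pL_eq, ← (s2 p hp).qL_eq b]
      exact stn_mem_Om _ (hI p hp) hbt (by have := htl p hp; omega))
    (fun p hp => by
      rw [← (fb p hp).pL_eq, ← (f2 p hp).qL_eq b]
      exact stn_mem_Om _ (hF p hp) hbt (by have := htl p hp; omega))
    (fun p hp => by
      rw [eθ p hp]
      exact (cy (p.1 ∆ p.2)).wt_stn M.x (hC p hp) hbt (by have := htl p hp; omega))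
    (fun p hp q hq h1 h2 => by
      have db : ∀ p ∈ P, (cy (p.1 ∆ p.2)).dat p.1 b = (cy (p0.1 ∆ p0.2)).dat p0.1 b := fun p hp => by
        rcases hb with hb | hb <;> rw [hb]
        · exact d1 p hp
        · exact d2 p hp
      have := stn_inj cy (fun _ => b) (fun _ => t') (hC p hp) (hC q hq) hbt (by have := htl p hp; omega) hbt
        (by have := htl q hq; omega) ((db p hp).trans (db q hq).symm) ((d2 p hp).trans (d2 q hq).symm) h1 h2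
      exact Prod.ext this.1 this.2)
    (fun p hp Y hY hpat => by
      rw [← (fβ p hp).pL_eq, ← (f2 p hp).qL_eq β] at hY
      rw [eτ p hp, dbl_pat (hD p hp) p.2 hb hβ] at hpat
      obtain ⟨m1, m2, m3, m4, m5⟩ :=
        hM.fresh_move (b := b) (hC p hp) (hI p hp) (hF p hp) hbt hβt htt (htl p hp) hY hpat
      rw [ea p hp, eθ p hp, eθ' p hp, m2, m3, ← (sb p hp).pL_eq, ← (s3 p hp).qL_eq b, ← (fβ p hp).pL_eq,
        ← (f3 p hp).qL_eq β]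
      exact ⟨m1, stn_mem_Om _ (hI p hp) (by omega) (htl p hp), m4, m5⟩)
    (wt_pos hM.x_pos _).le (hM.thB_nonneg _ _ _ _ _ _) hL0
    (fun p hp => by
      rw [eτ p hp, ← (fβ p hp).pL_eq, ← (f2 p hp).qL_eq β, ez p hp]
      exact hM.dblZ_pos _ (hF p hp) t hβt (by have := htl p hp; omega))
    (fun p hp => by
      rw [eτ p hp, eθ p hp, ← (fβ p hp).pL_eq, ← (f2 p hp).qL_eq β, ez p hp, ← (sb p hp).pL_eq,
        ← (s2 p hp).qL_eq b, ← (fb p hp).pL_eq, ← (f2 p hp).qL_eq b]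
      exact (hL p hp).1)
    (fun p hp => by
      rw [eτ p hp, eθ' p hp, ← (fβ p hp).pL_eq, ← (f2 p hp).qL_eq β, ez p hp, ← (sb p hp).pL_eq,
        ← (s3 p hp).qL_eq b, ← (fb p hp).pL_eq, ← (f2 p hp).qL_eq b, ← (f3 p hp).qL_eq β]
      exact (hL p hp).2)
  have hT := hS _ (hM.swD_adm (hD p0 hp0) p0.1 p0.2 b β) _ _ _ _ _ _ _ _ v1 v2 v3 v4 v1 v5 v3 v6
  refine le_trans (le_of_eq ?_) (key.trans (mul_le_mul_of_nonneg_left hT hL0))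
  refine Finset.sum_congr rfl fun p hp => ?_
  congr 1
  unfold dblPhi
  rw [eτ p hp, ea p hp, ← (fβ p hp).pL_eq, ← (f2 p hp).qL_eq β, ez p hp, dbl_pat (hD p hp) p.2 hb hβ,
    ← (sb p hp).pL_eq, ← (s2 p hp).qL_eq b, ← (s3 p hp).qL_eq b, ← (f3 p hp).qL_eq β]
  refine Finset.sum_congr rfl fun Y hY => ?_
  obtain ⟨hY, hpat⟩ := Finset.mem_filter.1 hY
  obtain ⟨-, m2, m3, -, -⟩ :=
    hM.fresh_move (b := b) (hC p hp) (hI p hp) (hF p hp) hbt hβt htt (htl p hp) hY hpat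
  rw [m2, m3]
  rfl

open Classical in
theorem Ok.double (hM : M.Ok) (hS : M.Small Φ Ψ D) (hD : 0 ≤ D) (cy : Finset E → Cyc M.toGr) (s t' t : ℕ) :
    ∑ p ∈ (M.PP cy).filter (fun p => M.Dbl (cy (p.1 ∆ p.2)) s t' t),
        M.pp p * ((cy (p.1 ∆ p.2)).val Φ p.1 s t - (cy (p.1 ∆ p.2)).val Φ p.1 s t' -
          ((cy (p.1 ∆ p.2)).val Φ p.1 t' t - (cy (p.1 ∆ p.2)).val Φ p.1 t' t')) ^ 2 ≤
      128 * (Fintype.card E : ℝ) ^ 5 * (4 * (LL E * D)) := by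
  set P0 := (M.PP cy).filter (fun p => M.Dbl (cy (p.1 ∆ p.2)) s t' t) with hP0
  have hP : ∀ p ∈ P0, p ∈ M.PP cy := fun p hp => (Finset.mem_filter.1 hp).1
  have hDb : ∀ p ∈ P0, M.Dbl (cy (p.1 ∆ p.2)) s t' t := fun p hp => (Finset.mem_filter.1 hp).2
  have hex : ∀ p : Finset E × Finset E, ∃ b', p ∈ P0 → (b' = s ∨ b' = t') ∧
      LoadOK (cy (p.1 ∆ p.2)) p.1 p.2 s b' t' t (dblZ (cy (p.1 ∆ p.2)) p.2 t' t) ∧
      LoadOK (cy (p.1 ∆ p.2)) p.1 p.2 t' b' t' t (dblZ (cy (p.1 ∆ p.2)) p.2 t' t) := fun p => by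
    by_cases hp : p ∈ P0
    · obtain ⟨-, hF, hC⟩ := mem_PP.1 (hP p hp)
      have h := hDb p hp
      have h1 := h.1
      have h2 := h.2.1
      have h3 := h.2.2.1
      obtain ⟨b', hb'⟩ := hM.either_or hC h (dblZ (cy (p.1 ∆ p.2)) p.2 t' t)
        (hM.dblZ_pos _ hF t h1.le (by omega)) (hM.dblZ_pos _ hF t le_rfl (by omega))
      exact ⟨b', fun _ => hb'⟩
    · exact ⟨s, fun h => absurd h hp⟩
  choose b' hb' using hex
  have hL0 : (0 : ℝ) ≤ LL E := le_trans zero_le_one one_le_LL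
  have hfib := sum_fib P0
    (fun p => (((cy (p.1 ∆ p.2)).dat p.1 s, (cy (p.1 ∆ p.2)).dat p.1 t', (cy (p.1 ∆ p.2)).dat p.1 t,
      (cy (p.1 ∆ p.2)).h (t' + 1), (cy (p.1 ∆ p.2)).h (t - 1), decide (b' p = s)) :
      (E × Bool × Bool) × (E × Bool × Bool) × (E × Bool × Bool) × E × E × Bool))
    (fun p => M.pp p * ((cy (p.1 ∆ p.2)).val Φ p.1 s t - (cy (p.1 ∆ p.2)).val Φ p.1 s t' -
          ((cy (p.1 ∆ p.2)).val Φ p.1 t' t - (cy (p.1 ∆ p.2)).val Φ p.1 t' t')) ^ 2)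
    (B := 4 * (LL E * D)) (by positivity) ?_
  · refine hfib.trans (le_of_eq ?_)
    congr 1
    simp only [Fintype.card_prod, Fintype.card_bool]
    push_cast
    ring
  intro p0 hp0
  set P := P0.filter (fun p => (((cy (p.1 ∆ p.2)).dat p.1 s, (cy (p.1 ∆ p.2)).dat p.1 t', (cy (p.1 ∆ p.2)).dat p.1 t,
      (cy (p.1 ∆ p.2)).h (t' + 1), (cy (p.1 ∆ p.2)).h (t - 1), decide (b' p = s)) :
      (E × Bool × Bool) × (E × Bool × Bool) × (E × Bool × Bool) × E × E × Bool) =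
      ((cy (p0.1 ∆ p0.2)).dat p0.1 s, (cy (p0.1 ∆ p0.2)).dat p0.1 t', (cy (p0.1 ∆ p0.2)).dat p0.1 t,
      (cy (p0.1 ∆ p0.2)).h (t' + 1), (cy (p0.1 ∆ p0.2)).h (t - 1), decide (b' p0 = s))) with hPdef
  have hsub : ∀ p ∈ P, p ∈ P0 := fun p hp => (Finset.mem_filter.1 hp).1
  have hp0' : p0 ∈ P := Finset.mem_filter.2 ⟨hp0, rfl⟩
  have hd : ∀ p ∈ P, (cy (p.1 ∆ p.2)).dat p.1 s = (cy (p0.1 ∆ p0.2)).dat p0.1 s ∧
      (cy (p.1 ∆ p.2)).dat p.1 t' = (cy (p0.1 ∆ p0.2)).dat p0.1 t' ∧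
      (cy (p.1 ∆ p.2)).dat p.1 t = (cy (p0.1 ∆ p0.2)).dat p0.1 t ∧
      (cy (p.1 ∆ p.2)).h (t' + 1) = (cy (p0.1 ∆ p0.2)).h (t' + 1) ∧
      (cy (p.1 ∆ p.2)).h (t - 1) = (cy (p0.1 ∆ p0.2)).h (t - 1) ∧ (b' p = s ↔ b' p0 = s) := fun p hp => by
    have h := (Finset.mem_filter.1 hp).2
    simpa only [Prod.mk.injEq, decide_eq_decide] using h
  have hβ := (hb' p0 hp0).1
  have hbp : ∀ p ∈ P, b' p = b' p0 := fun p hp => by
    have h1 := (hb' p (hsub p hp)).1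
    have h2 := (hd p hp).2.2.2.2.2
    by_cases h3 : b' p = s
    · rw [h3, h2.1 h3]
    · have h4 : ¬ b' p0 = s := fun h => h3 (h2.2 h)
      rw [h1.resolve_left h3, hβ.resolve_left h4]
  have k1 := hM.dbl_fib hS cy (b := s) (Or.inl rfl) hβ P hp0' (fun p hp => hP p (hsub p hp))
    (fun p hp => hDb p (hsub p hp)) (fun p hp => by rw [← hbp p hp]; exact (hb' p (hsub p hp)).2.1)
    (fun p hp => (hd p hp).1) (fun p hp => (hd p hp).2.1) (fun p hp => (hd p hp).2.2.1)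
    (fun p hp => (hd p hp).2.2.2.1) (fun p hp => (hd p hp).2.2.2.2.1)
  have k2 := hM.dbl_fib hS cy (b := t') (Or.inr rfl) hβ P hp0' (fun p hp => hP p (hsub p hp))
    (fun p hp => hDb p (hsub p hp)) (fun p hp => by rw [← hbp p hp]; exact (hb' p (hsub p hp)).2.2)
    (fun p hp => (hd p hp).1) (fun p hp => (hd p hp).2.1) (fun p hp => (hd p hp).2.2.1)
    (fun p hp => (hd p hp).2.2.2.1) (fun p hp => (hd p hp).2.2.2.2.1)
  refine le_trans (Finset.sum_le_sum (g := fun p =>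
    2 * (M.pp p * dblPhi Φ Ψ (cy (p.1 ∆ p.2)) p.1 p.2 s (b' p0) t' t) +
      2 * (M.pp p * dblPhi Φ Ψ (cy (p.1 ∆ p.2)) p.1 p.2 t' (b' p0) t' t)) ?_) ?_
  · intro p hp
    have h := hDb p (hsub p hp)
    have h1 := h.1
    have h2 := h.2.1
    have h3 := h.2.2.1
    have h4 := hM.dbl_point (Φ := Φ) (Ψ := Ψ) (cy (p.1 ∆ p.2)) p.1 (mem_PP.1 (hP p (hsub p hp))).2.1
      (t' := t') (β := b' p0) s t (by omega) (by omega)
    have h5 := mul_le_mul_of_nonneg_left h4 (hM.toPos.pp_nonneg p)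
    linarith
  · rw [Finset.sum_add_distrib, ← Finset.mul_sum, ← Finset.mul_sum]
    linarith

end Model

end Crest.Agent.R304
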