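import Crest.Agent.R304.Single
import Crest.Agent.R304.Double

/-!
# Row 304: CycLI
* `rec_bound`: strong induction on `t - s`; let `t'` be the largest good partner of `s` below `t` (`Nat.findGreatest`).  If `t' + 1 = t` use `hs`; otherwise `s < t'` (because `s + 1` is good) and use `hch`.
* `cyc_LI`: for a pair `p` let `μ ^ 2` be the sum of the squares of all its defects (start, end, all `Sgl s t`, all `Dbl s t' t` with indices `< card E`; `l_le`).  `rec_bound` with `good_succ`,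
  `good_child`, `good_last` gives `|f (I ∆ all) - f I| ≤ (2 m + 2) μ`.  Sum over `p`: `(2m+2)^2 L (4m + 16m^2 + m^2 64 m^3 + m^3 512 m^5) ≤ 480000 (m+1)^12`.
* `sec_LI`: if there is no cycle then `I ∆ F = ∅` for all pairs (`exists_cyc`).  Otherwise choose `c H` with `(c H).all ⊆ H` for even non-empty `H`; put `nx H = H \ (c H).all` (`= ∅` if `H = ∅`),
  `Hj = nx^[j] H` (even, `card Hj ≤ card H - j`, so `Hm = ∅`), `Ij = I ∆ (H \ Hj)`, `Fj = F ∆ (H \ Hj)`.  Then `I0 = I`, `Im = F`, `(f I - f F)^2 ≤ m ∑_{j<m} (f I(j+1) - f Ij)^2`; `(I, F) ↦ (Ij, Fj)` is a weight-preserving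
  injection of `Om 0 ×ˢ Om 0` keeping `H`; a non-zero term has `Hj ≠ ∅` and is a term of `cyc_LI` for `cy H = c (nx^[j] H)`.
-/

set_option autoImplicit false

noncomputable section

namespace Crest.Agent.R304

open Finset
open scoped symmDiff

variable {E V : Type} [Fintype E] [DecidableEq E] [DecidableEq V]

theorem rec_bound (l : ℕ) (val : ℕ → ℕ → ℝ) (Gd : ℕ → ℕ → Prop) (μ : ℝ) (h0 : ∀ s, Gd s s)
    (h1 : ∀ s, s + 1 < l → Gd s (s + 1))
    (hs : ∀ s t, s ≤ t → t + 1 < l → Gd s t → Gd s (t + 1) → |val s (t + 1) - val s t| ≤ μ)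
    (hch : ∀ s t' t, s < t' → t' + 1 < t → t < l → Gd s t' → Gd s t → (∀ j, t' < j → j < t → ¬ Gd s j) →
      Gd t' t ∧ |val s t - val s t' - (val t' t - val t' t')| ≤ μ)
    (s t : ℕ) (hst : s < t) (ht : t < l) (hg : Gd s t) :
    |val s t - val s s| ≤ (2 * ((t : ℝ) - s) - 1) * μ := by
  classical
  induction hn : t - s using Nat.strong_induction_on generalizing s t with
  | _ n ih =>
    have ha : s ≤ Nat.findGreatest (Gd s) (t - 1) := Nat.le_findGreatest (by omega) (h0 s)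
    have hb : Gd s (Nat.findGreatest (Gd s) (t - 1)) :=
      Nat.findGreatest_spec (m := s) (by omega) (h0 s)
    have hc : Nat.findGreatest (Gd s) (t - 1) ≤ t - 1 := Nat.findGreatest_le _
    have hd : ∀ j, Nat.findGreatest (Gd s) (t - 1) < j → j < t → ¬ Gd s j := fun j h2 h3 =>
      Nat.findGreatest_is_greatest h2 (by omega)
    have he : s + 1 < t → s + 1 ≤ Nat.findGreatest (Gd s) (t - 1) := fun h =>
      Nat.le_findGreatest (by omega) (h1 s (by omega))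
    generalize Nat.findGreatest (Gd s) (t - 1) = t' at ha hb hc hd he
    rcases Nat.lt_or_ge (t' + 1) t with h | h
    · have hst' : s < t' := he (by omega)
      obtain ⟨g1, g2⟩ := hch s t' t hst' h ht hb hg hd
      have i1 := abs_le.1 (ih (t' - s) (by omega) s t' hst' (by omega) hb rfl)
      have i2 := abs_le.1 (ih (t - t') (by omega) t' t (by omega) ht g1 rfl)
      have i3 := abs_le.1 g2
      exact abs_le.2 ⟨by linarith [i1.1, i2.1, i3.1], by linarith [i1.2, i2.2, i3.2]⟩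
    · obtain rfl : t = t' + 1 := by omega
      have g2 := hs s t' ha ht hb hg
      have hμ : 0 ≤ μ := (abs_nonneg _).trans g2
      push_cast
      rcases ha.eq_or_lt with rfl | hst'
      · exact g2.trans (le_of_eq (by ring))
      · have i1 := abs_le.1 (ih (t' - s) (by omega) s t' hst' (by omega) hb rfl)
        have i3 := abs_le.1 g2
        exact abs_le.2 ⟨by linarith [i1.1, i3.1], by linarith [i1.2, i3.2]⟩

open Classical in
theorem CycLI_swap {α κ : Type} (P : Finset α) (T : Finset κ) (w : α → ℝ) (Q : κ → α → Prop)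
    (φ : κ → α → ℝ) {B : ℝ} (h : ∀ i ∈ T, ∑ p ∈ P.filter (Q i), w p * φ i p ≤ B) :
    ∑ p ∈ P, w p * ∑ i ∈ T, (if Q i p then φ i p else 0) ≤ T.card * B := by
  simp only [mul_sum, mul_ite, mul_zero]
  rw [sum_comm, ← nsmul_eq_mul]
  exact sum_le_card_nsmul _ _ _ fun i hi => (sum_filter _ _).ge.trans (h i hi)

open Classical in
theorem CycLI_term {κ : Type} (T : Finset κ) (Q : κ → Prop) (φ : κ → ℝ) :
    0 ≤ ∑ i ∈ T, (if Q i then φ i ^ 2 else 0) ∧
      ∀ i ∈ T, Q i → φ i ^ 2 ≤ ∑ i ∈ T, (if Q i then φ i ^ 2 else 0) := by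
  have h : ∀ i ∈ T, 0 ≤ (if Q i then φ i ^ 2 else 0) := fun i _ => by positivity
  exact ⟨sum_nonneg h, fun i hi hq => (if_pos hq).ge.trans (single_le_sum h hi)⟩

theorem CycLI_keep (I F J : Finset E) : (I ∆ J) ∆ (F ∆ J) = I ∆ F := by
  rw [symmDiff_symmDiff_symmDiff_comm, symmDiff_self, symmDiff_bot]

/-- peeling off the selected cycles -/
theorem CycLI_peel {G : Gr E V} (c : Finset E → Cyc G)
    (hc : ∀ H, G.bd H = 0 → H.Nonempty → (c H).all ⊆ H) {H : Finset E} (hH : G.bd H = 0) (j : ℕ) :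
    G.bd ((fun K => K \ (c K).all)^[j] H) = 0 ∧ (fun K => K \ (c K).all)^[j] H ⊆ H ∧
      ((fun K => K \ (c K).all)^[j] H = ∅ ∨ ((fun K => K \ (c K).all)^[j] H).card + j ≤ H.card) := by
  induction j with
  | zero => exact ⟨hH, Subset.rfl, Or.inr le_rfl⟩
  | succ j ih =>
    rw [Function.iterate_succ_apply']
    generalize (fun K => K \ (c K).all)^[j] H = K at ih ⊢
    obtain ⟨h1, h2, h3⟩ := ih
    rcases K.eq_empty_or_nonempty with rfl | hK
    · rw [empty_sdiff]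
      exact ⟨h1, h2, Or.inl rfl⟩
    · have h4 := hc K h1 hK
      refine ⟨?_, sdiff_subset.trans h2, Or.inr ?_⟩
      · rw [← symmDiff_of_ge h4, Gr.bd_symmDiff, h1, Cyc.bd_all, add_zero]
      · have h5 := h3.resolve_left hK.ne_empty
        have h6 := card_lt_card (sdiff_ssubset h4
          ⟨_, (c K).h_mem_all (j := 0) (by linarith [(c K).two_le])⟩)
        omega

namespace Model

variable {M : Model E V} {Φ Ψ : V → V → Finset E → ℝ} {f : Finset E → ℝ} {D : ℝ}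

open Classical in
theorem Ok.CycLI_one (hM : M.Ok) (C : Cyc M.toGr) (I : Finset E) (a b : ℝ) :
    (b - a) ^ 2 ≤ (2 * ((Fintype.card E : ℝ) + 1)) ^ 2 *
      ((a - C.val Φ I 0 0) ^ 2 + (C.val Φ I 0 (C.l - 1) - b) ^ 2 +
        ∑ i ∈ range (Fintype.card E) ×ˢ range (Fintype.card E),
          (if M.Sgl C i.1 i.2 then (C.val Φ I i.1 (i.2 + 1) - C.val Φ I i.1 i.2) ^ 2 else 0) +
        ∑ i ∈ range (Fintype.card E) ×ˢ range (Fintype.card E) ×ˢ range (Fintype.card E),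
          (if M.Dbl C i.1 i.2.1 i.2.2 then (C.val Φ I i.1 i.2.2 - C.val Φ I i.1 i.2.1 -
            (C.val Φ I i.2.1 i.2.2 - C.val Φ I i.2.1 i.2.1)) ^ 2 else 0)) := by
  obtain ⟨c0, c1⟩ := CycLI_term (range (Fintype.card E) ×ˢ range (Fintype.card E))
    (fun i => M.Sgl C i.1 i.2) fun i => C.val Φ I i.1 (i.2 + 1) - C.val Φ I i.1 i.2
  obtain ⟨d0, d1⟩ := CycLI_term
    (range (Fintype.card E) ×ˢ range (Fintype.card E) ×ˢ range (Fintype.card E))
    (fun i => M.Dbl C i.1 i.2.1 i.2.2) fun i => C.val Φ I i.1 i.2.2 - C.val Φ I i.1 i.2.1 -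
      (C.val Φ I i.2.1 i.2.2 - C.val Φ I i.2.1 i.2.1)
  generalize ∑ i ∈ range (Fintype.card E) ×ˢ range (Fintype.card E),
    (if M.Sgl C i.1 i.2 then (C.val Φ I i.1 (i.2 + 1) - C.val Φ I i.1 i.2) ^ 2 else 0) = c at c0 c1 ⊢
  generalize ∑ i ∈ range (Fintype.card E) ×ˢ range (Fintype.card E) ×ˢ range (Fintype.card E),
    (if M.Dbl C i.1 i.2.1 i.2.2 then (C.val Φ I i.1 i.2.2 - C.val Φ I i.1 i.2.1 -
      (C.val Φ I i.2.1 i.2.2 - C.val Φ I i.2.1 i.2.1)) ^ 2 else 0) = d at d0 d1 ⊢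
  have hl := C.l_le
  have h2 := C.two_le
  have a0 := sq_nonneg (a - C.val Φ I 0 0)
  have b0 := sq_nonneg (C.val Φ I 0 (C.l - 1) - b)
  set S := (a - C.val Φ I 0 0) ^ 2 + (C.val Φ I 0 (C.l - 1) - b) ^ 2 + c + d with hS
  have hS0 : 0 ≤ S := by linarith
  have k1 : |a - C.val Φ I 0 0| ≤ √S := Real.abs_le_sqrt (by linarith)
  have k2 : |C.val Φ I 0 (C.l - 1) - b| ≤ √S := Real.abs_le_sqrt (by linarith)
  have k3 := rec_bound C.l (C.val Φ I) (M.Good C) √S (fun s => Or.inl rfl)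
    (fun s hs => hM.good_succ C hs)
    (fun s t h1 h3 h4 h5 => Real.abs_le_sqrt (by
      have := c1 (s, t) (by simp only [mem_product, mem_range]; omega) ⟨h1, h3, h4, h5⟩
      linarith))
    (fun s t' t h1 h3 h4 h5 h6 h7 => ⟨hM.good_child ⟨h1, h3, h4, h5, h6, h7⟩, Real.abs_le_sqrt (by
      have := d1 (s, t', t) (by simp only [mem_product, mem_range]; omega) ⟨h1, h3, h4, h5, h6, h7⟩
      linarith)⟩) 0 (C.l - 1) (by omega) (by omega) (hM.good_last C)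
  have hl' : ((C.l - 1 : ℕ) : ℝ) ≤ Fintype.card E := Nat.cast_le.2 (by omega)
  have k4 := mul_le_mul_of_nonneg_right hl' (Real.sqrt_nonneg S)
  have k5 := Real.sqrt_nonneg S
  rw [Nat.cast_zero, sub_zero] at k3
  have k6 : |b - a| ≤ 2 * ((Fintype.card E : ℝ) + 1) * √S := by
    have i1 := abs_le.1 k1
    have i2 := abs_le.1 k2
    have i3 := abs_le.1 k3
    exact abs_le.2 ⟨by linarith [i1.1, i2.1, i3.1, i1.2, i2.2], by linarith [i1.1, i2.1, i3.2]⟩
  have k7 := pow_le_pow_left₀ (abs_nonneg _) k6 2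
  rwa [sq_abs, mul_pow, Real.sq_sqrt hS0] at k7

theorem Ok.cyc_LI (hM : M.Ok) (hS : M.Small Φ Ψ D) (hD : 0 ≤ D) (hΦ : ∀ u, M.IsV u → Φ u u = f)
    (cy : Finset E → Cyc M.toGr) :
    ∑ p ∈ M.PP cy, M.pp p * (f (p.1 ∆ (cy (p.1 ∆ p.2)).all) - f p.1) ^ 2 ≤
      480000 * ((Fintype.card E : ℝ) + 1) ^ 12 * D := by
  have h1 := hM.single_start hS hD hΦ cy
  have h2 := hM.single_end hS hD hΦ cy
  have h3 := CycLI_swap (M.PP cy) (range (Fintype.card E) ×ˢ range (Fintype.card E)) M.pp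
    (fun i p => M.Sgl (cy (p.1 ∆ p.2)) i.1 i.2) _ fun i _ => hM.single_step hS hD cy i.1 i.2
  have h4 := CycLI_swap (M.PP cy)
    (range (Fintype.card E) ×ˢ range (Fintype.card E) ×ˢ range (Fintype.card E)) M.pp
    (fun i p => M.Dbl (cy (p.1 ∆ p.2)) i.1 i.2.1 i.2.2) _
    fun i _ => hM.double hS hD cy i.1 i.2.1 i.2.2
  simp only [card_product, card_range, Nat.cast_mul] at h3 h4
  refine (sum_le_sum fun p _ => mul_le_mul_of_nonneg_left
    (hM.CycLI_one (Φ := Φ) (cy (p.1 ∆ p.2)) p.1 _ _) (hM.toPos.pp_nonneg p)).trans ?_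
  simp only [mul_left_comm (M.pp _), ← mul_sum]
  simp only [mul_add (M.pp _), sum_add_distrib]
  refine (mul_le_mul_of_nonneg_left (add_le_add (add_le_add (add_le_add h1 h2) h3) h4)
    (sq_nonneg _)).trans ?_
  have hm : (0 : ℝ) ≤ Fintype.card E := Nat.cast_nonneg _
  unfold LL
  generalize (Fintype.card E : ℝ) = m at hm ⊢
  have k : ∀ j : ℕ, j ≤ 8 → m ^ j ≤ (m + 1) ^ 8 := fun j hj =>
    (pow_le_pow_left₀ hm (by linarith) j).trans (pow_le_pow_right₀ (by linarith) hj)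
  have k1 : 4 * m + 16 * m ^ 2 + 64 * m ^ 5 + 512 * m ^ 8 ≤ 600 * (m + 1) ^ 8 := by
    have := k 1 (by norm_num)
    have := k 0 (by norm_num)
    linarith [k 2 (by norm_num), k 5 (by norm_num), k 8 (by norm_num)]
  calc _ = 800 * (m + 1) ^ 4 * D * (4 * m + 16 * m ^ 2 + 64 * m ^ 5 + 512 * m ^ 8) := by ring
    _ ≤ 800 * (m + 1) ^ 4 * D * (600 * (m + 1) ^ 8) :=
        mul_le_mul_of_nonneg_left k1 (by positivity)
    _ = _ := by ring

theorem Ok.CycLI_step (hM : M.Ok) (hS : M.Small Φ Ψ D) (hD : 0 ≤ D)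
    (hΦ : ∀ u, M.IsV u → Φ u u = f) (c : Finset E → Cyc M.toGr)
    (hc : ∀ H, M.bd H = 0 → H.Nonempty → (c H).all ⊆ H) (j : ℕ) :
    ∑ p ∈ M.Om 0 ×ˢ M.Om 0, M.pp p *
      (f (p.1 ∆ ((p.1 ∆ p.2) \ (fun K => K \ (c K).all)^[j + 1] (p.1 ∆ p.2))) -
        f (p.1 ∆ ((p.1 ∆ p.2) \ (fun K => K \ (c K).all)^[j] (p.1 ∆ p.2)))) ^ 2 ≤
      480000 * ((Fintype.card E : ℝ) + 1) ^ 12 * D := by
  refine le_trans ?_ (hM.cyc_LI hS hD hΦ fun H => c ((fun K => K \ (c K).all)^[j] H))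
  simp only [Function.iterate_succ_apply']
  have hp := fun H hH => CycLI_peel c hc (H := H) hH j
  generalize (fun K => K \ (c K).all)^[j] = N at hp ⊢
  have hb : ∀ p ∈ M.Om 0 ×ˢ M.Om 0, M.bd (p.1 ∆ p.2) = 0 := fun p hp => by
    rw [bd_symmDiff_of_mem (mem_product.1 hp).1 (mem_product.1 hp).2, add_zero]
  let e : Finset E × Finset E → Finset E × Finset E := fun p =>
    (p.1 ∆ ((p.1 ∆ p.2) \ N (p.1 ∆ p.2)), p.2 ∆ ((p.1 ∆ p.2) \ N (p.1 ∆ p.2)))
  have he : ∀ p, (e p).1 ∆ (e p).2 = p.1 ∆ p.2 := fun p => CycLI_keep _ _ _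
  have hinj : Function.Injective e := by
    intro p q h
    have h1 : p.1 ∆ p.2 = q.1 ∆ q.2 := by rw [← he p, h, he q]
    simp only [e, h1, Prod.mk.injEq, symmDiff_left_inj] at h
    exact Prod.ext h.1 h.2
  rw [← sum_filter_of_ne (p := fun p => (N (p.1 ∆ p.2)).Nonempty) fun p _ h => by
    by_contra h1
    rw [not_nonempty_iff_eq_empty.1 h1, empty_sdiff] at h
    simp at h]
  refine le_trans (le_of_eq ?_) (sum_le_sum_of_subset_of_nonneg
    (s := ((M.Om 0 ×ˢ M.Om 0).filter fun p => (N (p.1 ∆ p.2)).Nonempty).image e) ?_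
    fun q _ _ => mul_nonneg (hM.toPos.pp_nonneg q) (sq_nonneg _))
  · rw [sum_image hinj.injOn]
    refine sum_congr rfl fun p hp' => ?_
    obtain ⟨h1, h2⟩ := mem_filter.1 hp'
    obtain ⟨g1, g2, -⟩ := hp _ (hb p h1)
    have g3 := hc _ g1 h2
    have e1 : M.pp (e p) = M.pp p := by
      simp only [pp, pi, e]
      rw [div_mul_div_comm, div_mul_div_comm, wt_symmDiff_mul _ sdiff_subset]
    have e2 : (p.1 ∆ p.2) \ (N (p.1 ∆ p.2) \ (c (N (p.1 ∆ p.2))).all) =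
        ((p.1 ∆ p.2) \ N (p.1 ∆ p.2)) ∆ (c (N (p.1 ∆ p.2))).all := by
      ext x
      have a1 := @g2 x
      have a2 := @g3 x
      rw [mem_symmDiff, mem_sdiff, mem_sdiff, mem_sdiff]
      tauto
    rw [e1, he, e2, ← symmDiff_assoc]
  · intro q hq
    obtain ⟨p, hp', rfl⟩ := mem_image.1 hq
    obtain ⟨h1, h2⟩ := mem_filter.1 hp'
    obtain ⟨g1, g2, -⟩ := hp _ (hb p h1)
    have g4 : M.bd ((p.1 ∆ p.2) \ N (p.1 ∆ p.2)) = 0 := by
      rw [← symmDiff_of_ge g2, Gr.bd_symmDiff, g1, hb p h1, add_zero]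
    have g5 := symmDiff_mem_Om (mem_product.1 h1).1 ((p.1 ∆ p.2) \ N (p.1 ∆ p.2))
    have g6 := symmDiff_mem_Om (mem_product.1 h1).2 ((p.1 ∆ p.2) \ N (p.1 ∆ p.2))
    rw [g4, add_zero] at g5 g6
    refine mem_PP.2 ⟨g5, g6, ?_⟩
    rw [he]
    exact (hc _ g1 h2).trans g2

theorem Ok.sec_LI (hM : M.Ok) (hS : M.Small Φ Ψ D) (hD : 0 ≤ D) (hΦ : ∀ u, M.IsV u → Φ u u = f) :
    ∑ I ∈ M.Om 0, ∑ F ∈ M.Om 0, M.pi 0 I * M.pi 0 F * (f I - f F) ^ 2 ≤
      10 ^ 6 * ((Fintype.card E : ℝ) + 1) ^ 14 * D := by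
  have hm : (0 : ℝ) ≤ Fintype.card E := Nat.cast_nonneg _
  rcases isEmpty_or_nonempty (Cyc M.toGr) with hE | hE
  · refine le_trans (le_of_eq (sum_eq_zero fun I hI => sum_eq_zero fun F hF => ?_)) (by positivity)
    have h1 : I ∆ F = ∅ := by
      by_contra h
      obtain ⟨C, -⟩ := Gr.exists_cyc hM.cubic.1 (H := I ∆ F)
        (by rw [bd_symmDiff_of_mem hI hF, add_zero]) (nonempty_iff_ne_empty.2 h)
      exact hE.false C
    rw [symmDiff_eq_bot.1 h1]
    simp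
  have hex : ∀ H : Finset E, ∃ C : Cyc M.toGr, M.bd H = 0 → H.Nonempty → C.all ⊆ H := by
    intro H
    by_cases h : M.bd H = 0 ∧ H.Nonempty
    · obtain ⟨C, hC⟩ := Gr.exists_cyc hM.cubic.1 h.1 h.2
      exact ⟨C, fun _ _ => hC⟩
    · exact ⟨Classical.arbitrary _, fun h1 h2 => absurd ⟨h1, h2⟩ h⟩
  choose c hc using hex
  have key : ∀ p ∈ M.Om 0 ×ˢ M.Om 0, M.pp p * (f p.1 - f p.2) ^ 2 ≤ Fintype.card E *
      ∑ j ∈ range (Fintype.card E), M.pp p *
        (f (p.1 ∆ ((p.1 ∆ p.2) \ (fun K => K \ (c K).all)^[j + 1] (p.1 ∆ p.2))) -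
          f (p.1 ∆ ((p.1 ∆ p.2) \ (fun K => K \ (c K).all)^[j] (p.1 ∆ p.2)))) ^ 2 := by
    intro p hp
    rw [← mul_sum, mul_left_comm]
    refine mul_le_mul_of_nonneg_left ?_ (hM.toPos.pp_nonneg p)
    have h1 := (CycLI_peel c hc (H := p.1 ∆ p.2) (by
      rw [bd_symmDiff_of_mem (mem_product.1 hp).1 (mem_product.1 hp).2, add_zero])
      (Fintype.card E)).2.2
    have h2 : (fun K => K \ (c K).all)^[Fintype.card E] (p.1 ∆ p.2) = ∅ := by
      refine h1.elim id fun h => card_eq_zero.1 ?_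
      have := card_le_univ (p.1 ∆ p.2)
      omega
    have h3 := sum_range_sub (fun j =>
      f (p.1 ∆ ((p.1 ∆ p.2) \ (fun K => K \ (c K).all)^[j] (p.1 ∆ p.2)))) (Fintype.card E)
    rw [h2, sdiff_empty, symmDiff_symmDiff_cancel_left, Function.iterate_zero_apply,
      Finset.sdiff_self, ← bot_eq_empty, symmDiff_bot] at h3
    have h4 := sq_sum_le_card_mul_sum_sq (s := range (Fintype.card E)) (f := fun j =>
      f (p.1 ∆ ((p.1 ∆ p.2) \ (fun K => K \ (c K).all)^[j + 1] (p.1 ∆ p.2))) -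
        f (p.1 ∆ ((p.1 ∆ p.2) \ (fun K => K \ (c K).all)^[j] (p.1 ∆ p.2))))
    rw [h3, card_range] at h4
    exact (le_of_eq (by ring)).trans h4
  rw [← sum_product']
  refine (sum_le_sum key).trans ?_
  rw [← mul_sum, sum_comm]
  have h5 := sum_le_card_nsmul (range (Fintype.card E)) _ _
    fun j _ => hM.CycLI_step hS hD hΦ c hc j
  rw [card_range, nsmul_eq_mul] at h5
  refine (mul_le_mul_of_nonneg_left h5 hm).trans ?_
  generalize (Fintype.card E : ℝ) = m at hm ⊢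
  have h6 : 480000 * (m * m) ≤ 10 ^ 6 * (m + 1) ^ 2 := by nlinarith
  calc _ = (m + 1) ^ 12 * D * (480000 * (m * m)) := by ring
    _ ≤ (m + 1) ^ 12 * D * (10 ^ 6 * (m + 1) ^ 2) := mul_le_mul_of_nonneg_left h6 (by positivity)
    _ = _ := by ring

end Model

end Crest.Agent.R304
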