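import Crest.Agent.R304.Basic

/-!
# Row 304: Cycle
* `exists_cyc`: take a longest path `v 0, h 0, …, v k` in `H` with distinct vertices (`k ≤ card E` because the edges are then distinct; use `Nat.findGreatest` or
  `Finset.exists_max_image`).  `k ≥ 1`.  The `H`-degree of `v k` is even (`bd_apply`) and positive, so there is a second edge `h'` at `v k`; its other end is some `v j`,
  `j < k`, by maximality; `h'` is not a path edge; shift the indices by `j`.
* `bd_seg`: induction on `b` (`pr_add_pr`).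
* `comp_eq_seg`: `⊆`: `seg a b` is closed under `grow (S \ cutR a b)`: an edge `e` at `v a` or `v b` outside `cutR` is `h a` or `h (b-1)`; at an inner vertex `v j` the number of
  `S`-edges is even, at most `3`, and `h (j-1)`, `h j` are two of them.  `⊇`: `h (a+i) ∈ grow^[i] {h a}` and `C ⊆ grow S C` for `C ⊆ S`; `i < l ≤ card E`.
-/

set_option autoImplicit false
set_option linter.unusedSectionVars false

noncomputable section

namespace Crest.Agent.R304

open Finset
open scoped symmDiff

variable {E V : Type} [Fintype E] [DecidableEq E] [DecidableEq V]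

variable {G : Gr E V}

theorem Gr.cyc_second (hl : ∀ e, G.src e ≠ G.tgt e) {S : Finset E} {w : V} (h0 : G.bd S w = 0)
    {e : E} (he : e ∈ S) (hw : G.Inc e w) : ∃ e' ∈ S, e' ≠ e ∧ G.Inc e' w := by
  by_contra h
  push Not at h
  have h1 : (S.filter fun e => G.Inc e w) = {e} :=
    eq_singleton_iff_unique_mem.2 ⟨mem_filter.2 ⟨he, hw⟩, fun e' he' => by
      by_contra hne
      exact h e' (mem_filter.1 he').1 hne (mem_filter.1 he').2⟩
  rw [Gr.bd_apply hl, h1, card_singleton] at h0
  exact absurd h0 (by decide)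

theorem Gr.exists_cyc (hl : ∀ e, G.src e ≠ G.tgt e) {H : Finset E} (h0 : G.bd H = 0) (hne : H.Nonempty) :
    ∃ C : Cyc G, C.all ⊆ H := by
  classical
  have step : ∀ p : {p : E × V × V // p.1 ∈ H ∧ G.Joins p.1 p.2.1 p.2.2},
      ∃ q : {p : E × V × V // p.1 ∈ H ∧ G.Joins p.1 p.2.1 p.2.2}, q.1.2.1 = p.1.2.2 ∧ q.1.1 ≠ p.1.1 := by
    rintro ⟨⟨e, u, w⟩, he, hj⟩
    obtain ⟨e', h1, h2, h3⟩ := Gr.cyc_second hl (congrFun h0 w) he hj.inc_right
    rcases h3 with h3 | h3
    · exact ⟨⟨(e', w, G.tgt e'), h1, Or.inl ⟨h3, rfl⟩⟩, rfl, h2⟩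
    · exact ⟨⟨(e', w, G.src e'), h1, Or.inr ⟨rfl, h3⟩⟩, rfl, h2⟩
  choose f hf1 hf2 using step
  obtain ⟨e₀, he₀⟩ := hne
  let w := fun t : ℕ => f^[t] ⟨(e₀, G.src e₀, G.tgt e₀), he₀, Gr.joins_src_tgt e₀⟩
  have hw : ∀ t, w (t + 1) = f (w t) := fun t => Function.iterate_succ_apply' f t _
  obtain ⟨v, h, hH, hj, hb⟩ : ∃ (v : ℕ → V) (h : ℕ → E), (∀ t, h t ∈ H) ∧
      (∀ t, G.Joins (h t) (v t) (v (t + 1))) ∧ ∀ t, h (t + 1) ≠ h t :=
    ⟨fun t => (w t).1.2.1, fun t => (w t).1.1, fun t => (w t).2.1,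
      fun t => by simpa only [hw, hf1] using (w t).2.2, fun t => by simpa only [hw] using hf2 (w t)⟩
  have hrep : ∃ k, ∃ j < k, v j = v k := by
    have hfin : (Set.range v).Finite :=
      ((Set.finite_range G.src).union (Set.finite_range G.tgt)).subset (by
        rintro _ ⟨t, rfl⟩
        rcases (hj t).inc_left with h1 | h1
        · exact Or.inl ⟨_, h1⟩
        · exact Or.inr ⟨_, h1⟩)
    by_contra hc
    refine Set.infinite_range_of_injective (f := v) (fun s t hst => ?_) hfin
    rcases lt_trichotomy s t with h1 | h1 | h1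
    · exact (hc ⟨t, s, h1, hst⟩).elim
    · exact h1
    · exact (hc ⟨s, t, h1, hst.symm⟩).elim
  obtain ⟨j, hjk, hv⟩ := Nat.find_spec hrep
  have hmin : ∀ s < Nat.find hrep, ∀ t < Nat.find hrep, v s = v t → s = t := by
    intro s hs t ht hst
    rcases lt_trichotomy s t with h1 | h1 | h1
    · exact (Nat.find_min hrep ht ⟨s, h1, hst⟩).elim
    · exact h1
    · exact (Nat.find_min hrep hs ⟨t, h1, hst.symm⟩).elim
  generalize Nat.find hrep = k at hjk hv hmin
  have hlt : ∀ s t, s < t → t < k → h s ≠ h t := fun s t hst ht e => by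
    rcases (hj s).cases (e ▸ hj t) with h1 | h1
    · have := hmin t ht s (by omega) h1.1
      omega
    · obtain rfl := hmin t ht (s + 1) (by omega) h1.1
      exact hb s e.symm
  refine ⟨⟨k - j, fun t => v (j + t), fun t => h (j + t), ?_, fun t _ => hj (j + t), ?_, ?_, ?_⟩, ?_⟩
  · by_contra h2
    obtain rfl : k = j + 1 := by omega
    rcases hj j with h1 | h1
    · exact hl _ (h1.1.trans (hv.trans h1.2.symm))
    · exact hl _ (h1.1.trans (hv.symm.trans h1.2.symm))
  · simpa [Nat.add_sub_cancel' hjk.le] using hv.symm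
  · intro s hs t ht e
    have := hmin (j + s) (by omega) (j + t) (by omega) e
    omega
  · intro s hs t ht e
    rcases lt_trichotomy s t with h1 | h1 | h1
    · exact (hlt (j + s) (j + t) (by omega) (by omega) e).elim
    · exact h1
    · exact (hlt (j + t) (j + s) (by omega) (by omega) e.symm).elim
  · intro e he
    obtain ⟨t, -, rfl⟩ := mem_image.1 he
    exact hH _

namespace Cyc

variable (C : Cyc G)

theorem mem_seg {a b : ℕ} {e : E} : e ∈ C.seg a b ↔ ∃ j, a ≤ j ∧ j < b ∧ C.h j = e := by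
  simp only [seg, mem_image, mem_Ico, and_assoc]

theorem h_mem_seg {a b j : ℕ} (hj : j < C.l) (hb : b ≤ C.l) : C.h j ∈ C.seg a b ↔ a ≤ j ∧ j < b := by
  rw [mem_seg]
  refine ⟨fun ⟨i, h1, h2, h3⟩ => ?_, fun h => ⟨j, h.1, h.2, rfl⟩⟩
  obtain rfl := C.h_inj i (by omega) j hj h3
  exact ⟨h1, h2⟩

theorem seg_eq_empty {a b : ℕ} (h : b ≤ a) : C.seg a b = ∅ := by
  rw [seg, Ico_eq_empty_of_le h, image_empty]

theorem seg_subset_all {a b : ℕ} (hb : b ≤ C.l) : C.seg a b ⊆ C.all := by
  exact image_subset_image (Ico_subset_Ico (Nat.zero_le _) hb)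

theorem h_mem_all {j : ℕ} (hj : j < C.l) : C.h j ∈ C.all := by
  exact C.mem_seg.2 ⟨j, Nat.zero_le _, hj, rfl⟩

theorem bd_seg {a b : ℕ} (hab : a ≤ b) (hb : b ≤ C.l) : G.bd (C.seg a b) = pr (C.v a) (C.v b) := by
  induction b, hab using Nat.le_induction with
  | base => rw [C.seg_eq_empty le_rfl, Gr.bd_empty, pr_self]
  | succ b hab ih =>
    have h1 : C.h b ∉ C.seg a b := fun h => lt_irrefl _ ((C.h_mem_seg hb (by omega)).1 h).2
    have h2 : C.seg a (b + 1) = insert (C.h b) (C.seg a b) := by
      rw [seg, seg, ← insert_Ico_right_eq_Ico_add_one hab, image_insert]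
    have h3 := (C.joins b hb).bd
    have h4 := ih (by omega)
    unfold Gr.bd at h3 h4 ⊢
    rw [sum_singleton] at h3
    rw [h2, sum_insert h1, h3, h4, add_comm, pr_add_pr]

theorem bd_all : G.bd C.all = 0 := by
  rw [all, C.bd_seg (Nat.zero_le _) le_rfl, C.closed, pr_self]

theorem cutR_card (hG : G.Cubic) {a b : ℕ} (hab : a < b) (hb : b < C.l) : (C.cutR a b).card ≤ 4 := by
  have key : ∀ (e : E) (u : V), G.Inc e u → ((univ.filter fun e => G.Inc e u).erase e).card ≤ 2 :=
    fun e u h => by
      rw [card_erase_of_mem (by simpa using h)]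
      have := hG.2 u
      omega
  have h1 := key _ _ (C.joins a (by omega)).inc_left
  have h2 := key _ _ (C.joins (b - 1) (by omega)).inc_right
  rw [Nat.sub_add_cancel (by omega)] at h2
  refine (card_le_card (t := (univ.filter fun e => G.Inc e (C.v a)).erase (C.h a) ∪
    (univ.filter fun e => G.Inc e (C.v b)).erase (C.h (b - 1))) fun e he => ?_).trans
    ((card_union_le _ _).trans (by omega))
  simp only [cutR, mem_sdiff, mem_filter, mem_univ, true_and, mem_insert, mem_singleton, not_or,
    mem_union, mem_erase] at he ⊢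
  tauto

theorem mem_cutR_left {a b : ℕ} (hab : a + 1 < b) (hb : b < C.l) : C.h a ∈ C.cutR (a + 1) b := by
  simp only [cutR, mem_sdiff, mem_filter, mem_univ, true_and, mem_insert, mem_singleton, not_or]
  refine ⟨Or.inl (C.joins a (by omega)).inc_right, fun h => ?_, fun h => ?_⟩
  · have := C.h_inj _ (by omega) _ (by omega) h
    omega
  · have := C.h_inj _ (by omega) _ (by omega) h
    omega

theorem mem_cutR_right {a b : ℕ} (hab : a < b) (hb : b < C.l) : C.h b ∈ C.cutR a b := by
  simp only [cutR, mem_sdiff, mem_filter, mem_univ, true_and, mem_insert, mem_singleton, not_or]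
  refine ⟨Or.inr (C.joins b hb).inc_left, fun h => ?_, fun h => ?_⟩
  · have := C.h_inj _ (by omega) _ (by omega) h
    omega
  · have := C.h_inj _ (by omega) _ (by omega) h
    omega

/-- an inner vertex of the run differs from all the other vertices of the cycle -/
theorem v_ne {i j : ℕ} (h0 : 0 < j) (hj : j < C.l) (hi : i ≤ C.l) (hij : i ≠ j) : C.v j ≠ C.v i := by
  intro h
  rcases hi.eq_or_lt with rfl | hi
  · have := C.v_inj j hj 0 (by omega) (h.trans C.closed)
    omega
  · exact hij (C.v_inj j hj i hi h).symm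

theorem comp_eq_seg (hG : G.Cubic) {a b : ℕ} (hab : a < b) (hb : b < C.l) {S : Finset E}
    (hS : C.seg a b ⊆ S) (h0 : ∀ j, a < j → j < b → G.bd S (C.v j) = 0) :
    G.comp {C.h a} (S \ C.cutR a b) = C.seg a b := by
  have hmem : ∀ j, a ≤ j → j < b → C.h j ∈ C.seg a b := fun j h1 h2 => C.mem_seg.2 ⟨j, h1, h2, rfl⟩
  have hS' : ∀ j, a ≤ j → j < b → C.h j ∈ S \ C.cutR a b := fun j h1 h2 => by
    refine mem_sdiff.2 ⟨hS (hmem j h1 h2), fun h => ?_⟩
    simp only [cutR, mem_sdiff, mem_filter, mem_univ, true_and, mem_insert, mem_singleton, not_or,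
      (C.joins j (by omega)).inc_iff] at h
    obtain ⟨(h3 | h3) | h3 | h3, h4, h5⟩ := h <;>
      have h6 := C.v_inj _ (by omega) _ (by omega) h3
    · exact h4 (by rw [h6])
    · omega
    · omega
    · exact h5 (by rw [h6, Nat.add_sub_cancel])
  have hcl : ∀ e ∈ S \ C.cutR a b, ∀ i, a ≤ i → i ≤ b → G.Inc e (C.v i) → e ∈ C.seg a b := by
    intro e he i h1 h2 h3
    obtain ⟨he, he'⟩ := mem_sdiff.1 he
    by_cases hi : i = a ∨ i = b
    · have h4 : G.Inc e (C.v a) ∨ G.Inc e (C.v b) := by rcases hi with rfl | rfl <;> tauto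
      simp only [cutR, mem_sdiff, mem_filter, mem_univ, true_and, mem_insert, mem_singleton,
        h4, not_not] at he'
      rcases he' with rfl | rfl
      · exact hmem _ le_rfl hab
      · exact hmem _ (by omega) (by omega)
    · by_contra hne
      obtain ⟨i, rfl⟩ : ∃ k, i = k + 1 := ⟨i - 1, by omega⟩
      have m1 := hmem i (by omega) (by omega)
      have m2 := hmem (i + 1) (by omega) (by omega)
      have h4 : ({e, C.h i, C.h (i + 1)} : Finset E) ⊆ S.filter fun e => G.Inc e (C.v (i + 1)) := by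
        simp only [insert_subset_iff, singleton_subset_iff, mem_filter]
        exact ⟨⟨he, h3⟩, ⟨hS m1, (C.joins i (by omega)).inc_right⟩,
          hS m2, (C.joins (i + 1) (by omega)).inc_left⟩
      have h5 := card_le_card h4
      rw [card_eq_three.2 ⟨e, C.h i, C.h (i + 1), fun h => hne (h ▸ m1), fun h => hne (h ▸ m2),
        fun h => by
          have := C.h_inj _ (by omega) _ (by omega) h
          omega, rfl⟩] at h5
      have h6 := (card_le_card (filter_subset_filter _ (subset_univ S))).trans (hG.2 (C.v (i + 1)))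
      have h7 := h0 (i + 1) (by omega) (by omega)
      rw [Gr.bd_apply hG.1, le_antisymm h6 h5] at h7
      exact absurd h7 (by decide)
  refine Subset.antisymm ?_ fun e he => ?_
  · refine Function.Iterate.rec (fun X => X ⊆ C.seg a b)
      (inter_subset_left.trans (singleton_subset_iff.2 (hmem a le_rfl hab))) (fun X hX e he => ?_) _
    obtain ⟨he, e', he', h1⟩ := mem_filter.1 he
    obtain ⟨j, h2, h3, rfl⟩ := C.mem_seg.1 (hX he')
    simp only [(C.joins j (by omega)).inc_iff] at h1
    rcases h1 with (h1 | h1) | h1 | h1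
    · exact hcl e he j h2 h3.le (Or.inl h1)
    · exact hcl e he (j + 1) (by omega) h3 (Or.inl h1)
    · exact hcl e he j h2 h3.le (Or.inr h1)
    · exact hcl e he (j + 1) (by omega) h3 (Or.inr h1)
  · have key : ∀ n j, a ≤ j → j < b → j ≤ a + n →
        C.h j ∈ (G.grow (S \ C.cutR a b))^[n] ({C.h a} ∩ (S \ C.cutR a b)) := by
      intro n
      induction n with
      | zero =>
        intro j h1 h2 h3
        obtain rfl : j = a := by omega
        exact mem_inter.2 ⟨mem_singleton_self _, hS' j h1 h2⟩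
      | succ n ih =>
        intro j h1 h2 h3
        rw [Function.iterate_succ_apply']
        refine mem_filter.2 ⟨hS' j h1 h2, ?_⟩
        by_cases h4 : j ≤ a + n
        · exact ⟨_, ih j h1 h2 h4, Or.inl (Or.inl rfl)⟩
        · obtain ⟨j, rfl⟩ : ∃ k, j = k + 1 := ⟨j - 1, by omega⟩
          refine ⟨_, ih j (by omega) (by omega) (by omega), ?_⟩
          have h5 := (C.joins j (by omega)).inc_right
          rcases (C.joins (j + 1) (by omega)).inc_left with h6 | h6
          · exact Or.inl (h6 ▸ h5)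
          · exact Or.inr (h6 ▸ h5)
    obtain ⟨j, h1, h2, rfl⟩ := C.mem_seg.1 he
    have := C.l_le
    exact key _ j h1 h2 (by omega)

end Cyc

end Crest.Agent.R304
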