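import Mathlib

/-!
# Row 304 (S0464): Defs
`T`-joins in a graph of maximum degree three.  `M.Om A` is the sector `{X : bd X = T + A}`, `M.Z A` its partition function,
`M.r u v = Z [u,v] / Z 0`.  A switching move `sw a` acts on a pair `(X, Y)`: it exchanges a component of `(X ∆ Y) \ R` and flips `R1`, `R2 ⊆ R`.
`Tsec` is the Dirichlet energy of one such move between two pairs of sectors.  DEFINITIONS ONLY; do not edit (message helper44).
-/

set_option autoImplicit false

noncomputable section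

namespace Crest.Agent.R304

open Finset
open scoped symmDiff

/-- a multigraph: the two ends of every edge -/
structure Gr (E V : Type) where
  src : E → V
  tgt : E → V

/-- the pair `[u, v] = δ u + δ v` -/
def pr {V : Type} [DecidableEq V] (u v : V) : V → ZMod 2 := Pi.single u 1 + Pi.single v 1

/-- weight of an edge set -/
def wt {E : Type} (x : E → ℝ) (X : Finset E) : ℝ := ∏ e ∈ X, x e

/-- data of a switching move -/
structure Sw (E : Type) where
  R : Finset E
  R1 : Finset E
  R2 : Finset E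
  S0 : Finset E

/-- admissible data -/
def Sw.Adm {E : Type} (a : Sw E) : Prop :=
  a.R.card ≤ 4 ∧ a.R1 ⊆ a.R ∧ a.R2 ⊆ a.R ∧ a.R1.card ≤ 2 ∧ a.R2.card ≤ 2 ∧ a.S0.card ≤ 1

variable {E V : Type} [Fintype E] [DecidableEq E] [DecidableEq V]

namespace Gr

variable (G : Gr E V)

/-- boundary mod 2 -/
def bd (X : Finset E) : V → ZMod 2 := ∑ e ∈ X, pr (G.src e) (G.tgt e)

/-- `v` is an end of `e` -/
def Inc (e : E) (v : V) : Prop := G.src e = v ∨ G.tgt e = v

instance (e : E) (v : V) : Decidable (G.Inc e v) := by unfold Inc; infer_instance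

/-- `e` has the ends `u`, `v` (in some order) -/
def Joins (e : E) (u v : V) : Prop := (G.src e = u ∧ G.tgt e = v) ∨ (G.src e = v ∧ G.tgt e = u)

/-- `v` is an end of some edge -/
def IsV (v : V) : Prop := ∃ e, G.Inc e v

/-- no loops, degrees at most three -/
def Cubic : Prop := (∀ e, G.src e ≠ G.tgt e) ∧ ∀ v, (univ.filter fun e => G.Inc e v).card ≤ 3

open Classical in
/-- the edge sets with boundary `A` -/
def Om (A : V → ZMod 2) : Finset (Finset E) := univ.filter fun X => G.bd X = A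

/-- the edges of `S` that share an end with an edge of `C` -/
def grow (S C : Finset E) : Finset E :=
  S.filter fun e => ∃ e' ∈ C, G.Inc e' (G.src e) ∨ G.Inc e' (G.tgt e)

/-- the edges of `S` reachable from the seeds `S0` -/
def comp (S0 S : Finset E) : Finset E := (G.grow S)^[Fintype.card E] (S0 ∩ S)

/-- the switched component -/
def swS (a : Sw E) (X Y : Finset E) : Finset E := G.comp a.S0 ((X ∆ Y) \ a.R)

/-- first component of the switching move -/
def sw1 (a : Sw E) (X Y : Finset E) : Finset E := X ∆ G.swS a X Y ∆ a.R1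

/-- second component of the switching move -/
def sw2 (a : Sw E) (X Y : Finset E) : Finset E := Y ∆ G.swS a X Y ∆ a.R2

end Gr

/-- a simple cycle `v 0, h 0, v 1, …, h (l - 1), v l = v 0` -/
structure Cyc (G : Gr E V) where
  l : ℕ
  v : ℕ → V
  h : ℕ → E
  two_le : 2 ≤ l
  joins : ∀ t < l, G.Joins (h t) (v t) (v (t + 1))
  closed : v l = v 0
  v_inj : ∀ s < l, ∀ t < l, v s = v t → s = t
  h_inj : ∀ s < l, ∀ t < l, h s = h t → s = t

namespace Cyc

variable {G : Gr E V} (C : Cyc G)

/-- the edges `h a, …, h (b - 1)` -/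
def seg (a b : ℕ) : Finset E := (Finset.Ico a b).image C.h

/-- all edges of the cycle -/
def all : Finset E := C.seg 0 C.l

/-- the station `(s, t)`, `s ≤ t`: flip strictly between `s` and `t`, cut `h s` and `h t` -/
def stn (I : Finset E) (s t : ℕ) : Finset E := (I ∆ C.seg (s + 1) t) \ {C.h s, C.h t}

/-- first defect of a station -/
def pL (I : Finset E) (s : ℕ) : V := if C.h s ∈ I then C.v s else C.v (s + 1)

/-- second defect of a station -/
def qL (I : Finset E) (s t : ℕ) : V :=
  if s = t then C.v (s + 1) else if C.h t ∈ I then C.v (t + 1) else C.v t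

/-- `stn I b t = stn I b t' ∆ seg (t' + 1) t ∆ rr I b t' t` -/
def rr (I : Finset E) (b t' t : ℕ) : Finset E :=
  (if b < t' ∧ C.h t' ∉ I then {C.h t'} else ∅) ∪ (if C.h t ∈ I then {C.h t} else ∅)

/-- the cut set of the run `seg a b` -/
def cutR (a b : ℕ) : Finset E :=
  (univ.filter fun e => G.Inc e (C.v a) ∨ G.Inc e (C.v b)) \ {C.h a, C.h (b - 1)}

/-- local data at position `t` -/
def dat (I : Finset E) (t : ℕ) : E × Bool × Bool :=
  (C.h t, decide (G.src (C.h t) = C.v t), decide (C.h t ∈ I))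

/-- value of the family `Φ` at a station -/
def val (Φ : V → V → Finset E → ℝ) (I : Finset E) (s t : ℕ) : ℝ :=
  Φ (C.pL I s) (C.qL I s t) (C.stn I s t)

end Cyc

/-- a weighted graph with a set `T` of terminals -/
structure Model (E V : Type) extends Gr E V where
  x : E → ℝ
  T : V → ZMod 2

namespace Model

variable (M : Model E V)

/-- sector `A` -/
def Om (A : V → ZMod 2) : Finset (Finset E) := M.toGr.Om (M.T + A)

/-- partition function of the sector `A` -/
def Z (A : V → ZMod 2) : ℝ := ∑ X ∈ M.Om A, wt M.x X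

/-- Gibbs law of the sector `A` -/
def pi (A : V → ZMod 2) (X : Finset E) : ℝ := wt M.x X / M.Z A

/-- relative partition function -/
def rA (A : V → ZMod 2) : ℝ := M.Z A / M.Z 0

/-- relative partition function of two defects -/
def r (u v : V) : ℝ := M.rA (pr u v)

/-- positive weights, non-empty sectors -/
structure Pos : Prop where
  x_pos : ∀ e, 0 < M.x e
  Z0 : 0 < M.Z 0
  Zp : ∀ u v, M.IsV u → M.IsV v → 0 < M.Z (pr u v)

/-- standing hypotheses of the linear inequality -/
structure Ok : Prop extends M.Pos where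
  cubic : M.Cubic
  x_le : ∀ e, M.x e ≤ 1

open Classical in
/-- energy of the move `a` from the sectors `A, B` to the sectors `A', B'` -/
def Tsec (a : Sw E) (A B A' B' : V → ZMod 2) (f g f' g' : Finset E → ℝ) : ℝ :=
  ∑ X ∈ M.Om A, ∑ Y ∈ M.Om B,
    if M.sw1 a X Y ∈ M.Om A' ∧ M.sw2 a X Y ∈ M.Om B' then
      min (M.pi A X * M.pi B Y) (M.pi A' (M.sw1 a X Y) * M.pi B' (M.sw2 a X Y)) *
        (f X + g Y - f' (M.sw1 a X Y) - g' (M.sw2 a X Y)) ^ 2
    else 0

/-- all admissible moves between two-defect sectors have energy at most `D` -/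
def Small (Φ Ψ : V → V → Finset E → ℝ) (D : ℝ) : Prop :=
  ∀ a : Sw E, a.Adm → ∀ u1 v1 u2 v2 u3 v3 u4 v4 : V, M.IsV u1 → M.IsV v1 → M.IsV u2 → M.IsV v2 →
    M.IsV u3 → M.IsV v3 → M.IsV u4 → M.IsV v4 →
    M.Tsec a (pr u1 v1) (pr u2 v2) (pr u3 v3) (pr u4 v4) (Φ u1 v1) (Ψ u2 v2) (Φ u3 v3) (Ψ u4 v4) ≤ D

/-- the threshold -/
def LL (E : Type) [Fintype E] : ℝ := 200 * ((Fintype.card E : ℝ) + 1) ^ 2

/-- a good pair of edges -/
def Gd (e h : E) : Prop :=
  ∀ p q u v, M.Joins e p q → M.Joins h u v → M.x e * M.x h * M.r p u * M.r q v ≤ LL E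

/-- a good pair of positions on a cycle -/
def Good (C : Cyc M.toGr) (s t : ℕ) : Prop := s = t ∨ M.Gd (C.h s) (C.h t)

/-- `t' < t` are consecutive good partners of `s`, not adjacent -/
def Dbl (C : Cyc M.toGr) (s t' t : ℕ) : Prop :=
  s < t' ∧ t' + 1 < t ∧ t < C.l ∧ M.Good C s t' ∧ M.Good C s t ∧ ∀ j, t' < j → j < t → ¬ M.Good C s j

/-- `t, t + 1` are good partners of `s` -/
def Sgl (C : Cyc M.toGr) (s t : ℕ) : Prop := s ≤ t ∧ t + 1 < C.l ∧ M.Good C s t ∧ M.Good C s (t + 1)

open Classical in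
/-- the pairs `(I, F)` of `T`-joins such that the selected cycle lies in `I ∆ F` -/
def PP (cy : Finset E → Cyc M.toGr) : Finset (Finset E × Finset E) :=
  (M.Om 0 ×ˢ M.Om 0).filter fun p => (cy (p.1 ∆ p.2)).all ⊆ p.1 ∆ p.2

/-- weight of a pair of `T`-joins -/
def pp (p : Finset E × Finset E) : ℝ := M.pi 0 p.1 * M.pi 0 p.2

/-- weight of the part of the sector `B` with the pattern of `W` on `τ` -/
def zc (B : V → ZMod 2) (τ W : Finset E) : ℝ :=
  ∑ Y ∈ (M.Om B).filter (fun Y => Y ∩ τ = W ∩ τ), wt M.x Y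

/-- the connecting sets `c u v` close up the two-defect sectors -/
structure Closure (c : V → V → Finset E) (κ : ℝ) : Prop where
  bd_c : ∀ u v, M.IsV u → M.IsV v → M.bd (c u v) = pr u v
  c_self : ∀ u, c u u = ∅
  le : ∀ u v, M.IsV u → M.IsV v → ∀ X ∈ M.Om (pr u v), M.pi (pr u v) X ≤ κ * M.pi 0 (X ∆ c u v)

end Model

/-- data of a move on pairs of `T`-joins -/
structure Mv (E : Type) extends Sw E where
  c1 : Finset E
  c2 : Finset E
  c3 : Finset E
  c4 : Finset E

namespace Gr

variable (G : Gr E V)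

/-- first component of the move -/
def mv1 (a : Mv E) (X Y : Finset E) : Finset E := G.sw1 a.toSw (X ∆ a.c1) (Y ∆ a.c2) ∆ a.c3

/-- second component of the move -/
def mv2 (a : Mv E) (X Y : Finset E) : Finset E := G.sw2 a.toSw (X ∆ a.c1) (Y ∆ a.c2) ∆ a.c4

end Gr

/-- the inverse move -/
def Mv.inv (a : Mv E) : Mv E := ⟨a.toSw, a.c3, a.c4, a.c1, a.c2⟩

open Classical in
/-- energy of a move on pairs of `T`-joins -/
def Model.Tmv (M : Model E V) (a : Mv E) (f g : Finset E → ℝ) : ℝ :=
  ∑ X ∈ M.Om 0, ∑ Y ∈ M.Om 0,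
    if M.mv1 a X Y ∈ M.Om 0 ∧ M.mv2 a X Y ∈ M.Om 0 then
      min (M.pi 0 X * M.pi 0 Y) (M.pi 0 (M.mv1 a X Y) * M.pi 0 (M.mv2 a X Y)) *
        (f X + g Y - f (M.mv1 a X Y) - g (M.mv2 a X Y)) ^ 2
    else 0

end Crest.Agent.R304
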