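import Crest.Agent.R304.Fam

/-!
# Row 304: PMc
Perfect matchings of `G` among the `T`-joins.  Call `e < n²` with `e / n ≠ e % n` a proper pair edge.
* `pmB_pos`: the set of `s(e / n, e % n)` over the real `e` with `bt X e` is a perfect matching (`e ↦ s(e / n, e % n)` is injective on real edges).
* `card_pm`: (a) `X ↦ X ∩ {e < n²}` is injective on `St n`: an even set of path edges is empty (induction along the path of each vertex, `bd_apply`).  (b) If `Y ⊆ {e < n²}` has an odd number of proper edges at every vertex,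
  then `Y ∆ (symmetric sum, over the nodes `v` with `bd Y v ≠ TT v`, of `cc v (v / (2n) * (2n))`)` is a `T`-join with pair part `Y` (`bd_cc`, `cB_same`; in every vertex the number of wrong nodes is even; a chord counts twice).
  (c) the pair parts accepted by `pmB` are the pairs (perfect matching of `G`, arbitrary set of chords).
* `deg_odd`: sum `bd X = TT` over the nodes of the vertex `i`; path edges and chords contribute `0` (`path_div`, `src_div`).
* `exp_pm`, `exp_not_pm`: double counting `∑ i, deg i = 2 * #(real edges of X)`; all degrees are odd; if `pmB` fails, some degree is `≥ 3` or a non-edge (exponent `2 pK`) is used.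
* `prB_pm_ge`: `P (some virtual edge) ≤ s * 1/(4s)`; the states without virtual edge that are not accepted have total weight `≤ 2 ^ mE * lam ^ (pK (n/2+1)) ≤ lam ^ (pK (n/2)) / 4 ≤ weight (accepted) / 4` (`lam_K_le`).
-/

set_option autoImplicit false

noncomputable section

namespace Crest.Agent.R304

open Finset
open scoped symmDiff
open Crest.Agent.R309 (avgN avgL Tape digs ind blk)

variable {n s : ℕ}

open Crest.Matchings

variable {tab : List (List Bool)} {G : SimpleGraph (Fin n)} [DecidableRel G.Adj] {k : ℕ → ℤ}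

/-! ### pairs of vertices -/

/-- the pair edge of a pair of vertices -/
def PMc_enc (q : Fin n × Fin n) : ℕ := q.1.val * n + q.2.val

theorem PMc_enc_lt (q : Fin n × Fin n) : PMc_enc q < n * n := by
  unfold PMc_enc
  have h1 := q.1.2
  have h2 := q.2.2
  nlinarith [Nat.mul_le_mul_right n (show q.1.val + 1 ≤ n from h1)]

theorem PMc_enc_div (q : Fin n × Fin n) : PMc_enc q / n = q.1.val := by
  unfold PMc_enc
  have h2 := q.2.2
  rw [mul_comm, Nat.mul_add_div (by omega), Nat.div_eq_of_lt h2, add_zero]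

theorem PMc_enc_mod (q : Fin n × Fin n) : PMc_enc q % n = q.2.val := by
  unfold PMc_enc
  rw [mul_comm, Nat.mul_add_mod, Nat.mod_eq_of_lt q.2.2]

theorem PMc_enc_inj {q q' : Fin n × Fin n} (h : PMc_enc q = PMc_enc q') : q = q' := by
  refine Prod.ext (Fin.ext ?_) (Fin.ext ?_)
  · rw [← PMc_enc_div, h, PMc_enc_div]
  · rw [← PMc_enc_mod, h, PMc_enc_mod]

theorem PMc_div_lt {e : ℕ} (he : e < n * n) : e / n < n ∧ e % n < n := by
  have hn : 0 < n := Nat.pos_of_ne_zero fun h => by simp [h] at he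
  exact ⟨Nat.div_lt_of_lt_mul he, Nat.mod_lt _ hn⟩

theorem PMc_enc_surj {e : ℕ} (he : e < n * n) : ∃ q : Fin n × Fin n, PMc_enc q = e :=
  ⟨(⟨e / n, (PMc_div_lt he).1⟩, ⟨e % n, (PMc_div_lt he).2⟩), Nat.div_add_mod' e n⟩

theorem PMc_card_q (P : ℕ → Prop) [DecidablePred P] :
    ((range (n * n)).filter P).card = (univ.filter fun q : Fin n × Fin n => P (PMc_enc q)).card := by
  symm
  refine card_bij (fun q _ => PMc_enc q) (fun q hq => ?_) (fun q _ q' _ h => PMc_enc_inj h) fun e he => ?_
  · exact mem_filter.2 ⟨mem_range.2 (PMc_enc_lt q), (mem_filter.1 hq).2⟩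
  · obtain ⟨h1, h2⟩ := mem_filter.1 he
    obtain ⟨q, rfl⟩ := PMc_enc_surj (mem_range.1 h1)
    exact ⟨q, mem_filter.2 ⟨mem_univ _, h2⟩, rfl⟩

theorem PMc_card_X (X : Finset (Fin (mE n))) (P : ℕ → Prop) [DecidablePred P] :
    (X.filter fun e => e.val < n * n ∧ P e.val).card =
      ((range (n * n)).filter fun e => memB X e = true ∧ P e).card := by
  refine card_bij (fun e _ => e.val) (fun e he => ?_) (fun e _ e' _ h => Fin.ext h) fun e he => ?_
  · obtain ⟨h1, h2, h3⟩ := mem_filter.1 he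
    exact mem_filter.2 ⟨mem_range.2 h2, (memB_iff X e).2 h1, h3⟩
  · obtain ⟨h1, h2, h3⟩ := mem_filter.1 he
    have h4 := mem_range.1 h1
    exact ⟨⟨e, lt_mE h4⟩, mem_filter.2 ⟨(memB_iff X ⟨e, lt_mE h4⟩).1 h2, h4, h3⟩, rfl⟩

theorem PMc_countP (m : ℕ) (p : ℕ → Bool) :
    (List.range m).countP p = ((range m).filter fun e => p e = true).card := by
  induction m with
  | zero => simp
  | succ m ih =>
    rw [List.range_succ, List.countP_append, ih, range_add_one, filter_insert]
    by_cases h : p m = true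
    · rw [if_pos h, card_insert_of_notMem (by simp)]
      simp [h]
    · rw [if_neg h]
      simp [h]

theorem PMc_pmB_iff (X : List Bool) : pmB n tab X = true ↔
    (∀ e < n * n, bt X e = true → e / n = e % n ∨ (e / n < e % n ∧ adjB tab (e / n) (e % n) = true)) ∧
    ∀ i < n, ((range (n * n)).filter fun e =>
      bt X e = true ∧ e / n < e % n ∧ (e / n = i ∨ e % n = i)).card = 1 := by
  unfold pmB
  rw [Bool.and_eq_true, List.all_eq_true, List.all_eq_true]
  refine and_congr (forall_congr' fun e => ?_) (forall_congr' fun i => ?_)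
  · rw [List.mem_range]
    refine imp_congr_right fun he => ?_
    cases h : bt X e <;> simp [isReal, he]
  · rw [List.mem_range]
    refine imp_congr_right fun _ => ?_
    rw [decide_eq_true_iff, PMc_countP]
    refine Eq.congr_left (congrArg card (filter_congr fun e he => ?_))
    simp [isReal, mem_range.1 he, and_assoc]

theorem PMc_pmB_q (X : List Bool) : pmB n tab X = true ↔
    (∀ q : Fin n × Fin n, bt X (PMc_enc q) = true → q.1 = q.2 ∨ (q.1 < q.2 ∧ adjB tab q.1 q.2 = true)) ∧
    ∀ i : Fin n, (univ.filter fun q : Fin n × Fin n =>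
      bt X (PMc_enc q) = true ∧ q.1 < q.2 ∧ (q.1 = i ∨ q.2 = i)).card = 1 := by
  rw [PMc_pmB_iff]
  refine and_congr ⟨fun h q hq => ?_, fun h e he hb => ?_⟩ ⟨fun h i => ?_, fun h i hi => ?_⟩
  · have := h _ (PMc_enc_lt q) hq
    rw [PMc_enc_div, PMc_enc_mod] at this
    exact this.imp Fin.ext id
  · obtain ⟨q, rfl⟩ := PMc_enc_surj he
    rw [PMc_enc_div, PMc_enc_mod]
    exact (h q hb).imp (congrArg Fin.val) id
  · have := h i i.2
    rw [PMc_card_q] at this
    simp only [PMc_enc_div, PMc_enc_mod, Fin.val_fin_lt, Fin.val_inj] at this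
    exact this
  · have := h ⟨i, hi⟩
    rw [PMc_card_q]
    simp only [PMc_enc_div, PMc_enc_mod, Fin.val_fin_lt]
    simp only [Fin.ext_iff] at this
    exact this

theorem PMc_pmB_X (X : Finset (Fin (mE n))) : pmB n tab (toL n X) = true ↔
    (∀ e ∈ X, e.val < n * n → e.val / n = e.val % n ∨
      (e.val / n < e.val % n ∧ adjB tab (e.val / n) (e.val % n) = true)) ∧
    ∀ i < n, (X.filter fun e => e.val < n * n ∧
      e.val / n < e.val % n ∧ (e.val / n = i ∨ e.val % n = i)).card = 1 := by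
  rw [PMc_pmB_iff]
  simp only [bt_toL]
  refine and_congr ⟨fun h e he hlt => h _ hlt ((memB_iff X e).2 he), fun h e he hb => ?_⟩
    (forall₂_congr fun i _ => ?_)
  · exact h ⟨e, lt_mE he⟩ ((memB_iff X ⟨e, lt_mE he⟩).1 hb) he
  · rw [PMc_card_X X fun e => e / n < e % n ∧ (e / n = i ∨ e % n = i)]

/-- the matching of a state -/
def PMc_mt (n : ℕ) (p : ℕ → Bool) : Finset (Sym2 (Fin n)) :=
  (univ.filter fun q : Fin n × Fin n => p (PMc_enc q) = true ∧ q.1 < q.2).image fun q => s(q.1, q.2)

theorem PMc_mk_inj {q q' : Fin n × Fin n} (h1 : q.1 < q.2) (h2 : q'.1 < q'.2)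
    (h : s(q.1, q.2) = s(q'.1, q'.2)) : q = q' := by
  rcases Sym2.eq_iff.1 h with ⟨h3, h4⟩ | ⟨h3, h4⟩
  · exact Prod.ext h3 h4
  · rw [h3, h4] at h1
    exact absurd h2 (not_lt.2 h1.le)

theorem PMc_mem_mt {p : ℕ → Bool} {q : Fin n × Fin n} (hq : q.1 < q.2) :
    s(q.1, q.2) ∈ PMc_mt n p ↔ p (PMc_enc q) = true := by
  unfold PMc_mt
  rw [mem_image]
  constructor
  · rintro ⟨q', h1, h2⟩
    obtain ⟨-, h3, h4⟩ := mem_filter.1 h1
    rw [← PMc_mk_inj h4 hq h2]
    exact h3
  · exact fun h => ⟨q, mem_filter.2 ⟨mem_univ _, h, hq⟩, rfl⟩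

theorem PMc_card_mt (p : ℕ → Bool) (v : Fin n) : ((PMc_mt n p).filter fun e => v ∈ e).card =
    (univ.filter fun q : Fin n × Fin n =>
      p (PMc_enc q) = true ∧ q.1 < q.2 ∧ (q.1 = v ∨ q.2 = v)).card := by
  unfold PMc_mt
  rw [filter_image, filter_filter, card_image_of_injOn]
  · refine congrArg card (filter_congr fun q _ => ?_)
    rw [Sym2.mem_iff, and_assoc, eq_comm (a := v), eq_comm (a := v)]
  · intro q hq q' hq' h
    exact PMc_mk_inj (mem_filter.1 (mem_coe.1 hq)).2.1.2 (mem_filter.1 (mem_coe.1 hq')).2.1.2 h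

theorem PMc_mt_eq {p : ℕ → Bool} {M : Finset (Sym2 (Fin n))} (hM : M ⊆ G.edgeFinset)
    (h : ∀ q : Fin n × Fin n, q.1 < q.2 → (p (PMc_enc q) = true ↔ s(q.1, q.2) ∈ M)) : PMc_mt n p = M := by
  ext e
  constructor
  · intro he
    obtain ⟨q, h1, rfl⟩ := mem_image.1 he
    obtain ⟨-, h2, h3⟩ := mem_filter.1 h1
    exact (h q h3).1 h2
  · induction e using Sym2.ind with
    | _ a b =>
      intro he
      have hab : a ≠ b := (SimpleGraph.mem_edgeFinset.1 (hM he) : G.Adj a b).ne
      rcases lt_or_gt_of_ne hab with h1 | h1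
      · exact (PMc_mem_mt (q := (a, b)) h1).2 ((h (a, b) h1).2 he)
      · rw [Sym2.eq_swap] at he ⊢
        exact (PMc_mem_mt (q := (b, a)) h1).2 ((h (b, a) h1).2 he)

theorem PMc_mt_mem (hT : TabOf G tab) {X : List Bool} (hX : pmB n tab X = true) :
    PMc_mt n (bt X) ∈ G.edgeFinset.powerset.filter fun M => ∀ v, (M.filter fun e => v ∈ e).card = 1 := by
  obtain ⟨h1, h2⟩ := (PMc_pmB_q X).1 hX
  refine mem_filter.2 ⟨mem_powerset.2 fun e he => ?_, fun v => by rw [PMc_card_mt, h2]⟩
  obtain ⟨q, h3, rfl⟩ := mem_image.1 he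
  obtain ⟨-, h4, h5⟩ := mem_filter.1 h3
  rcases h1 q h4 with h6 | h6
  · exact absurd h6 h5.ne
  · exact SimpleGraph.mem_edgeFinset.2 ((hT _ _).1 h6.2)

/-! ### sums over the nodes of a vertex -/

/-- sum over the nodes of the vertex `i` -/
def PMc_vs (n : ℕ) (A : ℕ → ZMod 2) (i : ℕ) : ZMod 2 :=
  ∑ v ∈ range (nV n), if v / (2 * n) = i then A v else 0

theorem PMc_vs_add (A B : ℕ → ZMod 2) (i : ℕ) : PMc_vs n (A + B) i = PMc_vs n A i + PMc_vs n B i := by
  unfold PMc_vs
  rw [← sum_add_distrib]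
  refine sum_congr rfl fun v _ => ?_
  split_ifs <;> simp

theorem PMc_vs_of_le (A : ℕ → ZMod 2) {i : ℕ} (hi : n ≤ i) : PMc_vs n A i = 0 := by
  refine sum_eq_zero fun v hv => if_neg fun h => ?_
  have h1 : v / (2 * n) < n := Nat.div_lt_of_lt_mul (by
    have := mem_range.1 hv
    unfold nV at this
    rwa [mul_comm] at this)
  omega

theorem PMc_vs_pr {u w : ℕ} (hu : u < nV n) (hw : w < nV n) (i : ℕ) :
    PMc_vs n (pr u w) i = (if u / (2 * n) = i then 1 else 0) + if w / (2 * n) = i then 1 else 0 := by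
  have key : ∀ u < nV n, (∑ v ∈ range (nV n), if v / (2 * n) = i then (if v = u then (1 : ZMod 2) else 0) else 0) =
      if u / (2 * n) = i then 1 else 0 := by
    intro u hu
    rw [sum_eq_single u (fun v _ hv => by simp [hv]) fun h => absurd (mem_range.2 hu) h]
    simp
  rw [← key u hu, ← key w hw, ← sum_add_distrib]
  refine sum_congr rfl fun v _ => ?_
  rw [pr_apply]
  split_ifs <;> simp

theorem PMc_vs_bd (X : Finset (Fin (mE n))) (i : ℕ) : PMc_vs n ((gr n).bd X) i =
    ((X.filter fun e => e.val < n * n ∧ e.val / n ≠ e.val % n ∧ (e.val / n = i ∨ e.val % n = i)).card : ZMod 2) := by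
  have h1 : PMc_vs n ((gr n).bd X) i = ∑ e ∈ X, PMc_vs n (pr (srcN n e) (tgtN n e)) i := by
    unfold PMc_vs Gr.bd
    rw [sum_comm]
    refine sum_congr rfl fun v _ => ?_
    rw [Finset.sum_apply]
    split_ifs
    · rfl
    · simp
  rw [h1, card_filter, Nat.cast_sum]
  refine sum_congr rfl fun e _ => ?_
  rw [PMc_vs_pr (srcN_lt e.2) (tgtN_lt e.2)]
  by_cases he : e.val < n * n
  · rw [(src_div he).1, (src_div he).2]
    by_cases h2 : e.val / n = i <;> by_cases h3 : e.val % n = i
    · rw [if_pos h2, if_pos h3, if_neg fun h => h.2.1 (h2.trans h3.symm)]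
      decide
    · rw [if_pos h2, if_neg h3, if_pos ⟨he, fun h => h3 (h ▸ h2), Or.inl h2⟩]
      simp
    · rw [if_neg h2, if_pos h3, if_pos ⟨he, fun h => h2 (h ▸ h3), Or.inr h3⟩]
      simp
    · rw [if_neg h2, if_neg h3, if_neg fun h => h.2.2.elim h2 h3]
      simp
  · rw [path_div (not_lt.1 he) e.2, CharTwo.add_self_eq_zero, if_neg fun h => he h.1]
    simp

theorem PMc_vs_TT {i : ℕ} (hi : i < n) : PMc_vs n (TT n) i = 1 := by
  have hn : 0 < 2 * n := by omega
  have h1 : i * (2 * n) < nV n := Nat.mul_lt_mul_of_pos_right hi hn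
  unfold PMc_vs
  rw [sum_eq_single (i * (2 * n)) (fun v _ hv => ?_) fun h => absurd (mem_range.2 h1) h]
  · rw [if_pos (Nat.mul_div_cancel _ hn)]
    simp [TT, tB, h1]
  · split_ifs with h
    · have h2 : ¬ v % (2 * n) = 0 := fun h2 => hv (by
        have := Nat.div_add_mod' v (2 * n)
        rw [h, h2] at this
        omega)
      simp [TT, tB, h2]
    · rfl

theorem PMc_exists_path (W : Finset ℕ) (hW : ∀ v ∈ W, v < nV n) :
    ∃ J : Finset (Fin (mE n)), (∀ e ∈ J, n * n ≤ e.val) ∧
      (gr n).bd J = ∑ v ∈ W, pr v (v / (2 * n) * (2 * n)) := by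
  induction W using Finset.induction_on with
  | empty => exact ⟨∅, by simp, by rw [Gr.bd_empty, sum_empty]⟩
  | insert v W hv ih =>
    obtain ⟨J, h1, h2⟩ := ih fun w hw => hW w (mem_insert_of_mem hw)
    have h3 := hW v (mem_insert_self _ _)
    have hn : 0 < 2 * n := Nat.pos_of_ne_zero fun h => by simp [nV, h] at h3
    refine ⟨cc n v (v / (2 * n) * (2 * n)) ∆ J, fun e he => ?_, ?_⟩
    · rcases mem_symmDiff.1 he with h | h
      · exact cB_same (Nat.mul_div_cancel _ hn).symm (mem_fs.1 h.1)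
      · exact h1 e h.1
    · rw [Gr.bd_symmDiff, sum_insert hv, h2, bd_cc h3 ((Nat.div_mul_le_self _ _).trans_lt h3)]

theorem PMc_exists_path' (A : ℕ → ZMod 2) (h0 : ∀ v, nV n ≤ v → A v = 0) (h1 : ∀ i, PMc_vs n A i = 0) :
    ∃ J : Finset (Fin (mE n)), (∀ e ∈ J, n * n ≤ e.val) ∧ (gr n).bd J = A := by
  obtain ⟨J, h2, h3⟩ := PMc_exists_path ((range (nV n)).filter fun v => A v = 1)
    fun v hv => mem_range.1 (mem_filter.1 hv).1
  refine ⟨J, h2, ?_⟩
  have hA : ∀ v, (if A v = 1 then (1 : ZMod 2) else 0) = A v := by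
    intro v
    generalize A v = a
    revert a
    decide
  rw [h3]
  funext w
  rw [Finset.sum_apply]
  simp only [pr_apply]
  rw [sum_add_distrib]
  have e1 : (∑ v ∈ (range (nV n)).filter fun v => A v = 1, if w = v then (1 : ZMod 2) else 0) = A w := by
    rw [sum_ite_eq]
    by_cases hw : w < nV n
    · rw [← hA w]
      exact if_congr (by simp [hw]) rfl rfl
    · rw [if_neg (by simp [hw]), h0 w (not_lt.1 hw)]
  have e2 : (∑ v ∈ (range (nV n)).filter fun v => A v = 1,
      if w = v / (2 * n) * (2 * n) then (1 : ZMod 2) else 0) = 0 := by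
    by_cases hw : w % (2 * n) = 0
    · rw [sum_filter]
      refine Eq.trans (sum_congr rfl fun v hv => ?_) (h1 (w / (2 * n)))
      have hn : 0 < 2 * n := Nat.pos_of_ne_zero fun h => by simp [nV, h] at hv
      have e3 : w = v / (2 * n) * (2 * n) ↔ v / (2 * n) = w / (2 * n) := by
        constructor
        · intro h
          rw [h, Nat.mul_div_cancel _ hn]
        · intro h
          have := Nat.div_add_mod' w (2 * n)
          rw [h]
          omega
      by_cases h : v / (2 * n) = w / (2 * n)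
      · rw [if_pos (e3.2 h), if_pos h, hA]
      · rw [if_neg fun h' => h (e3.1 h'), if_neg h, ite_self]
    · exact sum_eq_zero fun v _ => if_neg fun h => hw (by rw [h, Nat.mul_mod_left])
  rw [e1, e2, add_zero]

/-- a `T`-join with a given pair part -/
theorem PMc_exists_St (Y : Finset (Fin (mE n))) (hY : ∀ i < n,
    Odd (Y.filter fun e => e.val < n * n ∧ e.val / n ≠ e.val % n ∧ (e.val / n = i ∨ e.val % n = i)).card) :
    ∃ X : St n, ∀ e : Fin (mE n), e.val < n * n → (e ∈ X.1 ↔ e ∈ Y) := by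
  obtain ⟨J, h1, h2⟩ := PMc_exists_path' (n := n) ((gr n).bd Y + TT n) (fun v hv => by
    have h1 : (gr n).bd Y v = 0 := by
      unfold Gr.bd
      rw [Finset.sum_apply]
      exact sum_eq_zero fun e _ => pr_apply_of_ne ((srcN_lt e.2).trans_le hv).ne' ((tgtN_lt e.2).trans_le hv).ne'
    have h2 : ¬ v < nV n := not_lt.2 hv
    rw [Pi.add_apply, h1]
    simp [TT, tB, h2]) fun i => by
      by_cases hi : i < n
      · rw [PMc_vs_add, PMc_vs_bd, PMc_vs_TT hi, ZMod.natCast_eq_one_iff_odd.2 (hY i hi)]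
        decide
      · exact PMc_vs_of_le _ (not_lt.1 hi)
  refine ⟨⟨Y ∆ J, by rw [Gr.bd_symmDiff, h2, ← add_assoc, add_self_fn, zero_add]⟩, fun e he => ?_⟩
  have h3 : e ∉ J := fun h => absurd he (not_lt.2 (h1 e h))
  simp [mem_symmDiff, h3]

theorem PMc_src_path {e : ℕ} (h1 : n * n ≤ e) (h2 : e < mE n) :
    srcN n e = (e - n * n) + (e - n * n) / (2 * n - 1) ∧ tgtN n e = srcN n e + 1 := by
  have hn : 0 < n := Nat.pos_of_ne_zero fun h => by simp [mE, h] at h2
  refine ⟨?_, by rw [tgtN, if_neg (not_lt.2 h1)]⟩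
  rw [srcN, if_neg (not_lt.2 h1)]
  obtain ⟨m, hm⟩ : ∃ m, 2 * n = m + 1 := ⟨2 * n - 1, by omega⟩
  rw [hm, Nat.add_sub_cancel, mul_add, mul_one]
  have := Nat.div_add_mod' (e - n * n) m
  omega

/-- an even set of path edges is empty -/
theorem PMc_even_path {X : Finset (Fin (mE n))} (h1 : ∀ e ∈ X, n * n ≤ e.val) (h2 : (gr n).bd X = 0) :
    X = ∅ := by
  by_contra hne
  have hne' : X.Nonempty := nonempty_iff_ne_empty.2 hne
  set e := X.min' hne' with he
  have hm : e ∈ X := X.min'_mem hne'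
  have h3 : (X.filter fun e' => (gr n).Inc e' (srcN n e)) = {e} := by
    ext e'
    rw [mem_filter, mem_singleton]
    constructor
    · rintro ⟨h4, h5⟩
      have h6 : e.val ≤ e'.val := X.min'_le e' h4
      have h7 := PMc_src_path (h1 e hm) e.2
      have h8 := PMc_src_path (h1 e' h4) e'.2
      have h9 : (e.val - n * n) / (2 * n - 1) ≤ (e'.val - n * n) / (2 * n - 1) :=
        Nat.div_le_div_right (by omega)
      have h10 := h1 e hm
      have h11 : srcN n e' = srcN n e ∨ tgtN n e' = srcN n e := h5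
      refine Fin.ext ?_
      omega
    · rintro rfl
      exact ⟨hm, Or.inl rfl⟩
  have h4 := Gr.bd_apply (cubic n).1 X (srcN n e)
  rw [h2, h3, card_singleton] at h4
  simp at h4

theorem PMc_St_ext {X X' : St n} (h : ∀ e : Fin (mE n), e.val < n * n → (e ∈ X.1 ↔ e ∈ X'.1)) : X = X' := by
  have h1 : X.1 ∆ X'.1 = ∅ := PMc_even_path (fun e he => by
    by_contra h2
    have := h e (not_le.1 h2)
    rw [mem_symmDiff] at he
    tauto) (by rw [Gr.bd_symmDiff, X.2, X'.2, add_self_fn])
  exact Subtype.ext (symmDiff_eq_bot.1 h1)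

/-- double counting -/
theorem PMc_sum_deg (X : Finset (Fin (mE n))) :
    ∑ i ∈ range n, (X.filter fun e => e.val < n * n ∧ e.val / n < e.val % n ∧
      (e.val / n = i ∨ e.val % n = i)).card = 2 * (X.filter fun e => isReal n e.val = true).card := by
  simp only [card_filter]
  rw [sum_comm, mul_sum]
  refine sum_congr rfl fun e _ => ?_
  by_cases h : isReal n e = true
  · have h1 : e.val < n * n ∧ e.val / n < e.val % n := by simpa [isReal] using h
    have h2 : ((range n).filter fun i => e.val < n * n ∧ e.val / n < e.val % n ∧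
        (e.val / n = i ∨ e.val % n = i)) = {e.val / n, e.val % n} := by
      ext i
      have := PMc_div_lt h1.1
      rw [mem_filter, mem_range, mem_insert, mem_singleton]
      omega
    rw [← card_filter, h2, card_pair h1.2.ne, if_pos h, mul_one]
  · rw [if_neg h, mul_zero]
    refine sum_eq_zero fun i _ => if_neg fun h1 => h ?_
    simp [isReal, h1.1, h1.2.1]

theorem PMc_sum_k (hF : Fin' n s tab k) (X : Finset (Fin (mE n))) (hv : ∀ e ∈ X, isVirt n e = false) :
    ∑ e ∈ X, k e = ((∑ e ∈ X.filter (fun e => isReal n e.val = true),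
      if adjB tab (e.val / n) (e.val % n) = true then pK s else 2 * pK s : ℕ) : ℤ) := by
  rw [sum_filter, Nat.cast_sum]
  refine sum_congr rfl fun e he => ?_
  by_cases h : isReal n e = true
  · rw [if_pos h, hF.real e h, tgtK, if_pos h]
  · rw [if_neg h, hF.zero e (by simpa using h) (hv e he), Nat.cast_zero]

theorem pmB_pos (hT : TabOf G tab) {X : List Bool} (hX : pmB n tab X = true) : 0 < numPerfectMatchings G := by
  exact card_pos.2 ⟨_, PMc_mt_mem hT hX⟩

theorem even_of_pos (h : 0 < numPerfectMatchings G) : Even n := by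
  obtain ⟨M, hM⟩ := card_pos.1 h
  obtain ⟨h1, h2⟩ := mem_filter.1 hM
  have h3 : ∑ v : Fin n, (M.filter fun e => v ∈ e).card = ∑ e ∈ M, 2 := by
    simp only [card_filter]
    rw [sum_comm]
    refine sum_congr rfl fun e he => ?_
    induction e using Sym2.ind with
    | _ a b =>
      have hab : a ≠ b := (SimpleGraph.mem_edgeFinset.1 (mem_powerset.1 h1 he) : G.Adj a b).ne
      have h4 : (univ.filter fun v : Fin n => v ∈ s(a, b)) = {a, b} := by
        ext v
        simp
      rw [← card_filter, h4, card_pair hab]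
  simp only [h2, sum_const, card_univ, Fintype.card_fin, smul_eq_mul, mul_one] at h3
  exact ⟨M.card, by omega⟩

theorem numPM_zero (G : SimpleGraph (Fin 0)) [DecidableRel G.Adj] : numPerfectMatchings G = 1 := by
  have h : G.edgeFinset = ∅ := by
    refine eq_empty_of_forall_notMem fun e => ?_
    induction e using Sym2.ind with
    | _ a b => exact a.elim0
  unfold numPerfectMatchings
  rw [h, powerset_empty, filter_true_of_mem fun M _ v => v.elim0, card_singleton]

theorem card_pm (hT : TabOf G tab) :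
    ((univ : Finset (St n)).filter fun X => pmB n tab (toL n X.1) = true).card = 2 ^ n * numPerfectMatchings G := by
  have hc : 2 ^ n * numPerfectMatchings G = ((univ : Finset (Finset (Fin n))) ×ˢ
      (G.edgeFinset.powerset.filter fun M => ∀ v, (M.filter fun e => v ∈ e).card = 1)).card := by
    rw [card_product, card_univ, Fintype.card_finset, Fintype.card_fin]
    rfl
  rw [hc]
  refine card_bij (fun X _ => (univ.filter fun i : Fin n => bt (toL n X.1) (PMc_enc (i, i)) = true,
    PMc_mt n (bt (toL n X.1)))) (fun X hX => ?_) (fun X hX X' hX' h => ?_) fun b hb => ?_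
  · exact mem_product.2 ⟨mem_univ _, PMc_mt_mem hT (mem_filter.1 hX).2⟩
  · have h1 := ((PMc_pmB_q _).1 (mem_filter.1 hX).2).1
    have h2 := ((PMc_pmB_q _).1 (mem_filter.1 hX').2).1
    obtain ⟨h3, h4⟩ := Prod.ext_iff.1 h
    refine PMc_St_ext fun e he => ?_
    obtain ⟨q, hq⟩ := PMc_enc_surj he
    rw [← memB_iff, ← memB_iff, ← bt_toL, ← bt_toL, ← hq]
    rcases lt_trichotomy q.1 q.2 with h5 | h5 | h5
    · rw [← PMc_mem_mt h5, ← PMc_mem_mt h5]
      exact Finset.ext_iff.1 h4 _
    · have h6 : q = (q.1, q.1) := Prod.ext rfl h5.symm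
      have h7 := Finset.ext_iff.1 h3 q.1
      simp only [mem_filter, mem_univ, true_and] at h7
      rw [h6]
      exact h7
    · exact iff_of_false (fun h6 => (h1 q h6).elim h5.ne' fun h7 => absurd h7.1 (not_lt.2 h5.le))
        fun h6 => (h2 q h6).elim h5.ne' fun h7 => absurd h7.1 (not_lt.2 h5.le)
  · obtain ⟨C, M⟩ := b
    obtain ⟨h1, h2⟩ := mem_filter.1 (mem_product.1 hb).2
    have hM : M ⊆ G.edgeFinset := mem_powerset.1 h1
    let p : ℕ → Bool := fun e => decide (∃ q : Fin n × Fin n, PMc_enc q = e ∧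
      ((q.1 = q.2 ∧ q.1 ∈ C) ∨ (q.1 < q.2 ∧ s(q.1, q.2) ∈ M)))
    have hp : ∀ q : Fin n × Fin n, p (PMc_enc q) = true ↔
        ((q.1 = q.2 ∧ q.1 ∈ C) ∨ (q.1 < q.2 ∧ s(q.1, q.2) ∈ M)) := by
      intro q
      rw [decide_eq_true_iff]
      exact ⟨fun ⟨q', h3, h4⟩ => PMc_enc_inj h3 ▸ h4, fun h => ⟨q, rfl, h⟩⟩
    have hmt : ∀ p' : ℕ → Bool, (∀ q : Fin n × Fin n, p' (PMc_enc q) = true ↔ p (PMc_enc q) = true) →
        PMc_mt n p' = M := fun p' h => PMc_mt_eq hM fun q hq => by
      rw [h, hp]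
      exact ⟨fun h => h.elim (fun h => absurd h.1 hq.ne) fun h => h.2, fun h => Or.inr ⟨hq, h⟩⟩
    have hY : ∀ q : Fin n × Fin n, memB (fs n p) (PMc_enc q) = true ↔ p (PMc_enc q) = true := fun q =>
      (memB_iff (fs n p) ⟨_, lt_mE (PMc_enc_lt q)⟩).trans mem_fs
    obtain ⟨X, hX⟩ := PMc_exists_St (fs n p) fun i hi => by
      rw [PMc_card_X (fs n p) fun e => e / n ≠ e % n ∧ (e / n = i ∨ e % n = i), PMc_card_q]
      have h3 := PMc_card_mt p ⟨i, hi⟩
      rw [hmt p fun _ => Iff.rfl, h2] at h3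
      refine Eq.subst (motive := Odd) (h3.trans (congrArg card (filter_congr fun q _ => ?_))) odd_one
      rw [hY, PMc_enc_div, PMc_enc_mod, Fin.ext_iff, Fin.ext_iff]
      refine and_congr_right fun h4 => and_congr_left fun _ => ⟨fun h5 => Fin.val_ne_of_ne h5.ne, fun h5 => ?_⟩
      exact ((hp q).1 h4).elim (fun h6 => absurd (congrArg Fin.val h6.1) h5) fun h6 => h6.1
    have hb : ∀ q : Fin n × Fin n, bt (toL n X.1) (PMc_enc q) = true ↔ p (PMc_enc q) = true := fun q => by
      rw [bt_toL]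
      exact ((memB_iff X.1 ⟨_, lt_mE (PMc_enc_lt q)⟩).trans (hX _ (PMc_enc_lt q))).trans mem_fs
    refine ⟨X, mem_filter.2 ⟨mem_univ _, (PMc_pmB_q _).2 ⟨fun q hq => ?_, fun i => ?_⟩⟩,
      Prod.ext ?_ (hmt _ hb)⟩
    · exact ((hp q).1 ((hb q).1 hq)).imp (fun h => h.1) fun h =>
        ⟨h.1, (hT _ _).2 (SimpleGraph.mem_edgeFinset.1 (hM h.2))⟩
    · rw [← PMc_card_mt, hmt _ hb, h2]
    · ext i
      simp only [mem_filter, mem_univ, true_and]
      rw [hb, hp]
      simp

theorem deg_odd (X : St n) {i : ℕ} (hi : i < n) :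
    Odd (X.1.filter fun e => e.val < n * n ∧ e.val / n ≠ e.val % n ∧ (e.val / n = i ∨ e.val % n = i)).card := by
  rw [← ZMod.natCast_eq_one_iff_odd, ← PMc_vs_bd, X.2, PMc_vs_TT hi]

theorem Fin'.exp_pm (hF : Fin' n s tab k) (X : St n) (hX : pmB n tab (toL n X.1) = true) :
    ∑ e ∈ X.1, k e = (pK s * (n / 2) : ℕ) := by
  obtain ⟨h1, h2⟩ := (PMc_pmB_X X.1).1 hX
  have hv : ∀ e ∈ X.1, isVirt n e = false := by
    intro e he
    by_contra h
    have h3 : e.val < n * n ∧ e.val % n < e.val / n := by simpa [isVirt] using h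
    have := h1 e he h3.1
    omega
  have h3 := PMc_sum_deg X.1
  rw [sum_congr rfl fun i hi => h2 i (mem_range.1 hi), sum_const, card_range, smul_eq_mul] at h3
  rw [PMc_sum_k hF X.1 hv, sum_congr rfl (g := fun _ => pK s) fun e he => ?_, sum_const, smul_eq_mul, mul_comm]
  · congr 2
    omega
  · obtain ⟨h4, h5⟩ := mem_filter.1 he
    have h6 : e.val < n * n ∧ e.val / n < e.val % n := by simpa [isReal] using h5
    exact if_pos ((h1 e h4 h6.1).resolve_left h6.2.ne).2

theorem Fin'.exp_not_pm (hF : Fin' n s tab k) (hn : Even n) (X : St n) (hv : ∀ e ∈ X.1, isVirt n e = false)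
    (hX : pmB n tab (toL n X.1) = false) : ((pK s * (n / 2 + 1) : ℕ) : ℤ) ≤ ∑ e ∈ X.1, k e := by
  rw [PMc_sum_k hF X.1 hv, Nat.cast_le]
  have hodd : ∀ i < n, Odd (X.1.filter fun e => e.val < n * n ∧ e.val / n < e.val % n ∧
      (e.val / n = i ∨ e.val % n = i)).card := by
    intro i hi
    refine Eq.subst (motive := Odd) (congrArg card (filter_congr fun e he => ?_)) (deg_odd X hi)
    have h3 : e.val < n * n → e.val / n ≤ e.val % n := by simpa [isVirt] using hv e he
    omega
  have hs := PMc_sum_deg X.1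
  have hge : ∀ e : Fin (mE n), pK s ≤ if adjB tab (e.val / n) (e.val % n) = true then pK s else 2 * pK s := by
    intro e
    split_ifs <;> omega
  set R := X.1.filter fun e => isReal n e.val = true with hR
  have h1 : ¬ pmB n tab (toL n X.1) = true := by simp [hX]
  rw [PMc_pmB_X, not_and_or] at h1
  rcases h1 with h1 | h1
  · push Not at h1
    obtain ⟨e, he, h2, h3, h4⟩ := h1
    have h5 : e.val < n * n → e.val / n ≤ e.val % n := by simpa [isVirt] using hv e he
    have h6 : e.val / n < e.val % n := by omega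
    have heR : e ∈ R := mem_filter.2 ⟨he, by simp [isReal, h2, h6]⟩
    have h7 := card_nsmul_le_sum (range n) _ 1 fun i hi => (hodd i (mem_range.1 hi)).pos
    rw [hs, card_range, smul_eq_mul] at h7
    have h8 := card_nsmul_le_sum (R.erase e) _ _ fun e' _ => hge e'
    rw [← add_sum_erase R _ heR, if_neg (h4 h6)]
    rw [card_erase_of_mem heR, smul_eq_mul] at h8
    have h9 : n / 2 + 1 ≤ 2 + (R.card - 1) := by
      have := card_pos.2 ⟨e, heR⟩
      omega
    have h10 := Nat.mul_le_mul_left (pK s) h9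
    nlinarith
  · push Not at h1
    obtain ⟨i, hi, h2⟩ := h1
    have h7 := card_nsmul_le_sum ((range n).erase i) _ 1 fun j hj =>
      (hodd j (mem_range.1 (mem_of_mem_erase hj))).pos
    rw [← add_sum_erase _ _ (mem_range.2 hi)] at hs
    rw [card_erase_of_mem (mem_range.2 hi), card_range, smul_eq_mul] at h7
    obtain ⟨c, hc⟩ := hodd i hi
    have h8 := card_nsmul_le_sum R _ _ fun e' _ => hge e'
    rw [smul_eq_mul, mul_comm] at h8
    exact (Nat.mul_le_mul_left (pK s) (by omega)).trans h8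

theorem Fin'.prB_pm (hF : Fin' n s tab k) (h : Par n s) (hT : TabOf G tab) :
    prB n s k (pmB n tab) * ZZ n s k = 2 ^ n * numPerfectMatchings G * lam s ^ (pK s * (n / 2)) := by
  have hZ := h.ZZ_pos k
  have h1 : ∀ X : St n, piS n s k X * ind (pmB n tab (toL n X.1) = true) * ZZ n s k =
      if pmB n tab (toL n X.1) = true then lam s ^ (pK s * (n / 2)) else 0 := by
    intro X
    split_ifs with hX
    · rw [R309.ind_of hX, mul_one, ← zpow_natCast, ← hF.exp_pm X hX, ← wt_mdl h.s_ge]
      exact div_mul_cancel₀ _ hZ.ne'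
    · rw [R309.ind_of_not hX, mul_zero, zero_mul]
  rw [prB, sum_mul, sum_congr rfl fun X _ => h1 X, ← sum_filter, sum_const, card_pm hT, nsmul_eq_mul]
  push_cast
  rfl

theorem Fin'.prB_pm_ge (hF : Fin' n s tab k) (h : Par n s) (hT : TabOf G tab) (hN : 0 < numPerfectMatchings G) :
    1 / 2 ≤ prB n s k (pmB n tab) := by
  have hZ := h.ZZ_pos k
  have hl0 := lam_pos h.s_ge
  have hl1 := lam_lt_one h.s_ge
  have hs0 := h.s_pos
  set V := (range (mE n)).filter fun e => isVirt n e = true with hV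
  have h1 : ∀ X : St n, piS n s k X ≤ piS n s k X * ind (pmB n tab (toL n X.1) = true) +
      ∑ e ∈ V, piS n s k X * ind (bt (toL n X.1) e = true) + lam s ^ (pK s * (n / 2 + 1)) / ZZ n s k := by
    intro X
    have hp := h.piS_pos k X
    have a1 : 0 ≤ piS n s k X * ind (pmB n tab (toL n X.1) = true) := mul_nonneg hp.le (R309.ind_nonneg _)
    have a2 : ∀ e ∈ V, 0 ≤ piS n s k X * ind (bt (toL n X.1) e = true) := fun e _ =>
      mul_nonneg hp.le (R309.ind_nonneg _)
    have a3 := sum_nonneg a2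
    have a4 : 0 ≤ lam s ^ (pK s * (n / 2 + 1)) / ZZ n s k := by positivity
    by_cases hX : pmB n tab (toL n X.1) = true
    · rw [R309.ind_of hX]
      linarith
    · by_cases hv : ∀ e ∈ X.1, isVirt n e = false
      · have b1 := hF.exp_not_pm h.n_even X hv (by simpa using hX)
        have b2 : piS n s k X ≤ lam s ^ (pK s * (n / 2 + 1)) / ZZ n s k := by
          refine div_le_div_of_nonneg_right ?_ hZ.le
          rw [wt_mdl h.s_ge, ← zpow_natCast]
          exact zpow_le_zpow_right_of_le_one₀ hl0 hl1.le b1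
        linarith
      · push Not at hv
        obtain ⟨e, he, b1⟩ := hv
        have b2 := single_le_sum a2 (mem_filter.2 ⟨mem_range.2 e.2, by simpa using b1⟩)
        rw [R309.ind_of (by rw [bt_toL, memB_iff]; exact he)] at b2
        linarith
  have h2 := sum_le_sum fun X (_ : X ∈ (univ : Finset (St n))) => h1 X
  rw [h.sum_piS, sum_add_distrib, sum_add_distrib, sum_comm, sum_const, card_univ, nsmul_eq_mul] at h2
  have h3 : ∑ e ∈ V, ∑ X : St n, piS n s k X * ind (bt (toL n X.1) e = true) ≤ 1 / 4 := by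
    have c1 := sum_le_card_nsmul V (fun e => pm n s k e) _ fun e he => hF.virt e (mem_filter.1 he).2
    have c2 : (V.card : ℝ) ≤ s := by
      have := (card_filter_le (range (mE n)) fun e => isVirt n e = true).trans
        ((card_range _).le.trans h.mE_lt.le)
      exact_mod_cast this
    rw [nsmul_eq_mul] at c1
    refine le_trans c1 ?_
    rw [mul_one_div, div_le_div_iff₀ (by positivity) (by norm_num)]
    linarith
  have h4 : (Fintype.card (St n) : ℝ) ≤ 2 ^ s := by
    have c1 := Fintype.card_le_of_injective (fun X : St n => X.1) Subtype.val_injective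
    rw [Fintype.card_finset, Fintype.card_fin] at c1
    exact_mod_cast c1.trans (Nat.pow_le_pow_right (by norm_num) h.mE_lt.le)
  have h5 : lam s ^ (pK s * (n / 2)) / ZZ n s k ≤ prB n s k (pmB n tab) := by
    rw [div_le_iff₀ hZ, hF.prB_pm h hT]
    refine le_mul_of_one_le_left (by positivity) ?_
    exact one_le_mul_of_one_le_of_one_le (one_le_pow₀ (by norm_num)) (by exact_mod_cast hN)
  have h6 : (Fintype.card (St n) : ℝ) * (lam s ^ (pK s * (n / 2 + 1)) / ZZ n s k) ≤
      1 / 4 * (lam s ^ (pK s * (n / 2)) / ZZ n s k) := by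
    have c1 : (Fintype.card (St n) : ℝ) * lam s ^ pK s ≤ 1 / 4 := by
      refine (mul_le_mul h4 (lam_K_le h.s_ge) (by positivity) (by positivity)).trans (le_of_eq ?_)
      rw [pow_add, ← mul_assoc, ← mul_pow]
      norm_num
    rw [mul_add, mul_one, pow_add, mul_comm (lam s ^ _), mul_div_assoc, ← mul_assoc]
    exact mul_le_mul_of_nonneg_right c1 (by positivity)
  have h7 : prB n s k (pmB n tab) = ∑ X : St n, piS n s k X * ind (pmB n tab (toL n X.1) = true) := rfl
  linarith

end Crest.Agent.R304
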