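import Crest.Agent.R304.Ctrl

/-!
# Row 304: Upd
One accurate stage keeps the invariant of the controller.
* `nxt_cases`: `List.find?_some`, `List.mem_of_find?_eq_some`, `List.find?_eq_none`; translate `hiB`, `loB` into inequalities for `cntE / pN` and use `Acc` (`1/s^9 ≤ 1/(2 s^4)`).
* `fac_acc`: `facN / facD = 1 + (c / N) (lam ^ (±J) - 1)` for `c ≤ N` (`lam_eq`); the true factor is `≥ 1/2` resp. `≥ 1`, and `|lam ^ (±J) - 1| ≤ 2/s^5` resp. `≤ 4/s^5` (`log_lam_J`, `half_le_lam_J`).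
* `sinv_upd`: `kOf_concat`, `micro_concat`; prefixes of `micro sch ++ replicate J p` are prefixes of `micro sch` or `micro sch ++ replicate j p` (`kF_append_replicate`, `good_addK`); `pJ ∣ tgtK` (`pK_eq`);
  `ZZ_addK`; `drop_*`, `step_*`.
* `SInv.done`: `remX ≥ 0`, `remX [] ≤ 4 s^7`, `Phi_ge`, `Phi_zero_le`: `t ≤ 4 s^9 (s + 8 s^2) + 4 s^7 < s^12`.
-/

set_option autoImplicit false

noncomputable section

namespace Crest.Agent.R304

open Finset
open scoped symmDiff
open Crest.Agent.R309 (avgN avgL Tape digs ind blk)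

variable {n s : ℕ}

variable {tab : List (List Bool)}

theorem inv9_le (hs : 1024 ≤ s) : 1 / (s : ℝ) ^ 9 ≤ 1 / (2 * (s : ℝ) ^ 4) := by
  have hs' : (1024 : ℝ) ≤ s := by exact_mod_cast hs
  refine one_div_le_one_div_of_le (by positivity) ?_
  have h3 : (2 : ℝ) ≤ (s : ℝ) ^ 5 := le_trans (by norm_num) (pow_le_pow_left₀ (by norm_num) hs' 5)
  calc 2 * (s : ℝ) ^ 4 ≤ (s : ℝ) ^ 5 * (s : ℝ) ^ 4 := mul_le_mul_of_nonneg_right h3 (by positivity)
    _ = (s : ℝ) ^ 9 := by ring

theorem eps_bounds (hs : 1024 ≤ s) : 0 ≤ 5 / (s : ℝ) ^ 14 ∧ 5 / (s : ℝ) ^ 14 ≤ 1 := by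
  have hs' : (1024 : ℝ) ≤ s := by exact_mod_cast hs
  refine ⟨by positivity, ?_⟩
  rw [div_le_one (by positivity)]
  exact le_trans (by norm_num) (pow_le_pow_left₀ (by norm_num) hs' 14)

theorem hiB_iff (hs : 1024 ≤ s) (c : ℕ) :
    hiB s c = true ↔ 1 / (8 * (s : ℝ)) + 1 / (s : ℝ) ^ 4 < (c : ℝ) / pN s := by
  have hs0 : (0 : ℝ) < s := by exact_mod_cast (by omega : 0 < s)
  have hN : (0 : ℝ) < pN s := by exact_mod_cast pN_pos hs
  have e : 1 / (8 * (s : ℝ)) + 1 / (s : ℝ) ^ 4 = ((s : ℝ) ^ 3 + 8) / (8 * (s : ℝ) ^ 4) := by field_simp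
  rw [e, div_lt_div_iff₀ (by positivity) hN, hiB, decide_eq_true_eq, mul_comm _ (pN s : ℝ)]
  exact_mod_cast Iff.rfl

theorem loB_iff (hs : 1024 ≤ s) (c : ℕ) :
    loB s c = true ↔ (c : ℝ) / pN s + 1 / (s : ℝ) ^ 4 < 1 / (8 * (s : ℝ)) := by
  have hs0 : (0 : ℝ) < s := by exact_mod_cast (by omega : 0 < s)
  have hN : (0 : ℝ) < pN s := by exact_mod_cast pN_pos hs
  have e : (c : ℝ) / pN s + 1 / (s : ℝ) ^ 4 = (c * (8 * (s : ℝ) ^ 4) + 8 * pN s) / (pN s * (8 * (s : ℝ) ^ 4)) := by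
    field_simp
  have e' : 1 / (8 * (s : ℝ)) = (pN s * (s : ℝ) ^ 3) / (pN s * (8 * (s : ℝ) ^ 4)) := by field_simp
  rw [e, e', div_lt_div_iff_of_pos_right (by positivity), loB, decide_eq_true_eq]
  exact_mod_cast Iff.rfl

theorem fac_aux {p q L a b ε : ℝ} (h1 : |q - p| ≤ a) (h2 : |L - 1| ≤ b) (h3 : a * b ≤ ε * (1 + p * (L - 1))) :
    (1 - ε) * (1 + p * (L - 1)) ≤ 1 + q * (L - 1) ∧ 1 + q * (L - 1) ≤ (1 + ε) * (1 + p * (L - 1)) := by
  have h4 : |(q - p) * (L - 1)| ≤ a * b := by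
    rw [abs_mul]
    exact mul_le_mul h1 h2 (abs_nonneg _) ((abs_nonneg _).trans h1)
  have h5 := abs_le.1 h4
  constructor <;> nlinarith [h5.1, h5.2]

theorem pJ_dvd_tgtK (n s : ℕ) (tab : List (List Bool)) (e : ℕ) : pJ s ∣ tgtK n s tab e := by
  have h : pJ s ∣ pK s := ⟨_, (pK_eq s).1⟩
  unfold tgtK
  split_ifs
  · exact h
  · exact h.mul_left 2
  · exact dvd_zero _

theorem tgtK_le (n s : ℕ) (tab : List (List Bool)) (e : ℕ) : tgtK n s tab e ≤ 2 * pK s := by
  unfold tgtK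
  split_ifs <;> omega

theorem remX_virt {e : ℕ} (he : isVirt n e = true) (sch : List (ℕ × Bool)) (u : Bool) :
    remX n s tab (sch ++ [(e, u)]) = remX n s tab sch := by
  refine Finset.sum_congr rfl fun e' he' => ?_
  have h1 := (Finset.mem_filter.1 he').2
  have h2 : e ≠ e' := by
    rintro rfl
    rw [not_virt_of_real h1] at he
    exact absurd he (by simp)
  simp [List.count_append, h2]

theorem remX_real {e : ℕ} (he : isReal n e = true) (sch : List (ℕ × Bool)) :
    remX n s tab (sch ++ [(e, true)]) = remX n s tab sch - 1 := by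
  have hm : e ∈ (range (mE n)).filter (fun e => isReal n e = true) :=
    Finset.mem_filter.2 ⟨Finset.mem_range.2 (lt_mE (isReal_lt he)), he⟩
  have h1 : (1 : ℝ) = ∑ e' ∈ (range (mE n)).filter (fun e => isReal n e = true), if e = e' then (1 : ℝ) else 0 := by
    rw [Finset.sum_ite_eq, if_pos hm]
  unfold remX
  rw [h1, ← Finset.sum_sub_distrib]
  refine Finset.sum_congr rfl fun e' _ => ?_
  by_cases h2 : e = e'
  · subst h2
    simp [List.count_append]
    ring
  · simp [List.count_append, h2]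

theorem Par.nxt_cases (h : Par n s) {sch : List (ℕ × Bool)} {k : ℕ → ℤ} {pop : List (List Bool)}
    (hA : Acc n s tab k pop) :
    (∃ e, isVirt n e = true ∧ nxt n s tab sch pop = some (e, true) ∧
      1 / (8 * (s : ℝ)) + 1 / (2 * (s : ℝ) ^ 4) ≤ pm n s k e) ∨
    (∃ e, isVirt n e = true ∧ nxt n s tab sch pop = some (e, false) ∧
      pm n s k e + 1 / (2 * (s : ℝ) ^ 4) ≤ 1 / (8 * (s : ℝ))) ∨
    ((∀ e, isVirt n e = true → |pm n s k e - 1 / (8 * (s : ℝ))| ≤ 2 / (s : ℝ) ^ 4) ∧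
      ((∃ e, isReal n e = true ∧ nxt n s tab sch pop = some (e, true) ∧ pJ s * sch.count (e, true) < tgtK n s tab e) ∨
        (nxt n s tab sch pop = none ∧ ∀ e, isReal n e = true → tgtK n s tab e ≤ pJ s * sch.count (e, true)))) := by
  have hs := h.s_ge'
  have hs0 := h.s_pos
  have hN : (0 : ℝ) < pN s := by exact_mod_cast pN_pos h.s_ge
  have h9 := inv9_le h.s_ge
  have h4 : (0 : ℝ) < (s : ℝ) ^ 4 := by positivity
  have hacc : ∀ e, isVirt n e = true → |(cntE pop e : ℝ) / pN s - pm n s k e| ≤ 1 / (s : ℝ) ^ 9 :=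
    fun e he => hA.2.1 e (lt_mE (isVirt_lt he))
  have e2 : 1 / (2 * (s : ℝ) ^ 4) = 1 / 2 * (1 / (s : ℝ) ^ 4) := by field_simp
  have e3 : 2 / (s : ℝ) ^ 4 = 2 * (1 / (s : ℝ) ^ 4) := by field_simp
  have e4 : (0 : ℝ) < 1 / (s : ℝ) ^ 4 := by positivity
  rcases hf : (List.range (mE n)).find? fun e => isVirt n e && (hiB s (cntE pop e) || loB s (cntE pop e)) with _ | e
  · right; right
    rw [List.find?_eq_none] at hf
    constructor
    · intro e he
      have h1 := hf e (List.mem_range.2 (lt_mE (isVirt_lt he)))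
      simp only [he, Bool.true_and, Bool.or_eq_true, not_or] at h1
      have h2 := (hiB_iff h.s_ge (cntE pop e)).not.1 h1.1
      have h3 := (loB_iff h.s_ge (cntE pop e)).not.1 h1.2
      have h5 := abs_le.1 (hacc e he)
      rw [abs_le]
      constructor <;> linarith [not_lt.1 h2, not_lt.1 h3, h5.1, h5.2]
    · have hf' : ((List.range (mE n)).find? fun e =>
          isVirt n e && (hiB s (cntE pop e) || loB s (cntE pop e))) = none := List.find?_eq_none.2 hf
      rcases hg : (List.range (mE n)).find? fun e =>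
        isReal n e && decide (pJ s * sch.count (e, true) < tgtK n s tab e) with _ | e
      · right
        refine ⟨by simp only [nxt, hf', hg, Option.elim, Option.map], ?_⟩
        rw [List.find?_eq_none] at hg
        intro e he
        have h1 := hg e (List.mem_range.2 (lt_mE (isReal_lt he)))
        simp only [he, Bool.true_and, decide_eq_true_eq, not_lt] at h1
        exact h1
      · left
        have h1 := List.find?_some hg
        simp only [Bool.and_eq_true, decide_eq_true_eq] at h1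
        exact ⟨e, h1.1, by simp only [nxt, hf', hg, Option.elim, Option.map], h1.2⟩
  · have h1 := List.find?_some hf
    simp only [Bool.and_eq_true, Bool.or_eq_true] at h1
    have h5 := abs_le.1 (hacc e h1.1)
    have hn : nxt n s tab sch pop = some (e, hiB s (cntE pop e)) := by
      simp only [nxt, hf, Option.elim]
    by_cases hh : hiB s (cntE pop e) = true
    · left
      refine ⟨e, h1.1, by rw [hn, hh], ?_⟩
      have h2 := (hiB_iff h.s_ge (cntE pop e)).1 hh
      linarith [h5.1, h5.2]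
    · right; left
      have hl : loB s (cntE pop e) = true := h1.2.resolve_left hh
      refine ⟨e, h1.1, by rw [hn, Bool.eq_false_iff.2 hh], ?_⟩
      have h2 := (loB_iff h.s_ge (cntE pop e)).1 hl
      linarith [h5.1, h5.2]

theorem fac_acc (hs : 1024 ≤ s) {c : ℕ} (hc : c ≤ pN s) {p : ℝ} (h0 : 0 ≤ p) (h1 : p ≤ 1)
    (hp : |(c : ℝ) / pN s - p| ≤ 1 / (s : ℝ) ^ 9) (u : Bool) :
    0 < facD s u ∧
    (1 - 5 / (s : ℝ) ^ 14) * (1 + p * (lam s ^ (if u then (pJ s : ℤ) else -(pJ s : ℤ)) - 1)) ≤ (facN s c u : ℝ) / facD s u ∧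
    (facN s c u : ℝ) / facD s u ≤ (1 + 5 / (s : ℝ) ^ 14) * (1 + p * (lam s ^ (if u then (pJ s : ℤ) else -(pJ s : ℤ)) - 1)) := by
  have hs0 : (0 : ℝ) < s := by exact_mod_cast (by omega : 0 < s)
  have hN : 0 < pN s := pN_pos hs
  have hN' : (0 : ℝ) < pN s := by exact_mod_cast hN
  have hB : 2 ≤ pB s := by
    have : s ^ 1 ≤ s ^ 256 := Nat.pow_le_pow_right (by omega) (by norm_num)
    rw [pow_one] at this
    unfold pB; omega
  have hB0 : (0 : ℝ) < pB s := by exact_mod_cast (by omega : 0 < pB s)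
  have hB1 : (0 : ℝ) < ((pB s - 1 : ℕ) : ℝ) := by exact_mod_cast (by omega : 0 < pB s - 1)
  have hl0 := lam_pos hs
  have hl1 := lam_lt_one hs
  have hhalf := half_le_lam_J hs
  have hle1 : lam s ^ pJ s ≤ 1 := pow_le_one₀ hl0.le hl1.le
  have hd : 1 - lam s ^ pJ s ≤ 2 / (s : ℝ) ^ 5 := by
    have h2 := Real.log_le_sub_one_of_pos (pow_pos hl0 (pJ s))
    rw [Real.log_pow] at h2
    linarith [(log_lam_J hs).2]
  have e14 : 1 / (s : ℝ) ^ 9 * (1 / (s : ℝ) ^ 5) = 1 / (s : ℝ) ^ 14 := by field_simp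
  have e5 : 5 / (s : ℝ) ^ 14 = 5 * (1 / (s : ℝ) ^ 14) := by field_simp
  have e2 : 2 / (s : ℝ) ^ 5 = 2 * (1 / (s : ℝ) ^ 5) := by field_simp
  have p14 : (0 : ℝ) < 1 / (s : ℝ) ^ 14 := by positivity
  cases u
  · have hD : 0 < facD s false := by
      simp only [facD, Bool.false_eq_true, if_false]
      exact Nat.mul_pos hN (pow_pos (by omega) _)
    refine ⟨hD, ?_⟩
    simp only [Bool.false_eq_true, if_false, zpow_neg, zpow_natCast]
    have hq : (facN s c false : ℝ) / facD s false = 1 + (c : ℝ) / pN s * ((lam s ^ pJ s)⁻¹ - 1) := by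
      simp only [facN, facD, Bool.false_eq_true, if_false]
      rw [lam_eq hs]
      push_cast [Nat.cast_sub hc]
      generalize ((pB s - 1 : ℕ) : ℝ) = b at hB1
      rw [div_pow]
      field_simp
      ring
    rw [hq]
    generalize lam s ^ pJ s = y at hhalf hle1 hd
    have hy : 0 < y := by linarith
    have hL1 : 1 ≤ y⁻¹ := (one_le_inv₀ hy).2 hle1
    have hL2 : y⁻¹ - 1 ≤ 4 * (1 / (s : ℝ) ^ 5) := by
      have h3 : y⁻¹ ≤ 2 := by rw [inv_le_comm₀ hy (by norm_num)]; linarith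
      have h4 : y⁻¹ - 1 = y⁻¹ * (1 - y) := by field_simp
      rw [h4]
      calc y⁻¹ * (1 - y) ≤ 2 * (2 / (s : ℝ) ^ 5) :=
            mul_le_mul h3 hd (by linarith) (by norm_num)
        _ = 4 * (1 / (s : ℝ) ^ 5) := by rw [e2]; ring
    refine fac_aux (b := 4 * (1 / (s : ℝ) ^ 5)) hp (by rw [abs_of_nonneg (by linarith)]; exact hL2) ?_
    have h6 : 1 ≤ 1 + p * (y⁻¹ - 1) := by nlinarith
    calc 1 / (s : ℝ) ^ 9 * (4 * (1 / (s : ℝ) ^ 5)) = 4 * (1 / (s : ℝ) ^ 14) := by rw [← e14]; ring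
      _ ≤ 5 / (s : ℝ) ^ 14 * 1 := by rw [e5]; linarith
      _ ≤ 5 / (s : ℝ) ^ 14 * (1 + p * (y⁻¹ - 1)) := mul_le_mul_of_nonneg_left h6 (by positivity)
  · have hD : 0 < facD s true := by
      simp only [facD, if_true]
      exact Nat.mul_pos hN (pow_pos (by omega) _)
    refine ⟨hD, ?_⟩
    simp only [if_true, zpow_natCast]
    have hq : (facN s c true : ℝ) / facD s true = 1 + (c : ℝ) / pN s * (lam s ^ pJ s - 1) := by
      simp only [facN, facD, if_true]
      rw [lam_eq hs]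
      push_cast [Nat.cast_sub hc]
      generalize ((pB s - 1 : ℕ) : ℝ) = b at hB1
      rw [div_pow]
      field_simp
      ring
    rw [hq]
    generalize lam s ^ pJ s = y at hhalf hle1 hd
    refine fac_aux (b := 2 * (1 / (s : ℝ) ^ 5)) hp
      (by rw [abs_sub_comm, abs_of_nonneg (by linarith)]; linarith) ?_
    have h6 : 1 / 2 ≤ 1 + p * (y - 1) := by nlinarith
    calc 1 / (s : ℝ) ^ 9 * (2 * (1 / (s : ℝ) ^ 5)) = 2 * (1 / (s : ℝ) ^ 14) := by rw [← e14]; ring
      _ ≤ 5 / (s : ℝ) ^ 14 * (1 / 2) := by rw [e5]; linarith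
      _ ≤ 5 / (s : ℝ) ^ 14 * (1 + p * (y - 1)) := mul_le_mul_of_nonneg_left h6 (by positivity)

theorem Par.sinv_zero (h : Par n s) (tab : List (List Bool)) : SInv n s tab 0 ([], 1, 1, false) := by
  have hZ := h.ZZ_pos 0
  refine ⟨le_rfl, ?_, ?_, ?_, Nat.one_pos, ?_, ?_, ?_, ?_⟩
  · rw [kOf_nil]; exact h.inv_zero
  · intro j _
    have : (micro s ([] : List (ℕ × Bool))).take j = [] := by simp [micro]
    rw [this, kF_nil]
    exact h.inv_zero.good h
  · intro e _
    simp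
  · simp only [kOf_nil, pow_zero, div_self hZ.ne']; norm_num
  · simp only [kOf_nil, pow_zero, div_self hZ.ne']; norm_num
  · intro _
    simp only [kOf_nil, Nat.cast_zero, add_zero, le_refl]
  · intro h1
    simp at h1

theorem SInv.succ_of_done {t : ℕ} {st : CS} (hS : SInv n s tab t st) (h : Par n s) (hd : st.2.2.2 = true) :
    SInv n s tab (t + 1) st := by
  have hr : 0 ≤ ZZ n s (kOf s st.1) / ZZ n s 0 := (div_pos (h.ZZ_pos _) (h.ZZ_pos _)).le
  have he := eps_bounds h.s_ge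
  refine ⟨hS.len.trans (Nat.le_succ _), hS.inv, hS.path, hS.real, hS.den, ?_, ?_, ?_, hS.fin⟩
  · refine le_trans (mul_le_mul_of_nonneg_right ?_ hr) hS.lo
    exact pow_le_pow_of_le_one (by linarith [he.2]) (by linarith [he.1]) (Nat.le_succ _)
  · refine le_trans hS.hi (mul_le_mul_of_nonneg_right ?_ hr)
    exact pow_le_pow_right₀ (by linarith [he.1]) (Nat.le_succ _)
  · intro h1
    rw [hd] at h1
    exact absurd h1 (by simp)

theorem SInv.push {t : ℕ} {st : CS} (hS : SInv n s tab t st) (h : Par n s) (hd : st.2.2.2 = false)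
    {pop : List (List Bool)} (hA : Acc n s tab (kOf s st.1) pop) {e : ℕ} {u : Bool}
    (he : isReal n e = true ∨ isVirt n e = true)
    (hI : Inv n s (addK (kOf s st.1) e (if u then (pJ s : ℤ) else -(pJ s : ℤ))))
    (hr : isReal n e = true → u = true ∧ pJ s * (st.1.count (e, true) + 1) ≤ tgtK n s tab e)
    (hp : 4 * (s : ℝ) ^ 9 * Phi n s (addK (kOf s st.1) e (if u then (pJ s : ℤ) else -(pJ s : ℤ))) +
      remX n s tab (st.1 ++ [(e, u)]) + 1 ≤ 4 * (s : ℝ) ^ 9 * Phi n s (kOf s st.1) + remX n s tab st.1) :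
    SInv n s tab (t + 1) (st.1 ++ [(e, u)], st.2.1 * facN s (cntE pop e) u, st.2.2.1 * facD s u, false) := by
  have hk : kOf s (st.1 ++ [(e, u)]) = addK (kOf s st.1) e (if u then (pJ s : ℤ) else -(pJ s : ℤ)) :=
    kOf_concat _ _
  have hlt : e < mE n := he.elim (fun h1 => lt_mE (isReal_lt h1)) fun h1 => lt_mE (isVirt_lt h1)
  have hc : cntE pop e ≤ pN s := by
    rw [← hA.1]
    exact List.countP_le_length
  obtain ⟨hD, hlo, hhi⟩ := fac_acc h.s_ge hc (h.prB_nonneg (kOf s st.1) fun X => bt X e)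
    (h.prB_le_one (kOf s st.1) fun X => bt X e) (hA.2.1 e hlt) u
  have hZ := h.ZZ_addK (kOf s st.1) e (if u then (pJ s : ℤ) else -(pJ s : ℤ))
  have hZ0 := h.ZZ_pos 0
  have hZ1 := h.ZZ_pos (kOf s st.1)
  have hF : 0 < 1 + pm n s (kOf s st.1) e * (lam s ^ (if u then (pJ s : ℤ) else -(pJ s : ℤ)) - 1) := by
    have h1 := h.ZZ_pos (addK (kOf s st.1) e (if u then (pJ s : ℤ) else -(pJ s : ℤ)))
    rw [hZ] at h1
    exact (pos_iff_pos_of_mul_pos h1).1 hZ1
  have heps := eps_bounds h.s_ge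
  have hq : (((st.2.1 * facN s (cntE pop e) u : ℕ) : ℝ)) / ((st.2.2.1 * facD s u : ℕ) : ℝ) =
      (st.2.1 : ℝ) / st.2.2.1 * ((facN s (cntE pop e) u : ℝ) / facD s u) := by
    push_cast
    rw [mul_div_mul_comm]
  refine ⟨?_, ?_, ?_, ?_, Nat.mul_pos hS.den hD, ?_, ?_, ?_, fun h1 => absurd h1 (by simp)⟩
  · simp only [List.length_append, List.length_singleton]
    exact Nat.succ_le_succ hS.len
  · simp only [hk]
    exact hI
  · intro j _
    simp only [micro_concat]
    by_cases hj : j ≤ (micro s st.1).length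
    · rw [List.take_append_of_le_length hj]
      exact hS.path j hj
    · rw [List.take_append, List.take_of_length_le (by omega), List.take_replicate, kF_append_replicate]
      refine hS.inv.good_addK h he ?_
      have := Nat.min_le_right (j - (micro s st.1).length) (pJ s)
      split_ifs <;> simp only [Int.natAbs_neg, Int.natAbs_natCast] <;> exact this
  · intro e' he'
    have h1 := hS.real e' he'
    by_cases h2 : e = e'
    · subst h2
      obtain ⟨rfl, h3⟩ := hr he'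
      simpa [List.count_append, h1.1] using h3
    · simpa [List.count_append, h2] using h1
  · simp only [hk, hq, hZ]
    calc (1 - 5 / (s : ℝ) ^ 14) ^ (t + 1) * (ZZ n s (kOf s st.1) *
          (1 + pm n s (kOf s st.1) e * (lam s ^ (if u then (pJ s : ℤ) else -(pJ s : ℤ)) - 1)) / ZZ n s 0)
        = ((1 - 5 / (s : ℝ) ^ 14) ^ t * (ZZ n s (kOf s st.1) / ZZ n s 0)) * ((1 - 5 / (s : ℝ) ^ 14) *
          (1 + pm n s (kOf s st.1) e * (lam s ^ (if u then (pJ s : ℤ) else -(pJ s : ℤ)) - 1))) := by ring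
      _ ≤ _ := mul_le_mul hS.lo hlo (mul_nonneg (by linarith [heps.2]) hF.le) (by positivity)
  · simp only [hk, hq, hZ]
    calc _ ≤ ((1 + 5 / (s : ℝ) ^ 14) ^ t * (ZZ n s (kOf s st.1) / ZZ n s 0)) * ((1 + 5 / (s : ℝ) ^ 14) *
          (1 + pm n s (kOf s st.1) e * (lam s ^ (if u then (pJ s : ℤ) else -(pJ s : ℤ)) - 1))) :=
          mul_le_mul hS.hi hhi (by positivity) (by positivity)
      _ = _ := by ring
  · intro _
    have h1 := hS.pot hd
    simp only [hk]
    push_cast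
    linarith

theorem SInv.upd {t : ℕ} {st : CS} (hS : SInv n s tab t st) (h : Par n s) (hd : st.2.2.2 = false)
    {pop : List (List Bool)} (hA : Acc n s tab (kOf s st.1) pop) : SInv n s tab (t + 1) (upd n s tab st pop) := by
  have hs0 := h.s_pos
  have hkr : ∀ e, isReal n e = true → kOf s st.1 e = ((pJ s * st.1.count (e, true) : ℕ) : ℤ) := by
    intro e he
    rw [kOf_eq, kF, (hS.real e he).1]
    push_cast
    ring
  rcases h.nxt_cases (tab := tab) (sch := st.1) hA with ⟨e, he, hn, hp⟩ | ⟨e, he, hn, hp⟩ | ⟨hnear, ⟨e, he, hn, hp⟩ | ⟨hn, hp⟩⟩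
  · simp only [Crest.Agent.R304.upd, hn, Option.elim]
    refine hS.push h hd hA (Or.inr he) (hS.inv.step_hi h he hp) ?_ ?_
    · intro hr
      rw [not_virt_of_real hr] at he
      exact absurd he (by simp)
    · rw [remX_virt he]
      have := h.drop_hi he hp
      simp only [if_true]
      linarith
  · simp only [Crest.Agent.R304.upd, hn, Option.elim]
    refine hS.push h hd hA (Or.inr he) (hS.inv.step_lo h he hp) ?_ ?_
    · intro hr
      rw [not_virt_of_real hr] at he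
      exact absurd he (by simp)
    · rw [remX_virt he]
      have := h.drop_lo he hp
      simp only [Bool.false_eq_true, if_false]
      linarith
  · simp only [Crest.Agent.R304.upd, hn, Option.elim]
    have h1 : pJ s * (st.1.count (e, true) + 1) ≤ tgtK n s tab e := by
      obtain ⟨m, hm⟩ := pJ_dvd_tgtK n s tab e
      rw [hm] at hp ⊢
      exact Nat.mul_le_mul_left _ (Nat.lt_of_mul_lt_mul_left hp)
    have h2 : kOf s st.1 e + pJ s ≤ (2 * pK s : ℕ) := by
      rw [hkr e he]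
      have h3 := h1.trans (tgtK_le n s tab e)
      rw [Nat.mul_add, mul_one] at h3
      exact_mod_cast h3
    refine hS.push h hd hA (Or.inl he) (hS.inv.step_x h he h2 hnear) (fun _ => ⟨rfl, h1⟩) ?_
    rw [remX_real he]
    have h4 := h.drop_x (kOf s st.1) he
    have h5 : (0 : ℝ) ≤ 4 * (s : ℝ) ^ 9 := by positivity
    have := mul_le_mul_of_nonneg_left h4 h5
    simp only [if_true]
    linarith
  · simp only [Crest.Agent.R304.upd, hn, Option.elim]
    have hfin : Fin' n s tab (kOf s st.1) := by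
      refine ⟨hS.inv.zero, fun e he => ?_, fun e he => ?_⟩
      · rw [hkr e he, le_antisymm (hS.real e he).2 (hp e he)]
      · have h1 := (abs_le.1 (hnear e he)).2
        have hs := h.s_ge'
        have h2 : 2 / (s : ℝ) ^ 4 ≤ 1 / (8 * (s : ℝ)) := by
          rw [div_le_div_iff₀ (by positivity) (by positivity)]
          have h3 : (16 : ℝ) ≤ (s : ℝ) ^ 3 :=
            le_trans (by norm_num) (pow_le_pow_left₀ (by norm_num) hs 3)
          nlinarith
        have h3 : 1 / (4 * (s : ℝ)) = 1 / (8 * (s : ℝ)) + 1 / (8 * (s : ℝ)) := by field_simp; norm_num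
        linarith
    have hS' : SInv n s tab t (st.1, st.2.1, st.2.2.1, true) :=
      ⟨hS.len, hS.inv, hS.path, hS.real, hS.den, hS.lo, hS.hi, fun h1 => absurd h1 (by simp), fun _ => hfin⟩
    exact hS'.succ_of_done h rfl

theorem SInv.stage {t : ℕ} {st : CS} (hS : SInv n s tab t st) (h : Par n s) {us : List ℕ}
    (hA : Acc n s tab (kOf s st.1) (run n s st.1 us)) : SInv n s tab (t + 1) (stage n s tab st us) := by
  unfold Crest.Agent.R304.stage
  split_ifs with hd
  · exact hS.succ_of_done h hd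
  · exact hS.upd h (Bool.eq_false_iff.2 hd) hA

theorem SInv.done {st : CS} (hS : SInv n s tab (pT s) st) (h : Par n s) : st.2.2.2 = true := by
  by_contra hd
  have hp := hS.pot (Bool.eq_false_iff.2 hd)
  have hs := h.s_ge'
  have hs0 := h.s_pos
  have hJ : (0 : ℝ) < pJ s := by exact_mod_cast pJ_pos h.s_ge
  have h1 : 0 ≤ remX n s tab st.1 := by
    refine Finset.sum_nonneg fun e he => ?_
    have h2 := (hS.real e (Finset.mem_filter.1 he).2).2
    rw [sub_nonneg, le_div_iff₀ hJ, mul_comm]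
    exact_mod_cast h2
  have h2 : remX n s tab [] ≤ 4 * (s : ℝ) ^ 7 := by
    have h3 : ∀ e ∈ (range (mE n)).filter (fun e => isReal n e = true),
        ((tgtK n s tab e : ℝ) / pJ s - ([] : List (ℕ × Bool)).count (e, true)) ≤ 4 * (s : ℝ) ^ 6 := by
      intro e _
      rw [List.count_nil, Nat.cast_zero, sub_zero, div_le_iff₀ hJ]
      have h4 := tgtK_le n s tab e
      rw [(pK_eq s).1] at h4
      have h5 : (tgtK n s tab e : ℝ) ≤ ((2 * (pJ s * (2 * s ^ 6)) : ℕ) : ℝ) := by exact_mod_cast h4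
      push_cast at h5
      linarith
    have h4 := Finset.sum_le_card_nsmul _ _ _ h3
    have h5 : ((range (mE n)).filter (fun e => isReal n e = true)).card ≤ s := by
      refine (Finset.card_filter_le _ _).trans ?_
      rw [Finset.card_range]
      exact h.mE_lt.le
    have h6 : ((((range (mE n)).filter (fun e => isReal n e = true)).card : ℕ) : ℝ) ≤ s := by exact_mod_cast h5
    rw [nsmul_eq_mul] at h4
    calc remX n s tab [] ≤ _ := h4
      _ ≤ s * (4 * (s : ℝ) ^ 6) := mul_le_mul_of_nonneg_right h6 (by positivity)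
      _ = 4 * (s : ℝ) ^ 7 := by ring
  have h9 : (0 : ℝ) ≤ 4 * (s : ℝ) ^ 9 := by positivity
  have h3 := mul_le_mul_of_nonneg_left (hS.inv.Phi_ge h) h9
  have h4 := mul_le_mul_of_nonneg_left h.Phi_zero_le h9
  have h5 : ((pT s : ℕ) : ℝ) = (s : ℝ) ^ 12 := by simp [pT]
  rw [h5] at hp
  have h6 : (s : ℝ) ^ 7 ≤ (s : ℝ) ^ 11 := pow_le_pow_right₀ (by linarith) (by norm_num)
  have h7 : (s : ℝ) ^ 10 ≤ (s : ℝ) ^ 11 := pow_le_pow_right₀ (by linarith) (by norm_num)
  have h8 : 1024 * (s : ℝ) ^ 11 ≤ (s : ℝ) ^ 12 := by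
    rw [pow_succ' (s : ℝ) 11]
    exact mul_le_mul_of_nonneg_right hs (by positivity)
  have h10 : (0 : ℝ) < (s : ℝ) ^ 11 := by positivity
  have e1 : 4 * (s : ℝ) ^ 9 * -(8 * (s : ℝ) ^ 2) = -(32 * (s : ℝ) ^ 11) := by ring
  have e2 : 4 * (s : ℝ) ^ 9 * s = 4 * (s : ℝ) ^ 10 := by ring
  linarith

end Crest.Agent.R304
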