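import Crest.Agent.R304.RunTV
import Crest.Agent.R304.Upd
import Crest.Agent.R304.PMc

/-!
# Row 304: Est
* `stages_law`: induction on `t`; `stages (t+1) (us ++ us') = stage (stages t us) us'` for `us` of length `t * pL1`; `ind (¬ SInv (t+1)) ≤ ind (¬ SInv t) + ind (SInv t ∧ ¬ Acc)`; `run_acc`, `SInv.stage`.
* `outN_near`: with `p / q` the exact quotient, `p / q = N * ρ * (ĉ / P)`, `ρ ∈ [(1 - η)^T, (1 + η)^T]`, `T η = 5 / s^2`, `|ĉ / P - 1| ≤ 2 / s^9` (`ZZ_zero`, `prB_pm`, `prB_pm_ge`, `lam_eq`); so `|p / q - N| ≤ N / (2 s)`;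
  `|rnd p q - p / q| ≤ 1/2` and `N` is an integer, so `|rnd p q - N| ≤ 2 |p / q - N|`.
* `est_law`: `pL2 = pT * pL1 + pL1`, failure probability `≤ (T + 1) / (16 s^12) ≤ 1/8`.
* `est_zero`: `pmB_pos`, so the count is `0`.
-/

set_option autoImplicit false

noncomputable section

namespace Crest.Agent.R304

open Finset
open scoped symmDiff
open Crest.Agent.R309 (avgN avgL Tape digs ind blk)

variable {n s : ℕ}

open Crest.Matchings

variable {tab : List (List Bool)} {G : SimpleGraph (Fin n)} [DecidableRel G.Adj]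

theorem est_blk_lt {b t j : ℕ} {us : List ℕ} (h : us.length = t * b) (us' : List ℕ) (hj : j < t) :
    blk b j (us ++ us') = blk b j us := by
  have h1 : (j + 1) * b ≤ t * b := Nat.mul_le_mul_right b hj
  rw [Nat.succ_mul] at h1
  unfold blk
  rw [List.drop_append_of_le_length (by omega), List.take_append_of_le_length]
  rw [List.length_drop]; omega

theorem est_blk_last {b t : ℕ} {us us' : List ℕ} (h : us.length = t * b) (h' : us'.length = b) :
    blk b t (us ++ us') = us' := by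
  unfold blk
  rw [List.drop_left' h, ← h', List.take_length]

theorem est_stages_append {t : ℕ} {us : List ℕ} (h : us.length = t * pL1 s) (us' : List ℕ) :
    stages n s tab t (us ++ us') = stages n s tab t us := by
  unfold stages
  refine List.foldl_ext _ _ _ fun st j hj => ?_
  rw [est_blk_lt h us' (List.mem_range.1 hj)]

theorem est_stages_succ {t : ℕ} {us us' : List ℕ} (h : us.length = t * pL1 s) (h' : us'.length = pL1 s) :
    stages n s tab (t + 1) (us ++ us') = stage n s tab (stages n s tab t us) us' := by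
  rw [← est_stages_append h us']
  unfold stages
  rw [List.range_succ, List.foldl_append, List.foldl_cons, List.foldl_nil, est_blk_last h h']

/-- one more block: an event that fails only if the invariant or the accuracy fails -/
theorem est_step (h : Par n s) {t : ℕ} (ht : t ≤ pT s) (E : List ℕ → Prop)
    (hE : ∀ us us', us.length = t * pL1 s → us'.length = pL1 s → SInv n s tab t (stages n s tab t us) →
      Acc n s tab (kOf s (stages n s tab t us).1) (run n s (stages n s tab t us).1 us') → E (us ++ us')) :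
    avgL (pBs s) ((t + 1) * pL1 s) (fun us => ind (¬ E us)) ≤
      avgL (pBs s) (t * pL1 s) (fun us => ind (¬ SInv n s tab t (stages n s tab t us))) +
        1 / (16 * (s : ℝ) ^ 12) := by
  have hB := pBs_pos h.s_ge
  have hs := h.s_pos
  rw [Nat.succ_mul, R309.avgL_append, ← R309.avgL_const hB (t * pL1 s) (1 / (16 * (s : ℝ) ^ 12)),
    ← R309.avgL_add]
  refine R309.avgL_mono fun us hus => ?_
  by_cases hS : SInv n s tab t (stages n s tab t us)
  · rw [R309.ind_of_not (not_not.2 hS), zero_add]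
    refine le_trans (R309.avgL_mono fun us' hus' => ?_) (h.run_acc tab hS.path (hS.len.trans ht))
    exact R309.ind_mono fun hn hA => hn (hE us us' hus.1 hus'.1 hS hA)
  · rw [R309.ind_of hS]
    have h1 : avgL (pBs s) (pL1 s) (fun us' => ind (¬ E (us ++ us'))) ≤ 1 :=
      (R309.avgL_mono fun us' _ => R309.ind_le_one _).trans (R309.avgL_const hB _ 1).le
    have h2 : (0 : ℝ) ≤ 1 / (16 * (s : ℝ) ^ 12) := by positivity
    linarith

theorem Par.stages_law (h : Par n s) (tab : List (List Bool)) {t : ℕ} (ht : t ≤ pT s) :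
    avgL (pBs s) (t * pL1 s) (fun us => ind (¬ SInv n s tab t (stages n s tab t us))) ≤ t / (16 * (s : ℝ) ^ 12) := by
  induction t with
  | zero =>
    have : stages n s tab 0 [] = ([], 1, 1, false) := rfl
    simp only [Nat.zero_mul, avgL, this, Nat.cast_zero, zero_div]
    rw [R309.ind_of_not (not_not.2 (h.sinv_zero tab))]
  | succ t ih =>
    have h1 := est_step (tab := tab) h (Nat.le_of_succ_le ht)
      (fun us => SInv n s tab (t + 1) (stages n s tab (t + 1) us)) fun us us' hl hl' hS hA => by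
        rw [est_stages_succ hl hl']
        exact hS.stage h hA
    have h2 := ih (Nat.le_of_succ_le ht)
    push_cast
    rw [add_div]
    linarith

theorem rnd_near {p q N : ℕ} (hq : 0 < q) : |(rnd p q : ℝ) - N| ≤ 2 * |(p : ℝ) / q - N| := by
  have hq' : (0 : ℝ) < q := by exact_mod_cast hq
  have h1 : rnd p q * (2 * q) ≤ 2 * p + q := Nat.div_mul_le_self _ _
  have h2 : 2 * p + q < (rnd p q + 1) * (2 * q) := by
    unfold rnd
    exact (Nat.div_lt_iff_lt_mul (by omega)).1 (Nat.lt_succ_self _)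
  have h1' : (rnd p q : ℝ) * (2 * q) ≤ 2 * p + q := by exact_mod_cast h1
  have h2' : 2 * (p : ℝ) + q < ((rnd p q : ℝ) + 1) * (2 * q) := by exact_mod_cast h2
  have h3 : (rnd p q : ℝ) - 1 / 2 ≤ (p : ℝ) / q := by
    rw [le_div_iff₀ hq']; linarith
  have h4 : (p : ℝ) / q ≤ (rnd p q : ℝ) + 1 / 2 := by
    rw [div_le_iff₀ hq']; linarith
  rcases lt_trichotomy (rnd p q) N with hl | hl | hl
  · have : (rnd p q : ℝ) + 1 ≤ N := by exact_mod_cast hl
    rw [abs_of_nonpos (by linarith), abs_of_nonpos (by linarith)]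
    linarith
  · rw [hl, sub_self, abs_zero]; positivity
  · have : (N : ℝ) + 1 ≤ rnd p q := by exact_mod_cast hl
    rw [abs_of_nonneg (by linarith), abs_of_nonneg (by linarith)]
    linarith

theorem est_pow_lo (hs : 1024 ≤ s) : 1 - 5 / (s : ℝ) ^ 2 ≤ (1 - 5 / (s : ℝ) ^ 14) ^ pT s := by
  have hs' : (1024 : ℝ) ≤ s := by exact_mod_cast hs
  have hs0 : (0 : ℝ) < s := by linarith
  have h1 : (5 : ℝ) / (s : ℝ) ^ 14 ≤ 1 := by
    rw [div_le_one (by positivity)]
    calc (5 : ℝ) ≤ s := by linarith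
      _ = (s : ℝ) ^ 1 := (pow_one _).symm
      _ ≤ (s : ℝ) ^ 14 := pow_le_pow_right₀ (by linarith) (by norm_num)
  have h2 := one_add_mul_le_pow (a := -(5 / (s : ℝ) ^ 14)) (by linarith) (pT s)
  have h3 : ((pT s : ℕ) : ℝ) * -(5 / (s : ℝ) ^ 14) = -(5 / (s : ℝ) ^ 2) := by
    unfold pT; push_cast; field_simp
  rw [h3] at h2
  simpa only [sub_eq_add_neg] using h2

theorem est_pow_hi (hs : 1024 ≤ s) : (1 + 5 / (s : ℝ) ^ 14) ^ pT s ≤ 1 + 10 / (s : ℝ) ^ 2 := by
  have hs' : (1024 : ℝ) ≤ s := by exact_mod_cast hs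
  have hs0 : (0 : ℝ) < s := by linarith
  have h0 : (0 : ℝ) ≤ 5 / (s : ℝ) ^ 2 := by positivity
  have h1 : (5 : ℝ) / (s : ℝ) ^ 2 ≤ 1 := by
    rw [div_le_one (by positivity)]; nlinarith
  have h2 : (1 + 5 / (s : ℝ) ^ 14) ^ pT s ≤ Real.exp (5 / (s : ℝ) ^ 14) ^ pT s :=
    pow_le_pow_left₀ (by positivity) (by linarith [Real.add_one_le_exp (5 / (s : ℝ) ^ 14)]) _
  have h3 : ((pT s : ℕ) : ℝ) * (5 / (s : ℝ) ^ 14) = 5 / (s : ℝ) ^ 2 := by
    unfold pT; push_cast; field_simp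
  rw [← Real.exp_nat_mul, h3] at h2
  have h4 := (abs_le.1 (Real.abs_exp_sub_one_sub_id_le (x := 5 / (s : ℝ) ^ 2)
    (by rw [abs_of_nonneg h0]; exact h1))).2
  have h5 : (10 : ℝ) / (s : ℝ) ^ 2 = 2 * (5 / (s : ℝ) ^ 2) := by ring
  rw [h5]
  nlinarith

theorem est_num {σ ρ τ : ℝ} (hσ : 1024 ≤ σ) (h1 : 1 - 5 / σ ^ 2 ≤ ρ) (h2 : ρ ≤ 1 + 10 / σ ^ 2)
    (h3 : |τ - 1| ≤ 2 / σ ^ 9) : |ρ * τ - 1| ≤ 1 / (2 * σ) := by
  have hσ0 : 0 < σ := by linarith
  have ha : 10 / σ ^ 2 ≤ 1 / (8 * σ) := by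
    rw [div_le_div_iff₀ (by positivity) (by positivity)]; nlinarith
  have ha' : 5 / σ ^ 2 ≤ 10 / σ ^ 2 := by gcongr; norm_num
  have hb : 2 / σ ^ 9 ≤ 1 / (8 * σ) := by
    have : σ ^ 2 ≤ σ ^ 9 := pow_le_pow_right₀ (by linarith) (by norm_num)
    rw [div_le_div_iff₀ (by positivity) (by positivity)]; nlinarith
  have hc : 1 / (8 * σ) ≤ 1 := by
    rw [div_le_one (by positivity)]; linarith
  have hd : 1 / (2 * σ) = 4 * (1 / (8 * σ)) := by field_simp; norm_num
  rw [hd]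
  generalize 1 / (8 * σ) = ε at *
  have h4 : |ρ - 1| ≤ ε := abs_le.2 ⟨by linarith, by linarith⟩
  have h5 : |τ - 1| ≤ ε := h3.trans hb
  have hε : 0 ≤ ε := (abs_nonneg _).trans h4
  have h6 : ρ * τ - 1 = (ρ - 1) * (τ - 1) + (ρ - 1) + (τ - 1) := by ring
  have h7 : |(ρ - 1) * (τ - 1)| ≤ ε := by
    rw [abs_mul]
    calc |ρ - 1| * |τ - 1| ≤ ε * 1 := mul_le_mul h4 (h5.trans hc) (abs_nonneg _) hε
      _ = ε := mul_one _
  rw [h6]
  have := abs_add_three ((ρ - 1) * (τ - 1)) (ρ - 1) (τ - 1)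
  linarith

theorem SInv.outN_near {st : CS} (hS : SInv n s tab (pT s) st) (h : Par n s) (hT : TabOf G tab)
    (hN : 0 < numPerfectMatchings G) {c : ℕ}
    (hc : |(c : ℝ) / pN s - prB n s (kOf s st.1) (pmB n tab)| ≤ 1 / (s : ℝ) ^ 9) :
    Near s (numPerfectMatchings G) (outN n s st c) := by
  have hs := h.s_ge
  have hs0 := h.s_pos
  have hF := hS.fin (hS.done h)
  have hP := hF.prB_pm h hT
  have hP2 := hF.prB_pm_ge h hT hN
  have hZ := h.ZZ_pos (kOf s st.1)
  have hZ0 := h.ZZ_zero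
  have hZ0' := h.ZZ_pos 0
  have hlam := lam_pos hs
  have hlam' := lam_eq hs
  have hpN : (0 : ℝ) < pN s := by exact_mod_cast pN_pos hs
  have hD : (0 : ℝ) < st.2.2.1 := by exact_mod_cast hS.den
  have hN' : (0 : ℝ) < numPerfectMatchings G := by exact_mod_cast hN
  have hB : (0 : ℝ) < pB s := by unfold pB; push_cast; positivity
  have hB1 : (0 : ℝ) < ((pB s - 1 : ℕ) : ℝ) := by
    have := mul_pos hlam hB
    rwa [hlam', div_mul_cancel₀ _ hB.ne'] at this
  have hB1' : 0 < pB s - 1 := by exact_mod_cast hB1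
  have hlo := hS.lo
  have hhi := hS.hi
  set P := prB n s (kOf s st.1) (pmB n tab) with hPdef
  set Z := ZZ n s (kOf s st.1) with hZdef
  set N := numPerfectMatchings G with hNdef
  set K := pK s * (n / 2) with hK
  have hP0 : 0 < P := by linarith
  have hq : 0 < st.2.2.1 * pN s * 2 ^ n * (pB s - 1) ^ K :=
    Nat.mul_pos (Nat.mul_pos (Nat.mul_pos hS.den (pN_pos hs)) (Nat.pow_pos (by norm_num))) (Nat.pow_pos hB1')
  have hr := rnd_near (p := 2 ^ (mE n + 1 - nV n) * st.2.1 * c * pB s ^ K) (N := N) hq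
  set ρ : ℝ := (st.2.1 : ℝ) / st.2.2.1 / (Z / ZZ n s 0) with hρ
  set τ : ℝ := (c : ℝ) / pN s / P with hτ
  have hZZ : 0 < Z / ZZ n s 0 := div_pos hZ hZ0'
  have hρ1 : 1 - 5 / (s : ℝ) ^ 2 ≤ ρ := (est_pow_lo hs).trans ((le_div_iff₀ hZZ).2 hlo)
  have hρ2 : ρ ≤ 1 + 10 / (s : ℝ) ^ 2 := ((div_le_iff₀ hZZ).2 hhi).trans (est_pow_hi hs)
  have hτ1 : |τ - 1| ≤ 2 / (s : ℝ) ^ 9 := by
    have e1 : τ - 1 = ((c : ℝ) / pN s - P) / P := by rw [hτ]; field_simp
    rw [e1, abs_div, abs_of_pos hP0, div_le_iff₀ hP0]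
    refine hc.trans ?_
    have e2 : (0 : ℝ) ≤ 2 / (s : ℝ) ^ 9 := by positivity
    calc 1 / (s : ℝ) ^ 9 = 2 / (s : ℝ) ^ 9 * (1 / 2) := by ring
      _ ≤ 2 / (s : ℝ) ^ 9 * P := mul_le_mul_of_nonneg_left hP2 e2
  have hnum := est_num h.s_ge' hρ1 hρ2 hτ1
  have hquot : ((2 ^ (mE n + 1 - nV n) * st.2.1 * c * pB s ^ K : ℕ) : ℝ) /
      ((st.2.2.1 * pN s * 2 ^ n * (pB s - 1) ^ K : ℕ) : ℝ) = N * (ρ * τ) := by
    rw [hlam', div_pow] at hP
    have hX : (0 : ℝ) < ((pB s - 1 : ℕ) : ℝ) ^ K := pow_pos hB1 K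
    have hY : (0 : ℝ) < (pB s : ℝ) ^ K := pow_pos hB K
    have hW : (0 : ℝ) < (2 : ℝ) ^ n := by positivity
    simp only [Nat.cast_mul, Nat.cast_pow, Nat.cast_ofNat]
    rw [← hZ0, hρ, hτ]
    generalize ((pB s - 1 : ℕ) : ℝ) ^ K = X at *
    generalize (pB s : ℝ) ^ K = Y at *
    generalize (2 : ℝ) ^ n = W at *
    have hZe : Z = W * N * (X / Y) / P := by rw [← hP]; field_simp
    rw [hZe]
    field_simp
  rw [hquot] at hr
  have e3 : (N : ℝ) * (ρ * τ) - N = N * (ρ * τ - 1) := by ring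
  rw [e3, abs_mul, abs_of_pos hN'] at hr
  have e4 : 2 * ((N : ℝ) * |ρ * τ - 1|) ≤ 1 / (s : ℝ) * N := by
    calc 2 * ((N : ℝ) * |ρ * τ - 1|) ≤ 2 * ((N : ℝ) * (1 / (2 * (s : ℝ)))) := by gcongr
      _ = 1 / (s : ℝ) * N := by field_simp
  have e5 := abs_le.1 (hr.trans e4)
  unfold Near outN
  constructor <;> linarith [e5.1, e5.2]

theorem Par.est_law (h : Par n s) (hT : TabOf G tab) (hN : 0 < numPerfectMatchings G) :
    7 / 8 ≤ avgL (pBs s) (pL2 s) fun us => ind (Near s (numPerfectMatchings G) (est n s tab us)) := by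
  have hB := pBs_pos h.s_ge
  have hs := h.s_pos
  have h1 := est_step (tab := tab) h le_rfl
    (fun us => Near s (numPerfectMatchings G) (est n s tab us)) fun us us' hl hl' hS hA => by
      unfold est estOf
      rw [est_stages_append hl, est_blk_last hl hl']
      exact hS.outN_near h hT hN hA.2.2
  have h2 := h.stages_law tab (le_refl (pT s))
  have h3 : ((pT s : ℕ) : ℝ) / (16 * (s : ℝ) ^ 12) = 1 / 16 := by
    unfold pT; push_cast; field_simp
  have h4 : 1 / (16 * (s : ℝ) ^ 12) ≤ 1 / 16 := by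
    have : (1 : ℝ) ≤ (s : ℝ) ^ 12 := one_le_pow₀ (by linarith [h.s_ge'])
    rw [div_le_div_iff₀ (by positivity) (by norm_num)]; linarith
  have h5 : avgL (pBs s) (pL2 s) (fun us => ind (Near s (numPerfectMatchings G) (est n s tab us))) +
      avgL (pBs s) (pL2 s) (fun us => ind (¬ Near s (numPerfectMatchings G) (est n s tab us))) = 1 := by
    rw [← R309.avgL_add, ← R309.avgL_const hB (pL2 s) 1]
    exact R309.avgL_congr fun us _ => by rw [R309.ind_not]; ring
  change avgL (pBs s) (pL2 s) _ ≤ _ at h1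
  linarith

theorem est_zero (hT : TabOf G tab) (hN : numPerfectMatchings G = 0) (us : List ℕ) : est n s tab us = 0 := by
  have h0 : ∀ l : List (List Bool), l.countP (pmB n tab) = 0 := fun l =>
    List.countP_eq_zero.2 fun X _ hX => by have := pmB_pos hT hX; omega
  unfold est estOf outN rnd
  rw [h0, Nat.mul_zero, Nat.zero_mul, Nat.mul_zero, Nat.zero_add]
  generalize (stages n s tab (pT s) us).2.2.1 * pN s * 2 ^ n * (pB s - 1) ^ (pK s * (n / 2)) = q
  rcases Nat.eq_zero_or_pos q with rfl | hq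
  · rfl
  · exact Nat.div_eq_of_lt (by omega)

end Crest.Agent.R304
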