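import Crest.Agent.R304.Count

/-!
# Row 304: Fam
The exponential family `k ↦ piS n s k`.
* `pos`: `X ∆ cc u v` lies in the sector `pr u v`.
* `ZZ_addK`: `wt` is multiplied by `lam ^ j` iff `e ∈ X`.  `pi_addK`: the ratio of the weights and the ratio of the partition functions both lie between `1` and `lam ^ j`.
* `jensen`: `ZZ k' / ZZ k = ∑ piS k X * exp (y X)` with `y X = ∑_{e ∈ X} (k' e - k e) log lam`, and `exp y ≥ exp ȳ (1 + y - ȳ)`.
* `odds`: `O = cc (src e') (tgt e') ∆ {e'}` for `e' = rE n e` is even, contains `e` and `e'`, and all its other edges are path edges (weight one; `cB_diff`, `src_div`, `rE_real`); `X ↦ X ∆ O` is an involution of the `T`-joins that exchanges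
  `e ∈ X` and `e ∉ X`, and for `e ∉ X` the weight is multiplied by `lam ^ (k e ± k e')`.
* `closure`: `X ↦ X ∆ cc u v` is a bijection of the sector onto the `T`-joins.  Same vertex: the weight is kept.  Otherwise, with `y = lam ^ k ε`, `p = pm ε`: `Z (pr u v) = ZZ ((1-p) y + p / y)`, so the ratio is at most
  `max (1 / (1-p)) (1 / p)`.
-/

set_option autoImplicit false

noncomputable section

namespace Crest.Agent.R304

open Finset
open scoped symmDiff
open Crest.Agent.R309 (avgN avgL Tape digs ind blk)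

variable {n s : ℕ}

theorem Par.pos (h : Par n s) (k : ℕ → ℤ) : (mdl n s k).Pos := by
  have hx : ∀ e, 0 < (mdl n s k).x e := fun e => zpow_pos (lam_pos h.s_ge) _
  obtain ⟨X⟩ := h.nonempty_St
  have hX : X.1 ∈ (mdl n s k).Om 0 := mem_Om_mdl.2 X.2
  refine ⟨hx, sum_pos (fun Y _ => wt_pos hx Y) ⟨X.1, hX⟩, fun u v hu hv =>
    sum_pos (fun Y _ => wt_pos hx Y) ⟨X.1 ∆ cc n u v, ?_⟩⟩
  have := Model.symmDiff_mem_Om hX (cc n u v)
  rwa [zero_add, show (mdl n s k).bd (cc n u v) = pr u v from bd_cc (isV_iff.1 hu) (isV_iff.1 hv)] at this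

theorem Par.ZZ_pos (h : Par n s) (k : ℕ → ℤ) : 0 < ZZ n s k := by
  exact (h.pos k).Z0

theorem Par.piS_pos (h : Par n s) (k : ℕ → ℤ) (X : St n) : 0 < piS n s k X := by
  exact div_pos (wt_pos (h.pos k).x_pos _) (h.ZZ_pos k)

theorem Par.sum_piS (h : Par n s) (k : ℕ → ℤ) : ∑ X : St n, piS n s k X = 1 := by
  exact (sum_St k ((mdl n s k).pi 0)).trans (Model.sum_pi (h.ZZ_pos k))

theorem Par.prB_nonneg (h : Par n s) (k : ℕ → ℤ) (p : List Bool → Bool) : 0 ≤ prB n s k p := by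
  exact sum_nonneg fun X _ => mul_nonneg (h.piS_pos k X).le (R309.ind_nonneg _)

theorem Par.prB_le_one (h : Par n s) (k : ℕ → ℤ) (p : List Bool → Bool) : prB n s k p ≤ 1 := by
  rw [← h.sum_piS k]
  exact sum_le_sum fun X _ => mul_le_of_le_one_right (h.piS_pos k X).le (R309.ind_le_one _)

theorem Fam_ZZ (h : Par n s) (k : ℕ → ℤ) : ZZ n s k = ∑ X : St n, lam s ^ ∑ e ∈ X.1, k e := by
  rw [sum_St (s := s) k fun X => lam s ^ ∑ e ∈ X, k e]
  unfold ZZ Model.Z
  exact sum_congr rfl fun X _ => wt_mdl h.s_ge k X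

theorem Fam_pi (h : Par n s) (k : ℕ → ℤ) (X : St n) :
    piS n s k X = (lam s ^ ∑ e ∈ X.1, k e) / ZZ n s k := by
  rw [← wt_mdl h.s_ge]
  rfl

theorem Fam_pm (k : ℕ → ℤ) (e : ℕ) :
    pm n s k e = ∑ X : St n, piS n s k X * ind (memB X.1 e = true) := by
  simp only [pm, prB, bt_toL]

theorem Fam_one_sub (h : Par n s) (k : ℕ → ℤ) (e : ℕ) :
    1 - pm n s k e = ∑ X : St n, piS n s k X * (1 - ind (memB X.1 e = true)) := by
  simp only [mul_sub, mul_one, sum_sub_distrib, h.sum_piS, Fam_pm]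

theorem Fam_w_addK (h : Par n s) (k : ℕ → ℤ) (e : ℕ) (j : ℤ) (X : Finset (Fin (mE n))) :
    lam s ^ ∑ f ∈ X, addK k e j f =
      (lam s ^ ∑ f ∈ X, k f) * (1 + ind (memB X e = true) * (lam s ^ j - 1)) := by
  have e1 : ∀ f : ℕ, addK k e j f = k f + if f = e then j else 0 := fun f => by
    unfold addK
    split_ifs <;> simp
  simp only [e1, sum_add_distrib]
  rw [zpow_add₀ (lam_pos h.s_ge).ne']
  congr 1
  by_cases hm : memB X e = true
  · rw [R309.ind_of hm]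
    obtain ⟨a, ha, rfl⟩ := of_decide_eq_true hm
    rw [sum_eq_single_of_mem a ha fun b _ hb => if_neg fun k => hb (Fin.ext k), if_pos rfl]
    ring
  · rw [R309.ind_of_not hm, sum_eq_zero fun b hb => if_neg fun k => hm (decide_eq_true ⟨b, hb, k⟩)]
    simp

theorem Fam_sig (k : ℕ → ℤ) (X J : Finset (Fin (mE n))) :
    ∑ f ∈ X ∆ J, k f = ∑ f ∈ X, k f + ∑ f ∈ J, if f ∈ X then -k f else k f := by
  rw [← Fintype.sum_ite_mem (X ∆ J), ← Fintype.sum_ite_mem X, ← Fintype.sum_ite_mem J,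
    ← sum_add_distrib]
  refine sum_congr rfl fun f _ => ?_
  by_cases h1 : f ∈ X <;> by_cases h2 : f ∈ J <;> simp [mem_symmDiff, h1, h2]

theorem Fam_path {k : ℕ → ℤ} (h0 : ∀ e, isReal n e = false → isVirt n e = false → k e = 0) {f : ℕ}
    (hf : n * n ≤ f) : k f = 0 :=
  h0 f (Bool.eq_false_iff.2 fun a => absurd (isReal_lt a) (not_lt.2 hf))
    (Bool.eq_false_iff.2 fun a => absurd (isVirt_lt a) (not_lt.2 hf))

theorem Par.ZZ_addK (h : Par n s) (k : ℕ → ℤ) (e : ℕ) (j : ℤ) :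
    ZZ n s (addK k e j) = ZZ n s k * (1 + pm n s k e * (lam s ^ j - 1)) := by
  have hZ := (h.ZZ_pos k).ne'
  rw [Fam_ZZ h (addK k e j), Fam_pm, mul_add, mul_one, ← mul_assoc, mul_sum, sum_mul]
  conv_rhs => rw [Fam_ZZ h k, ← sum_add_distrib]
  refine sum_congr rfl fun X _ => ?_
  rw [Fam_w_addK h, ← Fam_ZZ h k, Fam_pi h]
  field_simp

theorem Par.pi_addK (h : Par n s) (k : ℕ → ℤ) (e : ℕ) (j : ℤ) (X : St n) :
    lam s ^ j.natAbs * piS n s k X ≤ piS n s (addK k e j) X ∧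
      lam s ^ j.natAbs * piS n s (addK k e j) X ≤ piS n s k X := by
  have h0 := lam_pos h.s_ge
  have h1 := (lam_lt_one h.s_ge).le
  obtain ⟨lo, hi, a1, a2, a3, a4, a5, a6⟩ : ∃ lo hi : ℝ, 0 < lo ∧ lam s ^ j.natAbs * hi ≤ lo ∧ lo ≤ 1 ∧
      1 ≤ hi ∧ lo ≤ lam s ^ j ∧ lam s ^ j ≤ hi := by
    obtain ⟨m, rfl | rfl⟩ := Int.eq_nat_or_neg j
    · rw [Int.natAbs_natCast, zpow_natCast]
      exact ⟨lam s ^ m, 1, pow_pos h0 m, (mul_one _).le, pow_le_one₀ h0.le h1, le_rfl, le_rfl,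
        pow_le_one₀ h0.le h1⟩
    · rw [Int.natAbs_neg, Int.natAbs_natCast, zpow_neg, zpow_natCast]
      have := (one_le_inv₀ (pow_pos h0 m)).2 (pow_le_one₀ h0.le h1)
      exact ⟨1, (lam s ^ m)⁻¹, one_pos, (mul_inv_cancel₀ (pow_pos h0 m).ne').le, le_rfl, this, this, le_rfl⟩
  have key : ∀ p : ℝ, 0 ≤ p → p ≤ 1 → lo ≤ 1 + p * (lam s ^ j - 1) ∧ 1 + p * (lam s ^ j - 1) ≤ hi :=
    fun p p0 p1 => ⟨by nlinarith, by nlinarith⟩
  obtain ⟨r1, r2⟩ := key (pm n s k e) (h.prB_nonneg k _) (h.prB_le_one k _)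
  obtain ⟨b1, b2⟩ := key (ind (memB X.1 e = true)) (R309.ind_nonneg _) (R309.ind_le_one _)
  have hr : 0 < 1 + pm n s k e * (lam s ^ j - 1) := a1.trans_le r1
  have e1 : piS n s (addK k e j) X = piS n s k X * (1 + ind (memB X.1 e = true) * (lam s ^ j - 1)) /
      (1 + pm n s k e * (lam s ^ j - 1)) := by
    rw [Fam_pi h, Fam_pi h, h.ZZ_addK, Fam_w_addK h]
    have := (h.ZZ_pos k).ne'
    field_simp
  have hp := (h.piS_pos k X).le
  have hμ := (pow_pos h0 j.natAbs).le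
  rw [e1, le_div_iff₀ hr, ← mul_div_assoc, div_le_iff₀ hr]
  constructor
  · rw [mul_right_comm, mul_comm]
    exact mul_le_mul_of_nonneg_left ((mul_le_mul_of_nonneg_left r2 hμ).trans (a2.trans b1)) hp
  · rw [mul_left_comm]
    exact mul_le_mul_of_nonneg_left ((mul_le_mul_of_nonneg_left b2 hμ).trans (a2.trans r1)) hp

theorem Par.pi_step (h : Par n s) (k : ℕ → ℤ) (e : ℕ) {j : ℤ} (hj : j.natAbs ≤ 1) (X : St n) :
    |piS n s k X - piS n s (addK k e j) X| ≤ 2 / (pB s : ℝ) * piS n s (addK k e j) X := by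
  have h0 := lam_pos h.s_ge
  have h1 := (lam_lt_one h.s_ge).le
  obtain ⟨a, b⟩ := h.pi_addK k e j X
  have h2 : lam s ≤ lam s ^ j.natAbs := by
    conv_lhs => rw [← pow_one (lam s)]
    exact pow_le_pow_of_le_one h0.le h1 hj
  have p := (h.piS_pos k X).le
  have q := (h.piS_pos (addK k e j) X).le
  have a' := (mul_le_mul_of_nonneg_right h2 p).trans a
  have b' := (mul_le_mul_of_nonneg_right h2 q).trans b
  have c1 : piS n s k X ≤ (1 + 2 / (pB s : ℝ)) * piS n s (addK k e j) X :=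
    ((le_inv_mul_iff₀ h0).2 a').trans (mul_le_mul_of_nonneg_right (lam_inv_le h.s_ge) q)
  have c2 : 0 ≤ 1 / (pB s : ℝ) * piS n s (addK k e j) X := by positivity
  have c3 : 2 / (pB s : ℝ) = 2 * (1 / (pB s : ℝ)) := by ring
  unfold lam at b'
  rw [c3] at c1 ⊢
  rw [abs_le]
  constructor <;> linarith

theorem Par.pm_addK (h : Par n s) (k : ℕ → ℤ) (e : ℕ) {j : ℤ} (hj : j.natAbs ≤ pJ s) (e' : ℕ) :
    pm n s k e' / 2 ≤ pm n s (addK k e j) e' ∧ (1 - pm n s k e') / 2 ≤ 1 - pm n s (addK k e j) e' := by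
  have h2 : 1 / 2 ≤ lam s ^ j.natAbs := (half_le_lam_J h.s_ge).trans
    (pow_le_pow_of_le_one (lam_pos h.s_ge).le (lam_lt_one h.s_ge).le hj)
  have h3 : ∀ X, 1 / 2 * piS n s k X ≤ piS n s (addK k e j) X := fun X =>
    (mul_le_mul_of_nonneg_right h2 (h.piS_pos k X).le).trans (h.pi_addK k e j X).1
  rw [Fam_one_sub h, Fam_one_sub h, Fam_pm, Fam_pm, sum_div, sum_div]
  refine ⟨sum_le_sum fun X _ => ?_, sum_le_sum fun X _ => ?_⟩
  · linarith [mul_le_mul_of_nonneg_right (h3 X) (R309.ind_nonneg (memB X.1 e' = true))]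
  · linarith [mul_le_mul_of_nonneg_right (h3 X) (sub_nonneg.2 (R309.ind_le_one (memB X.1 e' = true)))]

theorem Par.jensen (h : Par n s) (k k' : ℕ → ℤ) :
    Real.log (ZZ n s k) + ∑ e ∈ range (mE n), pm n s k e * ((k' e - k e : ℤ) * Real.log (lam s)) ≤
      Real.log (ZZ n s k') := by
  have h0 := lam_pos h.s_ge
  have hZ := h.ZZ_pos k
  set y : St n → ℝ := fun X => ∑ e ∈ X.1, ((k' e - k e : ℤ) : ℝ) * Real.log (lam s) with hy
  set m := ∑ e ∈ range (mE n), pm n s k e * ((k' e - k e : ℤ) * Real.log (lam s)) with hm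
  have e1 : ∑ X : St n, piS n s k X * y X = m := by
    rw [hm, sum_range]
    simp only [Fam_pm, sum_mul]
    rw [sum_comm]
    refine sum_congr rfl fun X _ => ?_
    simp only [hy, mul_assoc, ← mul_sum]
    congr 1
    rw [← Fintype.sum_ite_mem X.1]
    refine sum_congr rfl fun e _ => ?_
    split_ifs with he
    · rw [R309.ind_of ((memB_iff _ _).2 he), one_mul]
    · rw [R309.ind_of_not fun k => he ((memB_iff _ _).1 k), zero_mul]
  have e2 : ∀ X : St n, lam s ^ ∑ e ∈ X.1, k' e = ZZ n s k * (piS n s k X * Real.exp (y X)) := by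
    intro X
    have : y X = Real.log (lam s ^ (∑ e ∈ X.1, k' e - ∑ e ∈ X.1, k e)) := by
      rw [Real.log_zpow, ← sum_sub_distrib, Int.cast_sum, sum_mul]
    rw [this, Real.exp_log (zpow_pos h0 _), Fam_pi h, zpow_sub₀ h0.ne']
    have := (zpow_pos h0 (∑ e ∈ X.1, k e)).ne'
    field_simp
  have e3 : Real.exp m ≤ ∑ X : St n, piS n s k X * Real.exp (y X) := by
    have : ∑ X : St n, piS n s k X * (Real.exp m * (1 + (y X - m))) = Real.exp m := by
      simp only [mul_left_comm (piS n s k _), ← mul_sum, mul_add, mul_sub, mul_one, sum_add_distrib,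
        sum_sub_distrib, ← sum_mul, h.sum_piS, e1]
      ring
    rw [← this]
    refine sum_le_sum fun X _ => mul_le_mul_of_nonneg_left ?_ (h.piS_pos k X).le
    rw [show y X = m + (y X - m) by ring, Real.exp_add, add_sub_cancel_left]
    exact mul_le_mul_of_nonneg_left (by linarith [Real.add_one_le_exp (y X - m)]) (Real.exp_pos _).le
  rw [← Real.log_exp m, ← Real.log_mul hZ.ne' (Real.exp_pos _).ne']
  refine Real.log_le_log (mul_pos hZ (Real.exp_pos _)) ?_
  rw [Fam_ZZ h k', sum_congr rfl fun X _ => e2 X, ← mul_sum]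
  exact mul_le_mul_of_nonneg_left e3 hZ.le

theorem Par.odds (h : Par n s) {k : ℕ → ℤ} (h0 : ∀ e, isReal n e = false → isVirt n e = false → k e = 0)
    {e : ℕ} (he : isVirt n e = true) (hr : 0 ≤ k (rE n e)) :
    lam s ^ k e * lam s ^ k (rE n e) * (1 - pm n s k e) ≤ pm n s k e ∧
      pm n s k e * lam s ^ k (rE n e) ≤ lam s ^ k e * (1 - pm n s k e) := by
  have l0 := lam_pos h.s_ge
  obtain ⟨hre, hve⟩ := rE_real he
  have a1 := isVirt_lt he
  have a2 := isReal_lt hre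
  have hne : e ≠ rE n e := fun k => by
    rw [← k] at hre
    rw [not_virt_of_real hre] at he
    exact Bool.false_ne_true he
  set ε : Fin (mE n) := ⟨e, lt_mE a1⟩ with hε
  set ε' : Fin (mE n) := ⟨rE n e, lt_mE a2⟩ with hε'
  have hne' : ε ≠ ε' := fun k => hne (congrArg Fin.val k)
  have hu := srcN_lt (lt_mE a2)
  have hv := tgtN_lt (lt_mE a2)
  obtain ⟨d1, d2⟩ := src_div a2
  have hd : srcN n (rE n e) / (2 * n) ≠ tgtN n (rE n e) / (2 * n) := by
    rw [d1, d2]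
    simp only [isReal, Bool.and_eq_true, decide_eq_true_eq] at hre
    exact hre.2.ne
  have hc : ∀ f : Fin (mE n), (f : ℕ) < n * n →
      (f ∈ cc n (srcN n (rE n e)) (tgtN n (rE n e)) ↔ f = ε) := fun f hf => by
    rw [cc, mem_fs, cB_diff hu hv hd hf, d1, d2, hve, Fin.ext_iff]
  set O := cc n (srcN n (rE n e)) (tgtN n (rE n e)) ∆ {ε'} with hO
  have b0 : (gr n).bd O = 0 := by
    rw [hO, Gr.bd_symmDiff, bd_cc hu hv, (Gr.joins_src_tgt (G := gr n) ε').bd]
    exact add_self_fn _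
  have m1 : ε ∈ O := mem_symmDiff.2 (Or.inl ⟨(hc ε a1).2 rfl, fun k => hne' (mem_singleton.1 k)⟩)
  have m2 : ε' ∈ O := mem_symmDiff.2 (Or.inr ⟨mem_singleton_self _, fun k => hne' ((hc ε' a2).1 k).symm⟩)
  have hs : ∀ X : Finset (Fin (mE n)), ε ∉ X → ∑ f ∈ X ∆ O, k f =
      ∑ f ∈ X, k f + (k e + if ε' ∈ X then -k (rE n e) else k (rE n e)) := by
    intro X hX
    rw [Fam_sig, sum_eq_add_of_mem ε ε' m1 m2 hne', if_neg hX]
    intro f hf hf'
    have : k f = 0 := by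
      refine Fam_path h0 (not_lt.1 fun k => hf'.1 ((hc f k).1 ?_))
      rcases mem_symmDiff.1 hf with k' | k'
      · exact k'.1
      · exact absurd (mem_singleton.1 k'.1) hf'.2
    simp [this]
  let τ : St n → St n := fun X => ⟨X.1 ∆ O, by rw [Gr.bd_symmDiff, X.2, b0, add_zero]⟩
  have hτ : Function.Involutive τ := fun X => Subtype.ext (symmDiff_symmDiff_cancel_right _ _)
  have e1 : pm n s k e = ∑ X : St n, piS n s k (τ X) * (1 - ind (memB X.1 e = true)) := by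
    rw [Fam_pm, ← Equiv.sum_comp hτ.toPerm]
    refine sum_congr rfl fun X _ => ?_
    rw [Function.Involutive.coe_toPerm, ← R309.ind_not]
    congr 2
    refine propext ?_
    rw [show e = (ε : ℕ) from rfl, memB_iff, memB_iff]
    show ε ∈ X.1 ∆ O ↔ _
    simp [mem_symmDiff, m1]
  have hy := zpow_pos l0 (k e)
  have hz := zpow_pos l0 (k (rE n e))
  have hz1 : lam s ^ k (rE n e) ≤ 1 := zpow_le_one₀ l0 (lam_lt_one h.s_ge).le hr
  have key : ∀ X : St n, ε ∉ X.1 →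
      lam s ^ k e * lam s ^ k (rE n e) * piS n s k X ≤ piS n s k (τ X) ∧
      piS n s k (τ X) * lam s ^ k (rE n e) ≤ lam s ^ k e * piS n s k X := by
    intro X hX
    have e2 : piS n s k (τ X) = lam s ^ k e * piS n s k X *
        lam s ^ (if ε' ∈ X.1 then -k (rE n e) else k (rE n e)) := by
      rw [Fam_pi h, Fam_pi h, show (τ X).1 = X.1 ∆ O from rfl, hs X.1 hX, zpow_add₀ l0.ne',
        zpow_add₀ l0.ne']
      ring
    have hp := (mul_pos hy (h.piS_pos k X)).le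
    rw [e2, mul_right_comm, mul_assoc (lam s ^ k e * piS n s k X)]
    split_ifs
    · rw [zpow_neg, inv_mul_cancel₀ hz.ne', mul_one]
      exact ⟨mul_le_mul_of_nonneg_left (hz1.trans ((one_le_inv₀ hz).2 hz1)) hp, le_rfl⟩
    · exact ⟨le_rfl, mul_le_of_le_one_right hp (mul_le_one₀ hz1 hz.le hz1)⟩
  rw [Fam_one_sub h, e1, mul_sum, mul_sum, sum_mul]
  refine ⟨sum_le_sum fun X _ => ?_, sum_le_sum fun X _ => ?_⟩
  · by_cases hX : ε ∈ X.1
    · rw [R309.ind_of ((memB_iff X.1 ε).2 hX)]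
      simp
    · rw [R309.ind_of_not fun k => hX ((memB_iff X.1 ε).1 k), sub_zero, mul_one, mul_one]
      exact (key X hX).1
  · by_cases hX : ε ∈ X.1
    · rw [R309.ind_of ((memB_iff X.1 ε).2 hX)]
      simp
    · rw [R309.ind_of_not fun k => hX ((memB_iff X.1 ε).1 k), sub_zero, mul_one, mul_one]
      exact (key X hX).2

theorem Par.closure (h : Par n s) {k : ℕ → ℤ} (hk : Good n s k) : (mdl n s k).Closure (cc n) (64 * s) := by
  have l0 := lam_pos h.s_ge
  have hs := h.s_pos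
  have hZ := h.ZZ_pos k
  refine ⟨fun u v hu hv => bd_cc (isV_iff.1 hu) (isV_iff.1 hv), cc_self, fun u v hu hv X _ => ?_⟩
  have hu := isV_iff.1 hu
  have hv := isV_iff.1 hv
  have h1 : ∑ Y : St n, lam s ^ ∑ f ∈ Y.1 ∆ cc n u v, k f ≤ (mdl n s k).Z (pr u v) := by
    rw [sum_St (s := s) k fun Y => lam s ^ ∑ f ∈ Y ∆ cc n u v, k f]
    refine Basic_sum_le (fun Y => Y ∆ cc n u v) (fun _ _ _ _ k => symmDiff_left_injective _ k)
      (fun Y hY => ?_) (fun Y _ => (wt_pos (h.pos k).x_pos Y).le) fun Y _ => (wt_mdl h.s_ge k _).ge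
    have := Model.symmDiff_mem_Om hY (cc n u v)
    rwa [zero_add, show (mdl n s k).bd (cc n u v) = pr u v from bd_cc hu hv] at this
  obtain ⟨t, ht, h2, h3⟩ : ∃ t : ℝ, 0 < t ∧
      lam s ^ ∑ f ∈ X, k f = lam s ^ (∑ f ∈ X ∆ cc n u v, k f) * t ∧
      ZZ n s k * (1 / (64 * (s : ℝ)) * t) ≤ ∑ Y : St n, lam s ^ ∑ f ∈ Y.1 ∆ cc n u v, k f := by
    by_cases hd : u / (2 * n) = v / (2 * n)
    · have e : ∀ Y : Finset (Fin (mE n)), ∑ f ∈ Y ∆ cc n u v, k f = ∑ f ∈ Y, k f := fun Y => by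
        rw [Fam_sig, sum_eq_zero (s := cc n u v), add_zero]
        intro f hf
        simp [Fam_path hk.zero (cB_same hd (mem_fs.1 hf))]
      refine ⟨1, one_pos, by rw [e, mul_one], ?_⟩
      simp only [e]
      rw [← Fam_ZZ h k, mul_one]
      refine mul_le_of_le_one_right hZ.le ?_
      rw [div_le_one (by positivity)]
      linarith [h.s_ge']
    · have hn : 0 < 2 * n := by have := h.n_ge; omega
      have hvirt := vE_virt ((Nat.div_lt_iff_lt_mul hn).2 hu) ((Nat.div_lt_iff_lt_mul hn).2 hv) hd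
      set e := vE n (u / (2 * n)) (v / (2 * n)) with he
      set ε : Fin (mE n) := ⟨e, lt_mE (isVirt_lt hvirt)⟩ with hε
      have e1 : ∀ Y : Finset (Fin (mE n)), ∑ f ∈ Y ∆ cc n u v, k f =
          ∑ f ∈ Y, k f + if ε ∈ Y then -k e else k e := fun Y => by
        rw [Fam_sig, sum_eq_single_of_mem (s := cc n u v) ε
          (mem_fs.2 ((cB_diff hu hv hd (isVirt_lt hvirt)).2 rfl))]
        intro f hf hf'
        simp [Fam_path hk.zero (not_lt.1 fun k => hf' (Fin.ext ((cB_diff hu hv hd k).1 (mem_fs.1 hf))))]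
      have hy := zpow_pos l0 (k e)
      have e2 : ∑ Y : St n, lam s ^ ∑ f ∈ Y.1 ∆ cc n u v, k f =
          ZZ n s k * (pm n s k e * (lam s ^ k e)⁻¹ + (1 - pm n s k e) * lam s ^ k e) := by
        rw [Fam_one_sub h, Fam_pm, sum_mul, sum_mul, ← sum_add_distrib, mul_sum]
        refine sum_congr rfl fun Y _ => ?_
        rw [e1, zpow_add₀ l0.ne', Fam_pi h]
        split_ifs with hY
        · rw [R309.ind_of ((memB_iff Y.1 ε).2 hY), zpow_neg]
          field_simp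
          ring
        · rw [R309.ind_of_not fun k => hY ((memB_iff Y.1 ε).1 k)]
          field_simp
          ring
      have p1 := hk.lo e hvirt
      have p2 := hk.hi e hvirt
      have p0 : 0 < 1 / (64 * (s : ℝ)) := by positivity
      have q1 := mul_le_mul_of_nonneg_right p1 (inv_pos.2 hy).le
      have q2 := mul_le_mul_of_nonneg_right p2 hy.le
      have q3 := mul_pos p0 (inv_pos.2 hy)
      have q4 := mul_pos p0 hy
      rw [e2, e1, zpow_add₀ l0.ne']
      split_ifs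
      · refine ⟨lam s ^ k e, hy, ?_, mul_le_mul_of_nonneg_left (by linarith) hZ.le⟩
        rw [zpow_neg, inv_mul_cancel_right₀ hy.ne']
      · refine ⟨(lam s ^ k e)⁻¹, inv_pos.2 hy, ?_, mul_le_mul_of_nonneg_left (by linarith) hZ.le⟩
        rw [mul_inv_cancel_right₀ hy.ne']
  rw [Model.pi, Model.pi, wt_mdl h.s_ge, wt_mdl h.s_ge, h2]
  refine (div_le_div_of_nonneg_left (mul_pos (zpow_pos l0 _) ht).le (by positivity) (h3.trans h1)).trans_eq ?_
  rw [show (mdl n s k).Z 0 = ZZ n s k from rfl]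
  field_simp

theorem Par.log_ZZ_ge (h : Par n s) {k : ℕ → ℤ} (hk : ∀ e, |k e| ≤ (6 * s * pB s : ℕ)) :
    -(13 / 2 * (s : ℝ) ^ 2) ≤ Real.log (ZZ n s k) := by
  have l0 := lam_pos h.s_ge
  obtain ⟨X⟩ := h.nonempty_St
  have h1 : lam s ^ ∑ f ∈ X.1, k f ≤ ZZ n s k := by
    rw [Fam_ZZ h k]
    exact single_le_sum (f := fun Y : St n => lam s ^ ∑ f ∈ Y.1, k f)
      (fun Y _ => (zpow_pos l0 _).le) (mem_univ X)
  refine le_trans ?_ (Real.log_le_log (zpow_pos l0 _) h1)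
  rw [Real.log_zpow]
  have h2 : ∑ f ∈ X.1, k f ≤ (s : ℤ) * (6 * s * pB s : ℕ) := by
    refine (sum_le_card_nsmul X.1 (fun f => k f) _ fun f _ => (le_abs_self _).trans (hk f)).trans ?_
    rw [nsmul_eq_mul]
    refine mul_le_mul_of_nonneg_right ?_ (Nat.cast_nonneg _)
    have := (card_le_univ X.1).trans_eq (Fintype.card_fin _)
    exact_mod_cast this.trans h.mE_lt.le
  have h3 : ((∑ f ∈ X.1, k f : ℤ) : ℝ) ≤ s * (6 * s * pB s) := by exact_mod_cast h2
  have h4 := mul_le_mul_of_nonpos_right h3 (Real.log_nonpos l0.le (lam_lt_one h.s_ge).le)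
  have h5 := mul_le_mul_of_nonneg_left (log_lam_ge h.s_ge) (show 0 ≤ 6 * (s : ℝ) ^ 2 by positivity)
  nlinarith [sq_nonneg (s : ℝ)]

theorem Par.log_ZZ_zero (h : Par n s) : Real.log (ZZ n s 0) ≤ s := by
  rw [h.ZZ_zero, Real.log_pow]
  have h1 : ((mE n + 1 - nV n : ℕ) : ℝ) ≤ s := by
    have := h.mE_lt
    exact_mod_cast (by omega : mE n + 1 - nV n ≤ s)
  have h2 : Real.log 2 ≤ 1 := by linarith [Real.log_two_lt_d9]
  exact (mul_le_of_le_one_right (Nat.cast_nonneg _) h2).trans h1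

end Crest.Agent.R304
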