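import Crest.Agent.R304.Station
import Crest.Agent.R304.Beta

/-!
# Row 304: Fresh
One pair `(I, F)`, one cycle `C ⊆ I ∆ F`, positions `Dbl C s t' t`.  `e = h s`, `g = h t'`, `g' = h t`, `σ = seg (t'+1) t`, `τ = σ ∪ {g, g'}`.  The base of the station is `b ∈ {s, t'}`, the
base of the fresh partner `Y` is `b' ∈ {s, t'}`; `Y` lies in the sector of `stn F b' t'` and has its pattern on `τ`.
* `pat_eq`: both stations avoid `g` and agree with `F` on `σ` and `g'` (`mem_stn_later`, `not_mem_stn`).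
* `fresh_move`: `σ ⊆ X ∆ Y` (`X` agrees with `I`, `Y` with `F` on `σ`); `bd (X ∆ Y)` vanishes at the inner vertices (`bd_symmDiff_of_mem`, `pL_cases`, `qL_cases`, `v_ne`,
  `pr_apply_of_ne`), so `comp_eq_seg` applies; `stn_step` for `I`; the sector of `Y ∆ σ ∆ rr F` from `stn_step` and `bd_stn` for `F`.  Weights: by `wt_symmDiff`, `Y` and `W = stn F b' t'` have the same
  ratio `wt (· ∆ J) / wt ·` for `J = σ ∆ rr F b' t' t ⊆ τ`.
* `thB_eq`: compute `wt (stn I b t) / wt (stn I b t')` and `wt (stn F b' t) / wt (stn F b' t')`; the factors of `σ` cancel (`wt_symmDiff_mul`).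
* `either_or`: with `a1 = x g * r(A0) r(BV)`, `a2 = thB t' s * r(A0') r(BV')`, `b1 = x e x g r(AV) r(B0)`, `b2 = thB s t' * r(AV') r(B0')` all four products `ai * bj` are `≤ L ^ 2`:
  `a1 b1`, `a2 b2` are products of two `lab_le` (`good_child`), `a1 b2`, `a2 b1` are `base_le` times `cross` (`joins_pL`, `joins_qp`, `joins_qL`; `mem_iff`).  If both alternatives failed we would get
  `ai z0 > L zV` and `bj zV > L z0`, so `ai bj > L ^ 2`.
-/

set_option autoImplicit false

noncomputable section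

namespace Crest.Agent.R304

open Finset
open scoped symmDiff

variable {E V : Type} [Fintype E] [DecidableEq E] [DecidableEq V]

namespace Model

variable {M : Model E V} {I F : Finset E}

/-- the move used for the station with base `b` and the partner with base `b'` -/
def swD (C : Cyc M.toGr) (I F : Finset E) (b b' t' t : ℕ) : Sw E :=
  ⟨C.cutR (t' + 1) t, C.rr I b t' t, C.rr F b' t' t, {C.h (t' + 1)}⟩

/-- weight factor after the move -/
def thB (C : Cyc M.toGr) (I : Finset E) (b b' t' t : ℕ) : ℝ :=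
  wt M.x {C.h b, C.h t'} * M.x (C.h t) /
    ((if b < t' ∧ C.h t' ∉ I then M.x (C.h t') else 1) * (if b' < t' ∧ C.h t' ∈ I then M.x (C.h t') else 1))

/-- load conditions for the station with base `b` and the partner with base `b'`; `z` is the conditioned partition function as a function of the base -/
def LoadOK (C : Cyc M.toGr) (I F : Finset E) (b b' t' t : ℕ) (z : ℕ → ℝ) : Prop :=
  wt M.x {C.h b, C.h t'} * M.r (C.pL I b) (C.qL I b t') * M.r (C.pL F b') (C.qL F b' t') * z b ≤ LL E * z b' ∧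
  thB C I b b' t' t * M.r (C.pL I b) (C.qL I b t) * M.r (C.pL F b') (C.qL F b' t) * z b ≤ LL E * z b'

theorem wt_rr (x : E → ℝ) {G : Gr E V} (C : Cyc G) (I U : Finset E) (b t' t : ℕ) (hne : C.h t' ≠ C.h t)
    (h1 : C.h t' ∉ U) (h2 : C.h t ∈ U ↔ C.h t ∈ I) :
    wt x (U ∆ C.rr I b t' t) * (if C.h t ∈ I then x (C.h t) else 1) =
      wt x U * (if b < t' ∧ C.h t' ∉ I then x (C.h t') else 1) := by
  have key := wt_symmDiff x U (C.rr I b t' t)
  have e1 : U ∩ C.rr I b t' t = if C.h t ∈ I then {C.h t} else ∅ := by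
    ext e
    unfold Cyc.rr
    by_cases c1 : (b < t' ∧ C.h t' ∉ I) <;> by_cases c2 : C.h t ∈ I <;>
      simp only [c1, c2, if_true, if_false, mem_inter, mem_union, mem_singleton, notMem_empty, or_false,
        false_or, and_false, and_self, not_false_eq_true]
    · constructor
      · rintro ⟨hU, rfl | rfl⟩
        · exact absurd hU h1
        · rfl
      · rintro rfl
        exact ⟨h2.2 c2, Or.inr rfl⟩
    · constructor
      · rintro ⟨hU, rfl⟩
        exact absurd hU h1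
      · exact False.elim
    · constructor
      · rintro ⟨_, h⟩
        exact h
      · rintro rfl
        exact ⟨h2.2 c2, rfl⟩
  have e2 : C.rr I b t' t \ U = if b < t' ∧ C.h t' ∉ I then {C.h t'} else ∅ := by
    ext e
    unfold Cyc.rr
    by_cases c1 : (b < t' ∧ C.h t' ∉ I) <;> by_cases c2 : C.h t ∈ I <;>
      simp only [c1, c2, if_true, if_false, mem_sdiff, mem_union, mem_singleton, notMem_empty, or_false,
        false_or, false_and, and_self, not_false_eq_true]
    · constructor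
      · rintro ⟨rfl | rfl, hU⟩
        · rfl
        · exact absurd (h2.2 c2) hU
      · rintro rfl
        exact ⟨Or.inl rfl, h1⟩
    · constructor
      · rintro ⟨h, _⟩
        exact h
      · rintro rfl
        exact ⟨rfl, h1⟩
    · constructor
      · rintro ⟨rfl, hU⟩
        exact absurd (h2.2 c2) hU
      · exact False.elim
  rw [e1, e2] at key
  have f1 : wt x (if C.h t ∈ I then {C.h t} else ∅) = if C.h t ∈ I then x (C.h t) else 1 := by
    split_ifs <;> simp [wt]
  have f2 : wt x (if b < t' ∧ C.h t' ∉ I then {C.h t'} else ∅) =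
      if b < t' ∧ C.h t' ∉ I then x (C.h t') else 1 := by
    split_ifs <;> simp [wt]
  rw [f1, f2] at key
  exact key

theorem h_ne {G : Gr E V} (C : Cyc G) {i j : ℕ} (hij : i < j) (hj : j < C.l) : C.h i ≠ C.h j := fun h =>
  absurd (C.h_inj i (by omega) j hj h) (by omega)

theorem seg_sub_symm {G : Gr E V} {C : Cyc G} (hC : C.all ⊆ I ∆ F) {b t' t : ℕ} (hb : b ≤ t') (ht : t < C.l)
    {Y : Finset E} (hY : ∀ j, t' < j → j ≤ t → (C.h j ∈ Y ↔ C.h j ∈ F)) :
    C.seg (t' + 1) t ⊆ C.stn I b t' ∆ Y := by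
  intro e he
  obtain ⟨j, h1, h2, rfl⟩ := C.mem_seg.1 he
  have a1 := C.mem_stn_later I hb (j := j) (by omega) (by omega)
  have a2 := hY j (by omega) (by omega)
  have a3 := C.mem_iff hC (t := j) (by omega)
  rw [Finset.mem_symmDiff, a1, a2, a3]
  tauto

theorem Ok.move_wt (hM : M.Ok) {C : Cyc M.toGr} (hC : C.all ⊆ I ∆ F) {b b' t' t : ℕ} (hb : b ≤ t')
    (ht' : t' < t) (ht : t < C.l) {Y : Finset E} (hY0 : C.h t' ∉ Y)
    (hY : ∀ j, t' < j → j ≤ t → (C.h j ∈ Y ↔ C.h j ∈ F)) :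
    wt M.x {C.h b, C.h t'} * (wt M.x (C.stn I b t') * wt M.x Y) =
      thB C I b b' t' t * (wt M.x (C.stn I b t) * wt M.x (Y ∆ C.seg (t' + 1) t ∆ C.rr F b' t' t)) := by
  have hne : C.h t' ≠ C.h t := h_ne C ht' ht
  have s1 : C.h t' ∉ C.seg (t' + 1) t := by
    rw [C.h_mem_seg (by omega) ht.le]; omega
  have s2 : C.h t ∉ C.seg (t' + 1) t := by
    rw [C.h_mem_seg ht ht.le]; omega
  have k0 := wt_symmDiff_mul M.x (seg_sub_symm hC hb ht hY)
  have k1 := wt_rr M.x C I (C.stn I b t' ∆ C.seg (t' + 1) t) b t' t hne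
    (by
      have := C.not_mem_stn I b t'
      rw [Finset.mem_symmDiff]; tauto)
    (by
      have := C.mem_stn_later I hb ht' ht
      rw [Finset.mem_symmDiff]; tauto)
  have k2 := wt_rr M.x C F (Y ∆ C.seg (t' + 1) t) b' t' t hne
    (by rw [Finset.mem_symmDiff]; tauto)
    (by
      have := hY t ht' le_rfl
      rw [Finset.mem_symmDiff]; tauto)
  rw [← C.stn_step I hb ht' ht] at k1
  have m1 := C.mem_iff hC (t := t') (by omega)
  have m2 := C.mem_iff hC ht
  have q1 : (if b' < t' ∧ C.h t' ∉ F then M.x (C.h t') else 1) =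
      (if b' < t' ∧ C.h t' ∈ I then M.x (C.h t') else 1) := by
    simp only [m1, not_not]
  have q2 : (if C.h t ∈ I then M.x (C.h t) else 1) * (if C.h t ∈ F then M.x (C.h t) else 1) = M.x (C.h t) := by
    by_cases c : C.h t ∈ I
    · have : C.h t ∉ F := by rw [m2]; exact not_not.2 c
      simp [c, this]
    · have : C.h t ∈ F := m2.2 c
      simp [c, this]
  rw [q1] at k2
  have p1 : 0 < (if b < t' ∧ C.h t' ∉ I then M.x (C.h t') else 1) := by
    split_ifs
    · exact hM.x_pos _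
    · exact one_pos
  have p2 : 0 < (if b' < t' ∧ C.h t' ∈ I then M.x (C.h t') else 1) := by
    split_ifs
    · exact hM.x_pos _
    · exact one_pos
  unfold thB
  generalize (if b < t' ∧ C.h t' ∉ I then M.x (C.h t') else 1) = c1 at *
  generalize (if b' < t' ∧ C.h t' ∈ I then M.x (C.h t') else 1) = c2 at *
  generalize (if C.h t ∈ I then M.x (C.h t) else 1) = d1 at *
  generalize (if C.h t ∈ F then M.x (C.h t) else 1) = d2 at *
  rw [← q2, div_mul_eq_mul_div, eq_div_iff (mul_pos p1 p2).ne', ← k0]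
  generalize wt M.x (C.stn I b t' ∆ C.seg (t' + 1) t) = u1 at *
  generalize wt M.x (Y ∆ C.seg (t' + 1) t ∆ C.rr F b' t' t) = u4 at *
  generalize wt M.x (Y ∆ C.seg (t' + 1) t) = u2 at *
  generalize wt M.x (C.stn I b t) = u3 at *
  calc wt M.x {C.h b, C.h t'} * (u1 * u2) * (c1 * c2) = wt M.x {C.h b, C.h t'} * ((u1 * c1) * (u2 * c2)) := by ring
    _ = wt M.x {C.h b, C.h t'} * ((u3 * d1) * (u4 * d2)) := by rw [k1, k2]
    _ = _ := by ring

theorem Ok.swD_adm (hM : M.Ok) {C : Cyc M.toGr} {s t' t : ℕ} (hD : M.Dbl C s t' t) (I F : Finset E) (b b' : ℕ) :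
    (swD C I F b b' t' t).Adm := by
  obtain ⟨h1, h2, h3, -⟩ := hD
  have hs : ({C.h t', C.h t} : Finset E) ⊆ C.cutR (t' + 1) t := by
    intro e he
    rcases Finset.mem_insert.1 he with rfl | he
    · exact C.mem_cutR_left h2 h3
    · rw [Finset.mem_singleton.1 he]
      exact C.mem_cutR_right h2 h3
  refine ⟨C.cutR_card hM.cubic h2 h3, (C.rr_subset I b t' t).trans hs, (C.rr_subset F b' t' t).trans hs,
    (Finset.card_le_card (C.rr_subset I b t' t)).trans Finset.card_le_two,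
    (Finset.card_le_card (C.rr_subset F b' t' t)).trans Finset.card_le_two, ?_⟩
  simp [swD]

theorem pat_eq {C : Cyc M.toGr} {s t' t : ℕ} (hD : M.Dbl C s t' t) (F : Finset E) :
    C.stn F s t' ∩ (C.seg (t' + 1) t ∪ {C.h t', C.h t}) = C.stn F t' t' ∩ (C.seg (t' + 1) t ∪ {C.h t', C.h t}) := by
  obtain ⟨h1, h2, h3, -⟩ := hD
  ext e
  simp only [mem_inter]
  refine and_congr_left fun he => ?_
  have key : ∀ j, t' < j → j < C.l → (C.h j ∈ C.stn F s t' ↔ C.h j ∈ C.stn F t' t') := fun j a b => by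
    rw [C.mem_stn_later F h1.le a b, C.mem_stn_later F le_rfl a b]
  rcases Finset.mem_union.1 he with he | he
  · obtain ⟨j, a, b, rfl⟩ := C.mem_seg.1 he
    exact key j (by omega) (by omega)
  · rcases Finset.mem_insert.1 he with rfl | he
    · exact iff_of_false (C.not_mem_stn F s t') (C.not_mem_stn F t' t')
    · rw [Finset.mem_singleton.1 he]
      exact key t (by omega) h3

theorem Ok.thB_nonneg (hM : M.Ok) (C : Cyc M.toGr) (I : Finset E) (b b' t' t : ℕ) : 0 ≤ thB C I b b' t' t := by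
  unfold thB
  refine div_nonneg (mul_nonneg (wt_pos hM.x_pos _).le (hM.x_pos _).le) (mul_nonneg ?_ ?_)
  · split_ifs
    · exact (hM.x_pos _).le
    · exact zero_le_one
  · split_ifs
    · exact (hM.x_pos _).le
    · exact zero_le_one

theorem Ok.thB_eq (hM : M.Ok) {C : Cyc M.toGr} (hC : C.all ⊆ I ∆ F) {b b' t' t : ℕ} (hb : b ≤ t') (hb' : b' ≤ t')
    (ht' : t' < t) (ht : t < C.l) :
    wt M.x {C.h b, C.h t'} * (wt M.x (C.stn I b t') * wt M.x (C.stn F b' t')) =
      thB C I b b' t' t * (wt M.x (C.stn I b t) * wt M.x (C.stn F b' t)) := by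
  rw [C.stn_step F hb' ht' ht]
  exact hM.move_wt hC hb ht' ht (C.not_mem_stn F b' t') fun j a b => C.mem_stn_later F hb' a (by omega)

theorem Ok.fresh_move (hM : M.Ok) {C : Cyc M.toGr} (hC : C.all ⊆ I ∆ F) (hI : I ∈ M.Om 0) (hF : F ∈ M.Om 0)
    {b b' t' t : ℕ} (hb : b ≤ t') (hb' : b' ≤ t') (ht' : t' + 1 < t) (ht : t < C.l) {Y : Finset E}
    (hY : Y ∈ M.Om (pr (C.pL F b') (C.qL F b' t')))
    (hpat : Y ∩ (C.seg (t' + 1) t ∪ {C.h t', C.h t}) = C.stn F b' t' ∩ (C.seg (t' + 1) t ∪ {C.h t', C.h t})) :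
    M.swS (swD C I F b b' t' t) (C.stn I b t') Y = C.seg (t' + 1) t ∧
    M.sw1 (swD C I F b b' t' t) (C.stn I b t') Y = C.stn I b t ∧
    M.sw2 (swD C I F b b' t' t) (C.stn I b t') Y = Y ∆ C.seg (t' + 1) t ∆ C.rr F b' t' t ∧
    Y ∆ C.seg (t' + 1) t ∆ C.rr F b' t' t ∈ M.Om (pr (C.pL F b') (C.qL F b' t)) ∧
    wt M.x {C.h b, C.h t'} * (wt M.x (C.stn I b t') * wt M.x Y) =
      thB C I b b' t' t * (wt M.x (C.stn I b t) * wt M.x (Y ∆ C.seg (t' + 1) t ∆ C.rr F b' t' t)) := by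
  have pat : ∀ e ∈ C.seg (t' + 1) t ∪ {C.h t', C.h t}, (e ∈ Y ↔ e ∈ C.stn F b' t') := by
    intro e he
    have := Finset.ext_iff.1 hpat e
    simp only [mem_inter, he, and_true] at this
    exact this
  have hY0 : C.h t' ∉ Y := by
    rw [pat _ (by simp)]
    exact C.not_mem_stn F b' t'
  have hY1 : ∀ j, t' < j → j ≤ t → (C.h j ∈ Y ↔ C.h j ∈ F) := by
    intro j a c
    rw [pat, C.mem_stn_later F hb' a (by omega)]
    rcases c.lt_or_eq with c | rfl
    · exact Finset.mem_union_left _ (C.mem_seg.2 ⟨j, a, c, rfl⟩)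
    · simp
  have hX := stn_mem_Om C hI hb (t := t') (by omega)
  have hS : M.swS (swD C I F b b' t' t) (C.stn I b t') Y = C.seg (t' + 1) t := by
    unfold Gr.swS
    refine C.comp_eq_seg hM.cubic ht' ht (seg_sub_symm hC hb ht hY1) fun j a c => ?_
    have nv : ∀ i, i ≤ t' + 1 → C.v j ≠ C.v i := fun i hi => C.v_ne (by omega) (by omega) (by omega) (by omega)
    have np : ∀ (J : Finset E) (i : ℕ), i ≤ t' → C.v j ≠ C.pL J i := fun J i hi => by
      rcases C.pL_cases J i with h | h <;> rw [h] <;> exact nv _ (by omega)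
    have nq : ∀ (J : Finset E) (i : ℕ), C.v j ≠ C.qL J i t' := fun J i => by
      rcases C.qL_cases J i t' with h | h <;> rw [h] <;> exact nv _ (by omega)
    rw [bd_symmDiff_of_mem hX hY, Pi.add_apply, pr_apply_of_ne (np I b hb) (nq I b),
      pr_apply_of_ne (np F b' hb') (nq F b'), add_zero]
  refine ⟨hS, ?_, ?_, ?_, hM.move_wt hC hb (by omega) ht hY0 hY1⟩
  · unfold Gr.sw1
    rw [hS, C.stn_step I hb (by omega) ht]
    rfl
  · unfold Gr.sw2
    rw [hS]
    rfl
  · have w1 := mem_Om.1 (stn_mem_Om C hF hb' (t := t') (by omega))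
    have w2 := mem_Om.1 (stn_mem_Om C hF (s := b') (t := t) (by omega) ht)
    rw [C.stn_step F hb' (by omega) ht, Gr.bd_symmDiff, Gr.bd_symmDiff, w1] at w2
    rw [mem_Om, Gr.bd_symmDiff, Gr.bd_symmDiff, mem_Om.1 hY]
    exact w2

theorem either_aux {a1 a2 b1 b2 L z0 z1 : ℝ} (hL : 0 ≤ L) (h0 : 0 < z0) (h1 : 0 < z1)
    (h11 : a1 * b1 ≤ L ^ 2) (h12 : a1 * b2 ≤ L ^ 2) (h21 : a2 * b1 ≤ L ^ 2) (h22 : a2 * b2 ≤ L ^ 2) :
    (a1 * z1 ≤ L * z0 ∧ a2 * z1 ≤ L * z0) ∨ (b1 * z0 ≤ L * z1 ∧ b2 * z0 ≤ L * z1) := by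
  have key : ∀ a b : ℝ, a * b ≤ L ^ 2 → L * z0 < a * z1 → L * z1 < b * z0 → False := by
    intro a b hab ha hb
    have h2 : (L * z0) * (L * z1) < (a * z1) * (b * z0) :=
      mul_lt_mul'' ha hb (mul_nonneg hL h0.le) (mul_nonneg hL h1.le)
    have h3 : a * b * (z0 * z1) ≤ L ^ 2 * (z0 * z1) := mul_le_mul_of_nonneg_right hab (mul_pos h0 h1).le
    nlinarith only [h2, h3]
  by_contra hc
  rw [not_or, not_and_or, not_and_or] at hc
  obtain ⟨ha | ha, hb | hb⟩ := hc
  · exact key _ _ h11 (not_le.1 ha) (not_le.1 hb)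
  · exact key _ _ h12 (not_le.1 ha) (not_le.1 hb)
  · exact key _ _ h21 (not_le.1 ha) (not_le.1 hb)
  · exact key _ _ h22 (not_le.1 ha) (not_le.1 hb)

theorem Ok.either_or (hM : M.Ok) {C : Cyc M.toGr} (hC : C.all ⊆ I ∆ F) {s t' t : ℕ} (hD : M.Dbl C s t' t)
    (z : ℕ → ℝ) (hs : 0 < z s) (ht : 0 < z t') :
    ∃ b', (b' = s ∨ b' = t') ∧ LoadOK C I F s b' t' t z ∧ LoadOK C I F t' b' t' t z := by
  have hgc := hM.good_child hD
  have hcr := fun (p q a a' b b' : V) => hM.cross (p := p) (q := q) (a := a) (a' := a') (b := b) (b' := b') hD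
  obtain ⟨h1, h2, h3, g1, g2, -⟩ := hD
  have hL : (0 : ℝ) ≤ LL E := zero_le_one.trans one_le_LL
  have l1 := hM.lab_le C hC h1.le (by omega) g1
  have l2 := hM.lab_le C hC (s := s) (t := t) (by omega) h3 g2
  have l3 := hM.lab_le C hC (s := t') (t := t') le_rfl (by omega) (Or.inl rfl)
  have l4 := hM.lab_le C hC (s := t') (t := t) (by omega) h3 hgc
  have n1 : C.h s ≠ C.h t' := h_ne C h1 (by omega)
  have n2 : C.h s ≠ C.h t := h_ne C (by omega) h3
  have n3 : C.h t' ≠ C.h t := h_ne C (by omega) h3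
  have w1 : wt M.x {C.h s, C.h t'} = M.x (C.h s) * M.x (C.h t') := by unfold wt; rw [Finset.prod_pair n1]
  have w2 : wt M.x {C.h s, C.h t} = M.x (C.h s) * M.x (C.h t) := by unfold wt; rw [Finset.prod_pair n2]
  have w3 : wt M.x {C.h t', C.h t'} = M.x (C.h t') := by simp [wt]
  have w4 : wt M.x {C.h t', C.h t} = M.x (C.h t') * M.x (C.h t) := by unfold wt; rw [Finset.prod_pair n3]
  have m1 := C.mem_iff hC (t := t') (by omega)
  have bI := hM.base_le C I (t := t') (by omega)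
  have bF := hM.base_le C F (t := t') (by omega)
  have qI : C.qL I s t = C.qL I t' t := by
    unfold Cyc.qL; rw [if_neg (by omega), if_neg (show t' ≠ t by omega)]
  have qF : C.qL F s t = C.qL F t' t := by
    unfold Cyc.qL; rw [if_neg (by omega), if_neg (show t' ≠ t by omega)]
  have c1 := hcr (C.pL F s) (C.pL I s) (C.qL F s t') (C.pL F t') (C.qL F t' t) (C.qL I s t)
    (C.joins_pL hC (by omega)).symm (C.joins_qp F h1 (by omega))
    (by rw [qI]; exact (C.joins_qL hC (s := t') (by omega) h3).symm)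
  have c2 := hcr (C.pL I s) (C.pL F s) (C.qL I s t') (C.pL I t') (C.qL I t' t) (C.qL F s t)
    (C.joins_pL hC (by omega)) (C.joins_qp I h1 (by omega))
    (by rw [qF]; exact C.joins_qL hC (s := t') (by omega) h3)
  have xg := hM.x_pos (C.h t')
  have xe := hM.x_pos (C.h s)
  have xg' := hM.x_pos (C.h t)
  have rn : ∀ u v, 0 ≤ M.r u v := fun u v => hM.toPos.rA_nonneg _
  have t1 : thB C I s s t' t = M.x (C.h s) * M.x (C.h t) := by
    unfold thB
    rw [w1]
    by_cases c : C.h t' ∈ I <;> simp only [h1, c, true_and, not_true_eq_false, not_false_eq_true, if_true, if_false] <;>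
      field_simp
  have t2 : thB C I t' t' t' t = M.x (C.h t') * M.x (C.h t) := by
    unfold thB
    rw [w3]
    simp
  have t3 : thB C I t' s t' t = (if C.h t' ∈ F then M.x (C.h t') else 1) * M.x (C.h t) := by
    unfold thB
    rw [w3]
    by_cases c : C.h t' ∈ I <;>
      simp only [h1, c, m1, lt_irrefl, false_and, true_and, not_true_eq_false, not_false_eq_true, if_true, if_false] <;>
      field_simp
  have t4 : thB C I s t' t' t = (if C.h t' ∈ I then M.x (C.h t') else 1) * (M.x (C.h s) * M.x (C.h t)) := by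
    unfold thB
    rw [w1]
    by_cases c : C.h t' ∈ I <;>
      simp only [h1, c, lt_irrefl, false_and, true_and, not_true_eq_false, not_false_eq_true, if_true, if_false] <;>
      field_simp
  have t5 : (if C.h t' ∈ F then M.x (C.h t') else 1) * (if C.h t' ∈ I then M.x (C.h t') else 1) = M.x (C.h t') := by
    by_cases c : C.h t' ∈ I <;> simp [m1, c]
  have d1 : LoadOK C I F s s t' t z := by
    refine ⟨mul_le_mul_of_nonneg_right l1 hs.le, ?_⟩
    rw [t1, ← w2]
    exact mul_le_mul_of_nonneg_right l2 hs.le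
  have d2 : LoadOK C I F t' t' t' t z := by
    refine ⟨mul_le_mul_of_nonneg_right l3 ht.le, ?_⟩
    rw [t2, ← w4]
    exact mul_le_mul_of_nonneg_right l4 ht.le
  have pp : ∀ a b : ℝ, 0 ≤ b → a ≤ LL E → b ≤ LL E → a * b ≤ LL E ^ 2 := fun a b hb ha hb' => by
    rw [sq]; exact mul_le_mul ha hb' hb hL
  have p1 : ∀ a b : ℝ, 0 ≤ b → a ≤ 1 → b ≤ LL E ^ 2 → a * b ≤ LL E ^ 2 := fun a b hb ha hb' => by
    have := mul_le_mul ha hb' hb zero_le_one
    rwa [one_mul] at this
  refine (either_aux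
      (a1 := wt M.x {C.h t', C.h t'} * M.r (C.pL I t') (C.qL I t' t') * M.r (C.pL F s) (C.qL F s t'))
      (a2 := thB C I t' s t' t * M.r (C.pL I t') (C.qL I t' t) * M.r (C.pL F s) (C.qL F s t))
      (b1 := wt M.x {C.h s, C.h t'} * M.r (C.pL I s) (C.qL I s t') * M.r (C.pL F t') (C.qL F t' t'))
      (b2 := thB C I s t' t' t * M.r (C.pL I s) (C.qL I s t) * M.r (C.pL F t') (C.qL F t' t))
      hL hs ht ?_ ?_ ?_ ?_).elim (fun h => ⟨s, Or.inl rfl, d1, h⟩) (fun h => ⟨t', Or.inr rfl, h, d2⟩)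
  · refine le_of_eq_of_le ?_ (pp _ _ (mul_nonneg (mul_nonneg (wt_pos hM.x_pos _).le (rn _ _)) (rn _ _)) l3 l1)
    ring
  · refine le_of_eq_of_le ?_ (p1 _ _ (mul_nonneg (by positivity) (mul_nonneg (mul_nonneg (rn _ _) (rn _ _)) (rn _ _))) bI c1)
    rw [t4, w3]
    ring
  · refine le_of_eq_of_le ?_ (p1 _ _ (mul_nonneg (by positivity) (mul_nonneg (mul_nonneg (rn _ _) (rn _ _)) (rn _ _))) bF c2)
    rw [t3, w1]
    ring
  · refine le_of_eq_of_le ?_ (pp _ _ (mul_nonneg (mul_nonneg (wt_pos hM.x_pos _).le (rn _ _)) (rn _ _)) l4 l2)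
    rw [t3, t4, w4, w2]
    generalize (if C.h t' ∈ F then M.x (C.h t') else 1) = u at *
    generalize (if C.h t' ∈ I then M.x (C.h t') else 1) = u' at *
    rw [← t5]
    ring

end Model

end Crest.Agent.R304
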