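import Crest.Agent.R304.ParL
import Crest.Agent.R304.Basic

/-!
# Row 304: Inst
The split graph.  A node is `i * (2n) + d` (`i < n`, `d < 2n`), a pair edge is `i * n + j`, a path edge is `n² + i * (2n-1) + d` (`d < 2n-1`) and joins `(i, d)`, `(i, d+1)`.  First prove normal forms
(`Nat.div_add_mod`, `Nat.mul_add_div`, `Nat.mul_add_mod`).
* `cubic`: the edges at the node `(i, d)` lie in the image of the three indices: path edge `(i, d-1)`, path edge `(i, d)`, and the pair edge `i * n + d` (if `d < n`) or `(d - n) * n + i`.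
* `bd_seg`: induction on `max d d' - min d d'` (or: `bd_apply` and a direct count).  `bd_cc`: `fs` of a `xor` is the symmetric difference (`fs_xor`), `pr_add_pr`.
-/

set_option autoImplicit false

noncomputable section

namespace Crest.Agent.R304

open Finset
open scoped symmDiff
open Crest.Agent.R309 (avgN avgL Tape digs ind blk)

variable {n s : ℕ}

theorem Inst_div {m d : ℕ} (i : ℕ) (hd : d < m) : (i * m + d) / m = i := by
  rw [mul_comm, Nat.mul_add_div (by omega), Nat.div_eq_of_lt hd, add_zero]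

theorem Inst_mod {m d : ℕ} (i : ℕ) (hd : d < m) : (i * m + d) % m = d := by
  rw [mul_comm, Nat.mul_add_mod, Nat.mod_eq_of_lt hd]

theorem Inst_lt {m i d k : ℕ} (hi : i < k) (hd : d < m) : i * m + d < k * m := by
  have : (i + 1) * m ≤ k * m := Nat.mul_le_mul_right _ hi
  rw [add_mul, one_mul] at this
  omega

theorem Inst_uniq {m i i' d d' : ℕ} (hd : d < m) (hd' : d' < m) (h : i * m + d = i' * m + d') :
    i = i' ∧ d = d' :=
  ⟨by rw [← Inst_div i hd, h, Inst_div i' hd'], by rw [← Inst_mod i hd, h, Inst_mod i' hd']⟩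

theorem Inst_nf {k m e : ℕ} (h : e < k * m) : ∃ i < k, ∃ d < m, e = i * m + d := by
  have hm : 0 < m := Nat.pos_of_ne_zero (by rintro rfl; simp at h)
  exact ⟨e / m, (Nat.div_lt_iff_lt_mul hm).2 h, e % m, Nat.mod_lt _ hm, (Nat.div_add_mod' e m).symm⟩

theorem Inst_path_nf {e : ℕ} (h1 : n * n ≤ e) (h2 : e < mE n) :
    ∃ i < n, ∃ d < 2 * n - 1, e = n * n + (i * (2 * n - 1) + d) := by
  obtain ⟨i, hi, d, hd, h⟩ := Inst_nf (k := n) (m := 2 * n - 1) (e := e - n * n) (by unfold mE at h2; omega)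
  exact ⟨i, hi, d, hd, by omega⟩

theorem Inst_cases {e : ℕ} (he : e < mE n) : (∃ i < n, ∃ j < n, e = i * n + j) ∨
    ∃ i < n, ∃ d < 2 * n - 1, e = n * n + (i * (2 * n - 1) + d) := by
  rcases Nat.lt_or_ge e (n * n) with h | h
  · exact Or.inl (Inst_nf h)
  · exact Or.inr (Inst_path_nf h he)

theorem Inst_src_pair {i j : ℕ} (hi : i < n) (hj : j < n) : srcN n (i * n + j) = i * (2 * n) + j := by
  rw [srcN, if_pos (Inst_lt hi hj), Inst_div i hj, Inst_mod i hj]

theorem Inst_tgt_pair {i j : ℕ} (hi : i < n) (hj : j < n) :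
    tgtN n (i * n + j) = j * (2 * n) + (n + i) := by
  rw [tgtN, if_pos (Inst_lt hi hj), Inst_div i hj, Inst_mod i hj]

theorem Inst_src_path (i : ℕ) {d : ℕ} (hd : d < 2 * n - 1) :
    srcN n (n * n + (i * (2 * n - 1) + d)) = i * (2 * n) + d := by
  rw [srcN, if_neg (by omega), Nat.add_sub_cancel_left, Inst_div i hd, Inst_mod i hd]

theorem Inst_tgt_path (i : ℕ) {d : ℕ} (hd : d < 2 * n - 1) :
    tgtN n (n * n + (i * (2 * n - 1) + d)) = i * (2 * n) + (d + 1) := by
  rw [tgtN, if_neg (by omega), Inst_src_path i hd, add_assoc]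

theorem Inst_path_lt {i d : ℕ} (hi : i < n) (hd : d < 2 * n - 1) :
    n * n + (i * (2 * n - 1) + d) < mE n :=
  Nat.add_lt_add_left (Inst_lt hi hd) _

theorem mem_fs {p : ℕ → Bool} {e : Fin (mE n)} : e ∈ fs n p ↔ p e = true := by
  simp [fs]

theorem fs_xor (p q : ℕ → Bool) : fs n (fun e => xor (p e) (q e)) = fs n p ∆ fs n q := by
  ext e
  simp only [mem_fs, Finset.mem_symmDiff]
  cases p e <;> cases q e <;> simp

theorem memB_iff {m : ℕ} (X : Finset (Fin m)) (e : Fin m) : memB X e = true ↔ e ∈ X := by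
  simp only [memB, decide_eq_true_eq]
  exact ⟨fun ⟨a, ha, h⟩ => Fin.ext h ▸ ha, fun h => ⟨e, h, rfl⟩⟩

theorem memB_of_le {m : ℕ} (X : Finset (Fin m)) {e : ℕ} (he : m ≤ e) : memB X e = false := by
  simp only [memB, decide_eq_false_iff_not]
  rintro ⟨a, -, h⟩
  have := a.2
  omega

theorem incB_iff (e : Fin (mE n)) (v : ℕ) : incB n e v = true ↔ (gr n).Inc e v := by
  simp [incB, Gr.Inc, gr]

theorem srcN_lt {e : ℕ} (he : e < mE n) : srcN n e < nV n := by
  unfold nV
  rcases Inst_cases he with ⟨i, hi, j, hj, rfl⟩ | ⟨i, hi, d, hd, rfl⟩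
  · rw [Inst_src_pair hi hj]
    exact Inst_lt hi (by omega)
  · rw [Inst_src_path i hd]
    exact Inst_lt hi (by omega)

theorem tgtN_lt {e : ℕ} (he : e < mE n) : tgtN n e < nV n := by
  unfold nV
  rcases Inst_cases he with ⟨i, hi, j, hj, rfl⟩ | ⟨i, hi, d, hd, rfl⟩
  · rw [Inst_tgt_pair hi hj]
    exact Inst_lt hj (by omega)
  · rw [Inst_tgt_path i hd]
    exact Inst_lt hi (by omega)

theorem isV_iff {v : ℕ} : (gr n).IsV v ↔ v < nV n := by
  constructor
  · rintro ⟨e, h | h⟩
    · exact h ▸ srcN_lt e.2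
    · exact h ▸ tgtN_lt e.2
  · intro hv
    obtain ⟨i, hi, d, hd, rfl⟩ := Inst_nf (k := n) (m := 2 * n) hv
    rcases Nat.lt_or_ge d n with h | h
    · exact ⟨⟨i * n + d, lt_of_lt_of_le (Inst_lt hi h) (Nat.le_add_right _ _)⟩,
        Or.inl (Inst_src_pair hi h)⟩
    · obtain ⟨j, rfl⟩ := Nat.exists_eq_add_of_le h
      have hj : j < n := by omega
      exact ⟨⟨j * n + i, lt_of_lt_of_le (Inst_lt hj hi) (Nat.le_add_right _ _)⟩,
        Or.inr (Inst_tgt_pair hj hi)⟩

theorem cubic (n : ℕ) : (gr n).Cubic := by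
  constructor
  · rintro ⟨e, he⟩
    show srcN n e ≠ tgtN n e
    rcases Inst_cases he with ⟨i, hi, j, hj, rfl⟩ | ⟨i, hi, d, hd, rfl⟩
    · rw [Inst_src_pair hi hj, Inst_tgt_pair hi hj]
      intro h
      have := Inst_uniq (by omega) (by omega) h
      omega
    · rw [Inst_src_path i hd, Inst_tgt_path i hd]
      omega
  · intro v
    refine le_trans (Finset.card_le_card_of_injOn Fin.val
      (t := {n * n + (v / (2 * n) * (2 * n - 1) + (v % (2 * n) - 1)),
        n * n + (v / (2 * n) * (2 * n - 1) + v % (2 * n)),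
        if v % (2 * n) < n then v / (2 * n) * n + v % (2 * n) else (v % (2 * n) - n) * n + v / (2 * n)})
      ?_ Fin.val_injective.injOn) Finset.card_le_three
    rintro ⟨e, he⟩ h
    have h' : srcN n e = v ∨ tgtN n e = v := (Finset.mem_filter.1 h).2
    simp only [Finset.coe_insert, Finset.coe_singleton, Set.mem_insert_iff, Set.mem_singleton_iff]
    rcases Inst_cases he with ⟨i, hi, j, hj, rfl⟩ | ⟨i, hi, d, hd, rfl⟩
    · rw [Inst_src_pair hi hj, Inst_tgt_pair hi hj] at h'
      right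
      right
      rcases h' with rfl | rfl
      · rw [Inst_div i (by omega), Inst_mod i (by omega), if_pos hj]
      · rw [Inst_div j (by omega), Inst_mod j (by omega), if_neg (by omega), Nat.add_sub_cancel_left]
    · rw [Inst_src_path i hd, Inst_tgt_path i hd] at h'
      rcases h' with rfl | rfl
      · right
        left
        rw [Inst_div i (by omega), Inst_mod i (by omega)]
      · left
        rw [Inst_div i (by omega), Inst_mod i (by omega), Nat.add_sub_cancel]

/-- the vertices of the two ends of an edge -/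
theorem src_div {e : ℕ} (he : e < n * n) : srcN n e / (2 * n) = e / n ∧ tgtN n e / (2 * n) = e % n := by
  obtain ⟨i, hi, j, hj, rfl⟩ := Inst_nf he
  rw [Inst_src_pair hi hj, Inst_tgt_pair hi hj, Inst_div i hj, Inst_mod i hj, Inst_div i (by omega),
    Inst_div j (by omega)]
  exact ⟨rfl, rfl⟩

theorem path_div {e : ℕ} (h1 : n * n ≤ e) (h2 : e < mE n) : srcN n e / (2 * n) = tgtN n e / (2 * n) := by
  obtain ⟨i, hi, d, hd, rfl⟩ := Inst_path_nf h1 h2
  rw [Inst_src_path i hd, Inst_tgt_path i hd, Inst_div i (by omega), Inst_div i (by omega)]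

theorem isReal_lt {e : ℕ} (h : isReal n e = true) : e < n * n := by
  simp only [isReal, Bool.and_eq_true, decide_eq_true_eq] at h
  exact h.1

theorem isVirt_lt {e : ℕ} (h : isVirt n e = true) : e < n * n := by
  simp only [isVirt, Bool.and_eq_true, decide_eq_true_eq] at h
  exact h.1

theorem lt_mE {e : ℕ} (h : e < n * n) : e < mE n := by
  exact lt_of_lt_of_le h (Nat.le_add_right _ _)

theorem not_virt_of_real {e : ℕ} (h : isReal n e = true) : isVirt n e = false := by
  simp only [isReal, Bool.and_eq_true, decide_eq_true_eq] at h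
  simp only [isVirt, Bool.and_eq_false_iff, decide_eq_false_iff_not]
  right
  omega

theorem vE_virt {i j : ℕ} (hi : i < n) (hj : j < n) (hij : i ≠ j) : isVirt n (vE n i j) = true := by
  have h1 : max i j < n := max_lt hi hj
  have h2 : min i j < n := lt_of_le_of_lt (min_le_left _ _) hi
  simp only [isVirt, vE, Bool.and_eq_true, decide_eq_true_eq]
  rw [Inst_div _ h2, Inst_mod _ h2]
  exact ⟨Inst_lt h1 h2, by omega⟩

theorem rE_real {e : ℕ} (h : isVirt n e = true) :
    isReal n (rE n e) = true ∧ vE n (rE n e / n) (rE n e % n) = e := by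
  obtain ⟨i, hi, j, hj, rfl⟩ := Inst_nf (isVirt_lt h)
  simp only [isVirt, Bool.and_eq_true, decide_eq_true_eq] at h
  rw [Inst_div i hj, Inst_mod i hj] at h
  simp only [isReal, rE, vE, Bool.and_eq_true, decide_eq_true_eq]
  rw [Inst_div i hj, Inst_mod i hj, Inst_div j hi, Inst_mod j hi, max_eq_right h.2.le,
    min_eq_left h.2.le]
  exact ⟨⟨Inst_lt hj hi, h.2⟩, rfl⟩

theorem Inst_segB_iff {i d d' e : ℕ} : segB n i d d' e = true ↔ n * n ≤ e ∧ (e - n * n) / (2 * n - 1) = i ∧
    min d d' ≤ (e - n * n) % (2 * n - 1) ∧ (e - n * n) % (2 * n - 1) < max d d' := by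
  simp only [segB, Bool.and_eq_true, decide_eq_true_eq, and_assoc]

theorem Inst_segB_comm (i d d' : ℕ) : segB n i d d' = segB n i d' d := by
  funext e
  simp only [segB, min_comm d, max_comm d]

theorem Inst_seg_self (i d : ℕ) : fs n (segB n i d d) = ∅ := by
  ext e
  simp only [mem_fs, Inst_segB_iff, Finset.notMem_empty, iff_false]
  omega

theorem Inst_seg_le {i d d' : ℕ} (hi : i < n) (hdd : d ≤ d') (hd' : d' < 2 * n) :
    (gr n).bd (fs n (segB n i d d')) = pr (i * (2 * n) + d) (i * (2 * n) + d') := by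
  induction d', hdd using Nat.le_induction with
  | base => rw [Inst_seg_self, Gr.bd_empty, pr_self]
  | succ c hc ih =>
    have hc' : c < 2 * n - 1 := by omega
    have h : fs n (segB n i d (c + 1)) = fs n (segB n i d c) ∆ {⟨_, Inst_path_lt hi hc'⟩} := by
      ext ⟨e, he⟩
      simp only [mem_fs, Inst_segB_iff, Finset.mem_symmDiff, Finset.mem_singleton, Fin.mk.injEq]
      rcases Nat.lt_or_ge e (n * n) with h | h
      · omega
      · obtain ⟨i', hi', d', hd', rfl⟩ := Inst_path_nf h he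
        have h1 : n * n + (i' * (2 * n - 1) + d') = n * n + (i * (2 * n - 1) + c) ↔ i' = i ∧ d' = c :=
          ⟨fun h => Inst_uniq hd' hc' (Nat.add_left_cancel h), fun h => by rw [h.1, h.2]⟩
        rw [h1, Nat.add_sub_cancel_left, Inst_div i' hd', Inst_mod i' hd']
        omega
    have hj : (gr n).Joins ⟨_, Inst_path_lt hi hc'⟩ (i * (2 * n) + c) (i * (2 * n) + (c + 1)) :=
      Or.inl ⟨Inst_src_path i hc', Inst_tgt_path i hc'⟩
    rw [h, Gr.bd_symmDiff, ih (by omega), hj.bd, pr_add_pr]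

theorem Inst_dart_lt {i j : ℕ} (hj : j < n) : dart n i j < 2 * n := by
  unfold dart
  split_ifs <;> omega

theorem Inst_bd_vE {i j : ℕ} (hi : i < n) (hj : j < n) (hij : i ≠ j) :
    (gr n).bd (fs n fun e => decide (e = vE n i j)) =
      pr (i * (2 * n) + dart n i j) (j * (2 * n) + dart n j i) := by
  have hlt : vE n i j < mE n := lt_mE (isVirt_lt (vE_virt hi hj hij))
  have h : (fs n fun e => decide (e = vE n i j)) = {⟨_, hlt⟩} := by
    ext ⟨e, he⟩
    simp only [mem_fs, decide_eq_true_eq, Finset.mem_singleton, Fin.mk.injEq]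
  rw [h]
  refine Gr.Joins.bd ?_
  show (srcN n (vE n i j) = _ ∧ tgtN n (vE n i j) = _) ∨ (srcN n (vE n i j) = _ ∧ tgtN n (vE n i j) = _)
  unfold vE dart
  rcases lt_or_gt_of_ne hij with h | h
  · rw [max_eq_right h.le, min_eq_left h.le, if_neg (by omega), if_pos h]
    exact Or.inr ⟨Inst_src_pair hj hi, Inst_tgt_pair hj hi⟩
  · rw [max_eq_left h.le, min_eq_right h.le, if_pos h, if_neg (by omega)]
    exact Or.inl ⟨Inst_src_pair hi hj, Inst_tgt_pair hi hj⟩

theorem bd_seg {i d d' : ℕ} (hi : i < n) (hd : d < 2 * n) (hd' : d' < 2 * n) :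
    (gr n).bd (fs n (segB n i d d')) = pr (i * (2 * n) + d) (i * (2 * n) + d') := by
  rcases le_total d d' with h | h
  · exact Inst_seg_le hi h hd'
  · rw [Inst_segB_comm, pr_comm]
    exact Inst_seg_le hi h hd

theorem bd_cc {u v : ℕ} (hu : u < nV n) (hv : v < nV n) : (gr n).bd (cc n u v) = pr u v := by
  obtain ⟨i, hi, d, hd, rfl⟩ := Inst_nf (k := n) (m := 2 * n) hu
  obtain ⟨j, hj, d', hd', rfl⟩ := Inst_nf (k := n) (m := 2 * n) hv
  unfold cc cB
  simp only [Inst_div _ hd, Inst_div _ hd', Inst_mod _ hd, Inst_mod _ hd']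
  by_cases hij : i = j
  · subst hij
    simp only [if_true]
    exact bd_seg hi hd hd'
  · simp only [if_neg hij]
    rw [fs_xor, fs_xor, Gr.bd_symmDiff, Gr.bd_symmDiff, Inst_bd_vE hi hj hij,
      bd_seg hi hd (Inst_dart_lt hj), bd_seg hj hd' (Inst_dart_lt hi), pr_add_pr, pr_comm (j * (2 * n) + d'),
      pr_add_pr]

theorem cc_self (u : ℕ) : cc n u u = ∅ := by
  unfold cc cB
  simp only [if_true]
  exact Inst_seg_self _ _

/-- inside one vertex the connection consists of path edges -/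
theorem cB_same {u v e : ℕ} (h : u / (2 * n) = v / (2 * n)) (he : cB n u v e = true) : n * n ≤ e := by
  unfold cB at he
  rw [if_pos h] at he
  exact (Inst_segB_iff.1 he).1

/-- between two vertices it consists of path edges and of the virtual edge -/
theorem cB_diff {u v e : ℕ} (hu : u < nV n) (hv : v < nV n) (h : u / (2 * n) ≠ v / (2 * n)) (he : e < n * n) :
    cB n u v e = true ↔ e = vE n (u / (2 * n)) (v / (2 * n)) := by
  have h1 : ∀ i d d', segB n i d d' e = false := by
    intro i d d'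
    rw [← Bool.not_eq_true, Inst_segB_iff]
    omega
  unfold cB
  rw [if_neg h, h1, h1]
  simp

theorem mem_Om_mdl {k : ℕ → ℤ} {X : Finset (Fin (mE n))} : X ∈ (mdl n s k).Om 0 ↔ (gr n).bd X = TT n := by
  rw [Model.mem_Om, add_zero]
  exact Iff.rfl

/-- sums over the `T`-joins -/
theorem sum_St (k : ℕ → ℤ) (f : Finset (Fin (mE n)) → ℝ) : ∑ X : St n, f X.1 = ∑ X ∈ (mdl n s k).Om 0, f X := by
  exact (Finset.sum_subtype (p := fun X => (gr n).bd X = TT n) (F := (inferInstance : Fintype (St n)))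
    _ (fun _ => mem_Om_mdl) f).symm

theorem bt_mk (p : ℕ → Bool) (e : ℕ) : bt (mk n p) e = (decide (e < mE n) && p e) := by
  unfold bt mk
  by_cases he : e < mE n
  · simp [List.getD_eq_getElem?_getD, he]
  · simp [List.getD_eq_getElem?_getD, he]

theorem bt_toL (X : Finset (Fin (mE n))) (e : ℕ) : bt (toL n X) e = memB X e := by
  unfold toL
  rw [bt_mk]
  by_cases he : e < mE n
  · simp [he]
  · rw [memB_of_le X (not_lt.1 he), Bool.and_false]

theorem toL_fs (p : ℕ → Bool) : toL n (fs n p) = mk n p := by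
  unfold toL mk
  refine List.map_congr_left fun e he => ?_
  rw [Bool.eq_iff_iff]
  exact (memB_iff _ ⟨e, List.mem_range.1 he⟩).trans mem_fs

theorem fs_memB (X : Finset (Fin (mE n))) : fs n (memB X) = X := by
  ext e
  rw [mem_fs, memB_iff]

end Crest.Agent.R304
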