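import Crest.Agent.R304.PCInst

/-!
# Row 304: Kernel
One step on lists is one step of the particle chain.
* `avgL_fin`: induction on `T` (`avgN_mod`, `Fin.consEquiv`, `List.ofFn_succ`).
* `tryL_avg`: for `i ≠ j`; `getD_emb`, `mv1L_toL`, `okL_toL`, `kS_toL`, `set_emb`.  If the proposal is not a pair of `T`-joins, `flip q = q`, `step = σ`.  Otherwise the acceptance of `pc` is
  `1/2 * min 1 (lam ^ Δ) = 1/2 * lam ^ Δ.toNat` (`wt_mdl`), `|Δ| ≤ 2 * mE n * 6 s pB ≤ pD s`, `coin_avg`.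
* `stepL_avg`: split the twenty numbers as `1 + 1 + 17 + 1` (`avgL_append`), `avgN_mod` with `pN_dvd`, `s_dvd`.
* `runS_avg`: induction on `t`, peeling off the FIRST block (`blk_zero_append`, `blk_succ_append`, `List.range_succ_eq_map`, `Function.iterate_succ'`), or the last one; use `stepL_emb`.
-/

set_option autoImplicit false

noncomputable section

namespace Crest.Agent.R304

open Finset
open scoped symmDiff
open Crest.Agent.R309 (avgN avgL Tape digs ind blk)

variable {n s : ℕ}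

theorem avgL_fin {B m : ℕ} (hB : 0 < B) (hm : m ∣ B) (T : ℕ) (g : List ℕ → ℝ) :
    avgL B T (fun us => g (us.map (· % m))) =
      (∑ l : Fin T → Fin m, g (List.ofFn fun t => (l t).val)) / (m : ℝ) ^ T := by
  induction T generalizing g with
  | zero => simp [avgL]
  | succ T ih =>
    have h1 : ∀ u, avgL B T (fun us => g ((u :: us).map (· % m))) =
        (∑ l : Fin T → Fin m, g (u % m :: List.ofFn fun t => (l t).val)) / (m : ℝ) ^ T := fun u =>
      ih fun us => g (u % m :: us)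
    simp only [avgL, h1]
    rw [R309.avgN_mod hB hm fun u =>
      (∑ l : Fin T → Fin m, g (u :: List.ofFn fun t => (l t).val)) / (m : ℝ) ^ T, avgN, ← sum_div,
      div_div, ← pow_succ, ← Fin.sum_univ_eq_sum_range
        (fun u => ∑ l : Fin T → Fin m, g (u :: List.ofFn fun t => (l t).val)),
      ← (Fin.consEquiv fun _ : Fin (T + 1) => Fin m).sum_comp, Fintype.sum_prod_type]
    simp [List.ofFn_succ, Fin.consEquiv]

theorem tryL_emb (k : List ℤ) {N : ℕ} (σ : Fin N → St n) (i j : Fin N) (g : List ℕ) (u : ℕ) :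
    ∃ σ' : Fin N → St n, tryL n s k (emb n σ) i j g u = emb n σ' := by
  unfold tryL
  split_ifs with h
  · rw [getD_emb, getD_emb, mv1L_toL, mv2L_toL, okL_toL, okL_toL] at h
    rw [getD_emb, getD_emb, mv1L_toL, mv2L_toL, set_emb σ i ⟨_, h.2.1⟩, set_emb _ j ⟨_, h.2.2.1⟩]
    exact ⟨_, rfl⟩
  · exact ⟨σ, rfl⟩

theorem Par.stepL_emb (h : Par n s) (k : List ℤ) (σ : Fin (pN s) → St n) (us : List ℕ) :
    ∃ σ' : Fin (pN s) → St n, stepL n s k (emb n σ) us = emb n σ' := by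
  exact tryL_emb k σ ⟨_, Nat.mod_lt _ (pN_pos h.s_ge)⟩ ⟨_, Nat.mod_lt _ (pN_pos h.s_ge)⟩ _ _

theorem Par.runS_emb (h : Par n s) (k : List ℤ) (t : ℕ) (σ : Fin (pN s) → St n) (us : List ℕ) :
    ∃ σ' : Fin (pN s) → St n, runS n s k t (emb n σ) us = emb n σ' := by
  induction t with
  | zero => exact ⟨σ, rfl⟩
  | succ t ih =>
    obtain ⟨σ', hσ⟩ := ih
    unfold runS at hσ ⊢
    rw [List.range_succ, List.foldl_append, hσ]
    exact h.stepL_emb k σ' _

theorem Kernel_min (hs : 1024 ≤ s) (Δ : ℤ) : min 1 (lam s ^ Δ) = lam s ^ Δ.toNat := by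
  have h0 := lam_pos hs
  have h1 := (lam_lt_one hs).le
  rcases le_total 0 Δ with h | h
  · rw [min_eq_right (zpow_le_one₀ h0 h1 h), ← zpow_natCast, Int.toNat_of_nonneg h]
  · rw [min_eq_left (one_le_zpow_of_nonpos₀ h0 h1 h), Int.toNat_of_nonpos h, pow_zero]

theorem Kernel_bound (h : Par n s) {k : ℕ → ℤ} (hk : ∀ e, |k e| ≤ (6 * s * pB s : ℕ))
    (X : Finset (Fin (mE n))) : |∑ e ∈ X, k e| ≤ (s * (6 * s * pB s) : ℕ) := by
  refine (abs_sum_le_sum_abs _ _).trans ((sum_le_card_nsmul X _ _ fun e _ => hk e).trans ?_)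
  have h1 : X.card ≤ s := (card_le_univ X).trans (by rw [Fintype.card_fin]; exact h.mE_lt.le)
  rw [nsmul_eq_mul]
  exact_mod_cast Nat.mul_le_mul_right _ h1

theorem Kernel_pD (hs : 1024 ≤ s) : 4 * (s * (6 * s * pB s)) ≤ pD s := by
  have h1 : pD s = s * (s * s * pB s) := by unfold pD pB; ring
  rw [h1, show 4 * (s * (6 * s * pB s)) = 24 * (s * s * pB s) by ring]
  exact Nat.mul_le_mul_right _ (by omega)

theorem Par.tryL_avg (h : Par n s) {μ : List (ℕ × Bool)} (hk : ∀ e, |kF μ e| ≤ (6 * s * pB s : ℕ))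
    (F : List (List Bool) → ℝ) {N : ℕ} (σ : Fin N → St n) {i j : Fin N} (hij : i ≠ j) (l : Lab s) :
    avgN (pBs s) (fun u => F (tryL n s (kL n μ) (emb n σ) i j (labL l) u)) =
      (h.pc (kF μ)).acc l (σ i) (σ j) * F (emb n ((h.pc (kF μ)).step i j l σ)) +
        (1 - (h.pc (kF μ)).acc l (σ i) (σ j)) * F (emb n σ) := by
  have hB := pBs_pos h.s_ge
  have hij' : (i : ℕ) ≠ j := fun e => hij (Fin.ext e)
  simp only [tryL, getD_emb, mv1L_toL, mv2L_toL, kS_toL]
  by_cases hc : (gr n).bd ((gr n).mv1 (mvOf n (labL l)) (σ i).1 (σ j).1) = TT n ∧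
      (gr n).bd ((gr n).mv2 (mvOf n (labL l)) (σ i).1 (σ j).1) = TT n
  · have hmv : (h.pc (kF μ)).mv l (σ i) (σ j) = (⟨_, hc.1⟩, ⟨_, hc.2⟩) :=
      congrArg Prod.snd (dif_pos hc : flip n s (l, σ i, σ j) = _)
    rw [set_emb σ i ⟨_, hc.1⟩, set_emb _ j ⟨_, hc.2⟩, PC.step, PC.acc, hmv]
    generalize emb n (Function.update (Function.update σ i ⟨_, hc.1⟩) j ⟨_, hc.2⟩) = A
    have hZ : (mdl n s (kF μ)).Z 0 ≠ 0 := fun e => by
      have := h.piS_pos (kF μ) (σ i)
      rw [piS, Model.pi, e, div_zero] at this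
      exact lt_irrefl _ this
    have hl := (lam_pos h.s_ge).ne'
    have b1 := abs_le.1 (Kernel_bound h hk ((gr n).mv1 (mvOf n (labL l)) (σ i).1 (σ j).1))
    have b2 := abs_le.1 (Kernel_bound h hk ((gr n).mv2 (mvOf n (labL l)) (σ i).1 (σ j).1))
    have b3 := abs_le.1 (Kernel_bound h hk (σ i).1)
    have b4 := abs_le.1 (Kernel_bound h hk (σ j).1)
    have b5 := Kernel_pD h.s_ge
    simp only [Par.pc, piS, Model.pi, wt_mdl h.s_ge]
    generalize ∑ e ∈ (gr n).mv1 (mvOf n (labL l)) (σ i).1 (σ j).1, kF μ e = a at b1 ⊢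
    generalize ∑ e ∈ (gr n).mv2 (mvOf n (labL l)) (σ i).1 (σ j).1, kF μ e = b at b2 ⊢
    generalize ∑ e ∈ (σ i).1, kF μ e = c at b3 ⊢
    generalize ∑ e ∈ (σ j).1, kF μ e = d at b4 ⊢
    have e1 : lam s ^ a / (mdl n s (kF μ)).Z 0 * (lam s ^ b / (mdl n s (kF μ)).Z 0) /
        (lam s ^ c / (mdl n s (kF μ)).Z 0 * (lam s ^ d / (mdl n s (kF μ)).Z 0)) =
        lam s ^ (a + b - c - d) := by
      rw [zpow_sub₀ hl, zpow_sub₀ hl, zpow_add₀ hl]
      field_simp
    rw [e1, Kernel_min h.s_ge, ← coin_avg h.s_ge (Δ := (a + b - c - d).toNat) (by omega)]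
    refine (R309.avgN_congr (g := fun u => F (emb n σ) +
      (F A - F (emb n σ)) * ind (coin s (a + b - c - d).toNat u = true)) fun u _ => ?_).trans ?_
    · by_cases hu : coin s (a + b - c - d).toNat u = true
      · rw [if_pos ⟨hij', (okL_toL _).2 hc.1, (okL_toL _).2 hc.2, hu⟩, R309.ind_of hu]
        ring
      · rw [if_neg fun k => hu k.2.2.2, R309.ind_of_not hu]
        ring
    · rw [R309.avgN_add, R309.avgN_const hB, R309.avgN_mul_left]
      ring
  · have hmv : (h.pc (kF μ)).mv l (σ i) (σ j) = (σ i, σ j) :=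
      congrArg Prod.snd (dif_neg hc : flip n s (l, σ i, σ j) = _)
    have e1 : (h.pc (kF μ)).step i j l σ = σ := by
      rw [PC.step, hmv, Function.update_eq_self, Function.update_eq_self]
    rw [e1, R309.avgN_congr (g := fun _ => F (emb n σ)) fun u _ => by
      rw [if_neg fun k => hc ⟨(okL_toL _).1 k.2.1, (okL_toL _).1 k.2.2.1⟩], R309.avgN_const hB]
    ring

theorem Kernel_step (k : List ℤ) (pop : List (List Bool)) (u₀ u₁ u : ℕ) {a : List ℕ}
    (ha : a.length = 17) : stepL n s k pop (u₀ :: u₁ :: (a ++ [u])) =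
      tryL n s k pop (u₀ % pN s) (u₁ % pN s) (a.map (· % s)) u := by
  have h1 : labOf s (u₀ :: u₁ :: (a ++ [u])) = a.map (· % s) := by
    refine List.ext_getElem (by simp [labOf, ha]) fun t h1 h2 => ?_
    rw [List.length_map] at h2
    simp [labOf, List.getElem?_append_left h2, List.getElem?_eq_getElem h2]
  have h2 : (u₀ :: u₁ :: (a ++ [u])).getD 19 0 = u := by
    simp [← ha]
  rw [stepL, h1, h2]
  rfl

theorem Par.stepL_avg (h : Par n s) {μ : List (ℕ × Bool)} (hk : ∀ e, |kF μ e| ≤ (6 * s * pB s : ℕ))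
    (F : List (List Bool) → ℝ) (σ : Fin (pN s) → St n) :
    avgL (pBs s) 20 (fun us => F (stepL n s (kL n μ) (emb n σ) us)) =
      (h.pc (kF μ)).P (fun σ' => F (emb n σ')) σ := by
  have hB := pBs_pos h.s_ge
  obtain ⟨G, hG⟩ : ∃ G : ℕ → ℕ → List ℕ → ℝ, ∀ i j g, G i j g =
    avgN (pBs s) fun u => F (tryL n s (kL n μ) (emb n σ) i j g u) := ⟨_, fun _ _ _ => rfl⟩
  have h1 : ∀ u₀ u₁, avgL (pBs s) (17 + 1)
      (fun us => F (stepL n s (kL n μ) (emb n σ) (u₀ :: u₁ :: us))) =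
      (∑ l : Lab s, G (u₀ % pN s) (u₁ % pN s) (labL l)) / (s : ℝ) ^ 17 := fun u₀ u₁ => by
    rw [R309.avgL_append]
    refine (R309.avgL_congr fun a ha => ?_).trans
      (avgL_fin hB (s_dvd h.s_ge) 17 (G (u₀ % pN s) (u₁ % pN s)))
    simp only [R309.avgL_one, Kernel_step _ _ _ _ _ ha.1, hG]
  have h2 : avgL (pBs s) 20 (fun us => F (stepL n s (kL n μ) (emb n σ) us)) =
      avgN (pBs s) fun u₀ => avgN (pBs s) fun u₁ => avgL (pBs s) (17 + 1)
        (fun us => F (stepL n s (kL n μ) (emb n σ) (u₀ :: u₁ :: us))) := rfl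
  have h3 : ∀ i, avgN (pBs s) (fun u₁ => (∑ l : Lab s, G i (u₁ % pN s) (labL l)) / (s : ℝ) ^ 17) =
      (∑ j : Fin (pN s), ∑ l : Lab s, G i j (labL l)) / (s : ℝ) ^ 17 / pN s := fun i => by
    rw [R309.avgN_mod hB (pN_dvd h.s_ge) fun j => (∑ l : Lab s, G i j (labL l)) / (s : ℝ) ^ 17, avgN,
      ← sum_div, Fin.sum_univ_eq_sum_range fun j => ∑ l : Lab s, G i j (labL l)]
  simp only [h2, h1, h3]
  rw [R309.avgN_mod hB (pN_dvd h.s_ge) fun i =>
    (∑ j : Fin (pN s), ∑ l : Lab s, G i j (labL l)) / (s : ℝ) ^ 17 / pN s, avgN, ← sum_div, ← sum_div,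
    ← Fin.sum_univ_eq_sum_range fun i => ∑ j : Fin (pN s), ∑ l : Lab s, G i j (labL l), PC.P,
    div_div, div_div]
  congr 1
  · refine sum_congr rfl fun i _ => sum_congr rfl fun j _ => sum_congr rfl fun l _ => ?_
    rw [hG]
    split_ifs with hij
    · rw [R309.avgN_congr (g := fun _ => F (emb n σ)) fun u _ => by
        rw [tryL, if_neg fun k => k.1 (congrArg _ hij)], R309.avgN_const hB]
    · exact h.tryL_avg hk F σ hij l
  · simp only [Fintype.card_fun, Fintype.card_fin]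
    push_cast
    ring

theorem Par.runS_avg (h : Par n s) {μ : List (ℕ × Bool)} (hk : ∀ e, |kF μ e| ≤ (6 * s * pB s : ℕ))
    (F : List (List Bool) → ℝ) (t : ℕ) (σ : Fin (pN s) → St n) :
    avgL (pBs s) (t * 20) (fun us => F (runS n s (kL n μ) t (emb n σ) us)) =
      (h.pc (kF μ)).P^[t] (fun σ' => F (emb n σ')) σ := by
  induction t generalizing σ with
  | zero => rfl
  | succ t ih =>
    rw [Function.iterate_succ_apply', ← funext ih, ← h.stepL_avg hk fun pop =>
      avgL (pBs s) (t * 20) fun us => F (runS n s (kL n μ) t pop us), Nat.succ_mul, add_comm,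
      R309.avgL_append]
    refine R309.avgL_congr fun us hus => ?_
    simp only [runS, List.range_succ_eq_map, List.foldl_cons, List.foldl_map,
      R309.blk_zero_append hus, Nat.succ_eq_add_one, R309.blk_succ_append hus]

end Crest.Agent.R304
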