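import Crest.Agent.R304.Inst

/-!
# Row 304: Link
The list operations compute the operations on finite sets.  Everything is `mk n p = toL n (fs n p)` (`toL_fs`), `bt_toL`, `memB_iff`, extensionality (`List.map_congr_left`), and
`List.countP` over `List.range (mE n)` = `Finset.card` of a filter of `univ : Finset (Fin (mE n))`.
-/

set_option autoImplicit false

noncomputable section

namespace Crest.Agent.R304

open Finset
open scoped symmDiff
open Crest.Agent.R309 (avgN avgL Tape digs ind blk)

variable {n s : ℕ}

theorem Link_mk_eq {p : ℕ → Bool} {Z : Finset (Fin (mE n))} (h : ∀ e : Fin (mE n), p e = true ↔ e ∈ Z) :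
    mk n p = toL n Z := by
  rw [← toL_fs]
  congr 1
  ext e
  rw [mem_fs, h]

theorem countP_range_eq (p : ℕ → Bool) : (List.range (mE n)).countP p = (fs n p).card := by
  have h1 : (fs n p).card = ((Finset.range (mE n)).filter fun e => p e = true).card := by
    refine Finset.card_bij (fun e _ => e.val) ?_ ?_ ?_
    · intro e he
      exact Finset.mem_filter.2 ⟨Finset.mem_range.2 e.2, mem_fs.1 he⟩
    · intro a _ b _ h
      exact Fin.ext h
    · intro b hb
      obtain ⟨hb1, hb2⟩ := Finset.mem_filter.1 hb
      exact ⟨⟨b, Finset.mem_range.1 hb1⟩, mem_fs.2 hb2, rfl⟩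
  rw [h1, List.countP_eq_length_filter, ← List.toFinset_card_of_nodup (List.nodup_range.filter _)]
  congr 1
  ext e
  simp

theorem growL_toL (S C : Finset (Fin (mE n))) : growL n (toL n S) (toL n C) = toL n ((gr n).grow S C) := by
  unfold growL
  refine Link_mk_eq fun e => ?_
  rw [Bool.and_eq_true, bt_toL, memB_iff, List.any_eq_true]
  simp only [Gr.grow, Finset.mem_filter]
  refine and_congr_right fun _ => ⟨?_, ?_⟩
  · rintro ⟨e', he', h⟩
    have hlt : e' < mE n := List.mem_range.1 he'
    rw [Bool.and_eq_true, bt_toL, Bool.or_eq_true] at h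
    refine ⟨⟨e', hlt⟩, (memB_iff C ⟨e', hlt⟩).1 h.1, ?_⟩
    exact h.2.imp (incB_iff ⟨e', hlt⟩ _).1 (incB_iff ⟨e', hlt⟩ _).1
  · rintro ⟨e', he', h⟩
    refine ⟨e', List.mem_range.2 e'.2, ?_⟩
    rw [Bool.and_eq_true, bt_toL, Bool.or_eq_true]
    exact ⟨(memB_iff C e').2 he', h.imp (incB_iff e' _).2 (incB_iff e' _).2⟩

theorem compL_toL (h : ℕ) (S : Finset (Fin (mE n))) :
    compL n h (toL n S) = toL n ((gr n).comp (fs n fun e => decide (e = h)) S) := by
  unfold compL Gr.comp
  rw [Fintype.card_fin]
  have h0 : (mk n fun e => decide (e = h) && bt (toL n S) e) =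
      toL n ((fs n fun e => decide (e = h)) ∩ S) := by
    refine Link_mk_eq fun e => ?_
    rw [Bool.and_eq_true, bt_toL, memB_iff, Finset.mem_inter, mem_fs]
  rw [h0]
  have key : ∀ (k : ℕ) (C : Finset (Fin (mE n))),
      (growL n (toL n S))^[k] (toL n C) = toL n (((gr n).grow S)^[k] C) := by
    intro k
    induction k with
    | zero => intro C; rfl
    | succ k ih =>
      intro C
      rw [Function.iterate_succ_apply, Function.iterate_succ_apply, growL_toL, ih]
  exact key _ _

theorem degB_toL (X : Finset (Fin (mE n))) (v : ℕ) : degB n (toL n X) v = true ↔ (gr n).bd X v = 1 := by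
  unfold degB
  rw [decide_eq_true_iff, countP_range_eq, Gr.bd_apply (cubic n).1]
  have h : (fs n fun e => bt (toL n X) e && incB n e v) = X.filter fun e => (gr n).Inc e v := by
    ext e
    rw [mem_fs, Bool.and_eq_true, bt_toL, memB_iff, incB_iff, Finset.mem_filter]
  rw [h, ← Nat.odd_iff, ← ZMod.natCast_eq_one_iff_odd]

theorem okL_toL (X : Finset (Fin (mE n))) : okL n (toL n X) = true ↔ (gr n).bd X = TT n := by
  unfold okL
  rw [List.all_eq_true]
  have h01 : ∀ z : ZMod 2, z ≠ 1 → z = 0 := by decide
  constructor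
  · intro h
    funext v
    by_cases hv : v < nV n
    · have h1 := h v (List.mem_range.2 hv)
      rw [beq_iff_eq] at h1
      unfold TT
      by_cases ht : tB n v = true
      · rw [if_pos ht]
        exact (degB_toL X v).1 (h1.trans ht)
      · rw [if_neg ht]
        refine h01 _ fun h2 => ht ?_
        rw [← h1]
        exact (degB_toL X v).2 h2
    · have ht : ¬ tB n v = true := by
        unfold tB
        simp [hv]
      unfold TT
      rw [if_neg ht, Gr.bd_apply (cubic n).1]
      have : (X.filter fun e => (gr n).Inc e v) = ∅ := by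
        refine Finset.filter_eq_empty_iff.2 fun e _ he => hv ?_
        exact isV_iff.1 ⟨e, he⟩
      rw [this]
      simp
  · intro h v _
    rw [beq_iff_eq, Bool.eq_iff_iff, degB_toL, h]
    unfold TT
    by_cases ht : tB n v = true
    · simp [ht]
    · simp [ht]

theorem Link_swL (g : List ℕ) (X Y : Finset (Fin (mE n))) :
    swL n g (toL n X) (toL n Y) =
      toL n ((gr n).swS (mvOf n g).toSw (X ∆ (mvOf n g).c1) (Y ∆ (mvOf n g).c2)) := by
  unfold swL Gr.swS
  have h : (mk n fun e => xor (xor (bt (toL n X) e) (cG n g 0 e)) (xor (bt (toL n Y) e) (cG n g 1 e)) &&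
      !inR g e) = toL n (((X ∆ (mvOf n g).c1) ∆ (Y ∆ (mvOf n g).c2)) \ (mvOf n g).toSw.R) := by
    refine Link_mk_eq fun e => ?_
    simp only [mvOf, bt_toL, Finset.mem_sdiff, Finset.mem_symmDiff, mem_fs]
    simp only [← memB_iff]
    generalize memB X e = a
    generalize cG n g 0 e = b
    generalize memB Y e = c
    generalize cG n g 1 e = d
    generalize inR g e = f
    cases a <;> cases b <;> cases c <;> cases d <;> cases f <;> simp
  rw [h, compL_toL]
  rfl

theorem mv1L_toL (g : List ℕ) (X Y : Finset (Fin (mE n))) :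
    mv1L n g (toL n X) (toL n Y) = toL n ((gr n).mv1 (mvOf n g) X Y) := by
  unfold mv1L flipL
  rw [Link_swL]
  refine Link_mk_eq fun e => ?_
  simp only [Gr.mv1, Gr.sw1, mvOf, bt_toL, Finset.mem_symmDiff, mem_fs]
  simp only [← memB_iff]
  generalize memB X e = a
  generalize cG n g 0 e = b
  generalize memB ((gr n).swS _ _ _) e = c
  generalize inR1 g e = d
  generalize cG n g 2 e = f
  cases a <;> cases b <;> cases c <;> cases d <;> cases f <;> simp

theorem mv2L_toL (g : List ℕ) (X Y : Finset (Fin (mE n))) :
    mv2L n g (toL n X) (toL n Y) = toL n ((gr n).mv2 (mvOf n g) X Y) := by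
  unfold mv2L flipL
  rw [Link_swL]
  refine Link_mk_eq fun e => ?_
  simp only [Gr.mv2, Gr.sw2, mvOf, bt_toL, Finset.mem_symmDiff, mem_fs]
  simp only [← memB_iff]
  generalize memB Y e = a
  generalize cG n g 1 e = b
  generalize memB ((gr n).swS _ _ _) e = c
  generalize inR2 g e = d
  generalize cG n g 3 e = f
  cases a <;> cases b <;> cases c <;> cases d <;> cases f <;> simp

theorem kS_toL (μ : List (ℕ × Bool)) (X : Finset (Fin (mE n))) :
    kS n (kL n μ) (toL n X) = ∑ e ∈ X, kF μ e := by
  unfold kS
  have h1 : ((List.range (mE n)).map fun e => if bt (toL n X) e then (kL n μ).getD e 0 else 0).sum =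
      ∑ e ∈ Finset.range (mE n), if bt (toL n X) e then (kL n μ).getD e 0 else 0 := rfl
  rw [h1, Finset.sum_range, ← Finset.sum_filter]
  have h2 : (Finset.univ.filter fun e : Fin (mE n) => bt (toL n X) e = true) = X := by
    ext e
    rw [Finset.mem_filter, bt_toL, memB_iff]
    simp
  rw [h2]
  refine Finset.sum_congr rfl fun e _ => ?_
  unfold kL
  rw [List.getD_eq_getElem _ _ (by simp)]
  simp

theorem wt_mdl (hs : 1024 ≤ s) (k : ℕ → ℤ) (X : Finset (Fin (mE n))) :
    wt (mdl n s k).x X = lam s ^ ∑ e ∈ X, k e := by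
  have h0 : lam s ≠ 0 := (lam_pos hs).ne'
  unfold wt mdl
  induction X using Finset.induction_on with
  | empty => simp
  | insert a X ha ih => rw [Finset.prod_insert ha, Finset.sum_insert ha, zpow_add₀ h0, ih]

theorem length_emb {N : ℕ} (σ : Fin N → St n) : (emb n σ).length = N := by
  unfold emb
  exact List.length_ofFn

theorem getD_emb {N : ℕ} (σ : Fin N → St n) (i : Fin N) : (emb n σ).getD i [] = toL n (σ i).1 := by
  unfold emb
  rw [List.getD_eq_getElem _ _ (by simp)]
  simp

theorem set_emb {N : ℕ} (σ : Fin N → St n) (i : Fin N) (X : St n) :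
    (emb n σ).set i (toL n X.1) = emb n (Function.update σ i X) := by
  unfold emb
  refine List.ext_getElem (by simp) fun j h1 h2 => ?_
  have hj : j < N := by simpa using h2
  rw [List.getElem_set, List.getElem_ofFn, List.getElem_ofFn]
  by_cases h : (i : ℕ) = j
  · rw [if_pos h]
    have : (⟨j, hj⟩ : Fin N) = i := Fin.ext h.symm
    simp [this]
  · rw [if_neg h]
    have : (⟨j, hj⟩ : Fin N) ≠ i := fun h' => h (by rw [← h'])
    rw [Function.update_of_ne this]

theorem countP_emb {N : ℕ} (σ : Fin N → St n) (p : List Bool → Bool) :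
    ((emb n σ).countP p : ℝ) = ∑ i, ind (p (toL n (σ i).1) = true) := by
  unfold emb
  induction N with
  | zero => simp
  | succ N ih =>
    rw [List.ofFn_succ, List.countP_cons, Fin.sum_univ_succ, Nat.cast_add, ih fun i => σ i.succ, add_comm]
    congr 1
    unfold ind
    by_cases h : p (toL n (σ 0).1) = true
    · simp [h]
    · simp [h]

theorem kF_append (μ ν : List (ℕ × Bool)) (e : ℕ) : kF (μ ++ ν) e = kF μ e + kF ν e := by
  unfold kF
  rw [List.count_append, List.count_append]
  push_cast
  ring

theorem kF_nil : kF [] = 0 := by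
  funext e
  simp [kF]

theorem kF_append_replicate (μ : List (ℕ × Bool)) (j : ℕ) (p : ℕ × Bool) :
    kF (μ ++ List.replicate j p) = addK (kF μ) p.1 (if p.2 then (j : ℤ) else -(j : ℤ)) := by
  funext e
  rw [kF_append]
  obtain ⟨a, b⟩ := p
  unfold addK
  by_cases h : e = a
  · subst h
    cases b <;> simp [kF, List.count_replicate]
  · have h' : ¬ a = e := fun h'' => h h''.symm
    cases b <;> simp [kF, List.count_replicate, h, h']

theorem micro_concat (sch : List (ℕ × Bool)) (p : ℕ × Bool) :
    micro s (sch ++ [p]) = micro s sch ++ List.replicate (pJ s) p := by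
  unfold micro
  simp [List.flatMap_append]

theorem length_micro (sch : List (ℕ × Bool)) : (micro s sch).length = sch.length * pJ s := by
  induction sch using List.reverseRecOn with
  | nil => simp [micro]
  | append_singleton l p ih =>
    rw [micro_concat, List.length_append, ih, List.length_replicate, List.length_append, List.length_singleton]
    ring

theorem kOf_eq (sch : List (ℕ × Bool)) (e : ℕ) : kOf s sch e = pJ s * kF sch e := by
  unfold kOf
  induction sch using List.reverseRecOn with
  | nil => simp [micro, kF]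
  | append_singleton l p ih =>
    rw [micro_concat, kF_append, kF_append, ih, mul_add]
    congr 1
    obtain ⟨a, b⟩ := p
    by_cases h : a = e
    · subst h
      cases b <;> simp [kF, List.count_replicate]
    · cases b <;> simp [kF, List.count_replicate, h]

theorem kOf_nil : kOf s [] = 0 := by
  unfold kOf micro
  exact kF_nil

theorem kOf_concat (sch : List (ℕ × Bool)) (p : ℕ × Bool) :
    kOf s (sch ++ [p]) = addK (kOf s sch) p.1 (if p.2 then (pJ s : ℤ) else -(pJ s : ℤ)) := by
  unfold kOf
  rw [micro_concat, kF_append_replicate]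

end Crest.Agent.R304
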