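import Crest.Agent.R304.Est

/-!
# Row 304: Med
* `med_spec`: for a non-empty list some element satisfies the test (the least `z ∈ l` with `l.length ≤ 2 * #{w ≤ z}`), so `find?` succeeds; if more than half of the entries lie in `[a, b]`, the test forces `a ≤ z ≤ b`.
* `alg_law`: `R309.hoeff` with `K = s ^ 2`, `δ = 1/4`, `f = ind (Near …)`: outside an event of probability `≤ 2 exp (-s^2/64) ≤ 2⁻¹ ^ s` at least `5/8` of the estimates are `Near`.
-/

set_option autoImplicit false

noncomputable section

namespace Crest.Agent.R304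

open Finset
open scoped symmDiff
open Crest.Agent.R309 (avgN avgL Tape digs ind blk)

variable {n s : ℕ}

open Crest.Matchings

variable {tab : List (List Bool)} {G : SimpleGraph (Fin n)} [DecidableRel G.Adj]

theorem Med_inter {l : List ℕ} {p q : ℕ → Bool} (h : l.length < l.countP p + l.countP q) :
    ∃ x ∈ l, p x = true ∧ q x = true := by
  induction l with
  | nil => simp at h
  | cons a l ih =>
    by_cases hpq : p a = true ∧ q a = true
    · exact ⟨a, List.mem_cons_self, hpq⟩
    · have : l.length < l.countP p + l.countP q := by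
        rw [List.countP_cons, List.countP_cons, List.length_cons] at h
        by_cases hp : p a = true
        · have hq : ¬ q a = true := fun hq => hpq ⟨hp, hq⟩
          rw [if_pos hp, if_neg hq] at h; omega
        · rw [if_neg hp] at h
          split_ifs at h <;> omega
      obtain ⟨x, hx, hx'⟩ := ih this
      exact ⟨x, List.mem_cons_of_mem _ hx, hx'⟩

theorem Med_exists {l : List ℕ} (hl : 0 < l.length) :
    ∃ z ∈ l, l.length ≤ 2 * l.countP (fun w => decide (w ≤ z)) ∧
      l.length ≤ 2 * l.countP fun w => decide (z ≤ w) := by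
  have hex : ∃ z, l.length ≤ 2 * l.countP (fun w => decide (w ≤ z)) := by
    refine ⟨l.sum, ?_⟩
    have : l.countP (fun w => decide (w ≤ l.sum)) = l.length :=
      List.countP_eq_length.2 fun w hw => by simpa using List.le_sum_of_mem hw
    omega
  classical
  obtain ⟨z, hz, hmin⟩ : ∃ z, l.length ≤ 2 * l.countP (fun w => decide (w ≤ z)) ∧
      2 * l.countP (fun w => decide (w < z)) < l.length := by
    refine ⟨Nat.find hex, Nat.find_spec hex, ?_⟩
    rcases Nat.eq_zero_or_eq_succ_pred (Nat.find hex) with h0 | h0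
    · rw [h0]
      have : l.countP (fun w => decide (w < 0)) = 0 := List.countP_eq_zero.2 fun w _ => by simp
      omega
    · have h1 := Nat.find_min hex (m := (Nat.find hex).pred) (by rw [h0]; simp)
      have : l.countP (fun w => decide (w < Nat.find hex)) =
          l.countP (fun w => decide (w ≤ (Nat.find hex).pred)) := by
        refine List.countP_congr fun w _ => ?_
        simp only [decide_eq_true_eq]
        constructor
        · intro h; exact Nat.le_pred_of_lt h
        · intro h; rw [h0]; exact Nat.lt_succ_of_le h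
      omega
  have hsum : l.countP (fun w => decide (w < z)) + l.countP (fun w => decide (z ≤ w)) = l.length := by
    rw [List.length_eq_countP_add_countP (fun w => decide (w < z)) (l := l)]
    congr 1
    refine List.countP_congr fun w _ => ?_
    simp
  refine ⟨z, ?_, hz, by omega⟩
  obtain ⟨x, hx, h1, h2⟩ := Med_inter (l := l) (p := fun w => decide (w ≤ z))
    (q := fun w => decide (z ≤ w)) (by omega)
  simp only [decide_eq_true_eq] at h1 h2
  rwa [← le_antisymm h1 h2]

theorem Med_test {l : List ℕ} (hl : 0 < l.length) :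
    med l ∈ l ∧ l.length ≤ 2 * l.countP (fun w => decide (w ≤ med l)) ∧
      l.length ≤ 2 * l.countP fun w => decide (med l ≤ w) := by
  obtain ⟨z, hz, h1, h2⟩ := Med_exists hl
  unfold med
  cases hf : l.find? fun z => decide (l.length ≤ 2 * l.countP fun w => decide (w ≤ z)) &&
      decide (l.length ≤ 2 * l.countP fun w => decide (z ≤ w)) with
  | none =>
    have := List.find?_eq_none.1 hf z hz
    simp [h1, h2] at this
  | some y =>
    have h3 := List.find?_some hf
    simp only [Bool.and_eq_true, decide_eq_true_eq] at h3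
    exact ⟨List.mem_of_find?_eq_some hf, h3.1, h3.2⟩

theorem med_spec {l : List ℕ} {p : ℕ → Prop} [DecidablePred p] (hp : ∀ x y z, x ≤ y → y ≤ z → p x → p z → p y)
    (h : l.length < 2 * l.countP fun z => decide (p z)) : p (med l) := by
  have hl : 0 < l.length := by
    have := List.countP_le_length (p := fun z => decide (p z)) (l := l)
    omega
  obtain ⟨-, h1, h2⟩ := Med_test hl
  obtain ⟨x, -, hx, hx'⟩ := Med_inter (l := l) (p := fun w => decide (w ≤ med l))
    (q := fun z => decide (p z)) (by omega)
  obtain ⟨y, -, hy, hy'⟩ := Med_inter (l := l) (p := fun w => decide (med l ≤ w))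
    (q := fun z => decide (p z)) (by omega)
  simp only [decide_eq_true_eq] at hx hx' hy hy'
  exact hp x _ y hx hy hx' hy'

theorem med_zero {l : List ℕ} (h : ∀ z ∈ l, z = 0) : med l = 0 := by
  rcases Nat.eq_zero_or_pos l.length with hl | hl
  · rw [List.length_eq_zero_iff.1 hl]; rfl
  · exact h _ (Med_test hl).1

theorem alg_zero (hT : TabOf G tab) (hN : numPerfectMatchings G = 0) (us : List ℕ) : alg n s tab us = 0 := by
  unfold alg
  split_ifs with h0
  · subst h0
    rw [numPM_zero] at hN
    exact absurd hN one_ne_zero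
  · refine med_zero fun z hz => ?_
    obtain ⟨j, -, rfl⟩ := List.mem_map.1 hz
    exact est_zero hT hN _

theorem Med_count (K : ℕ) (e : ℕ → ℕ) (p : ℕ → Prop) [DecidablePred p] :
    ((((List.range K).map e).countP fun z => decide (p z) : ℕ) : ℝ) = ∑ j ∈ range K, ind (p (e j)) := by
  induction K with
  | zero => simp
  | succ K ih =>
    rw [List.range_succ, List.map_append, List.countP_append, sum_range_succ, Nat.cast_add, ih]
    congr 1
    by_cases h : p (e K)
    · rw [R309.ind_of h]; simp [h]
    · rw [R309.ind_of_not h]; simp [h]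

theorem Med_exp (hs : 1024 ≤ s) :
    2 * Real.exp (-(((s ^ 2 : ℕ) : ℝ) * (1 / 4) ^ 2) / 4) ≤ 2⁻¹ ^ s := by
  have h1 : (1024 : ℝ) ≤ s := by exact_mod_cast hs
  have h2 : Real.exp (-1) ≤ 2⁻¹ := by
    rw [Real.exp_neg]
    refine inv_anti₀ (by norm_num) ?_
    linarith [Real.add_one_le_exp (1 : ℝ)]
  have h3 : Real.exp (-(((s ^ 2 : ℕ) : ℝ) * (1 / 4) ^ 2) / 4) ≤ Real.exp (-1) ^ (s + 1) := by
    rw [← Real.exp_nat_mul]
    refine Real.exp_le_exp.2 ?_
    push_cast
    nlinarith
  have h4 : Real.exp (-1) ^ (s + 1) ≤ (2⁻¹ : ℝ) ^ (s + 1) :=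
    pow_le_pow_left₀ (Real.exp_pos _).le h2 _
  have h5 : (2⁻¹ : ℝ) ^ (s + 1) = 2⁻¹ ^ s * 2⁻¹ := pow_succ _ _
  linarith

theorem alg_law (hs : 1024 ≤ s) (hp : ∃ a, s = 2 ^ a) (hn : 3 * n * n < s) (hT : TabOf G tab) :
    1 - 2⁻¹ ^ s ≤ avgL (pBs s) (pL3 s) fun us => ind (Near s (numPerfectMatchings G) (alg n s tab us)) := by
  classical
  have hs0 : 0 < s := by omega
  have hB : 0 < pBs s := by unfold pBs pB; positivity
  have hsR : (0 : ℝ) < s := by exact_mod_cast hs0
  have hpow : (0 : ℝ) ≤ 2⁻¹ ^ s := by positivity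
  have hall : (∀ us, Near s (numPerfectMatchings G) (alg n s tab us)) →
      1 - 2⁻¹ ^ s ≤ avgL (pBs s) (pL3 s)
        fun us => ind (Near s (numPerfectMatchings G) (alg n s tab us)) := by
    intro h
    have : (avgL (pBs s) (pL3 s) fun us => ind (Near s (numPerfectMatchings G) (alg n s tab us))) = 1 := by
      rw [← R309.avgL_const hB (pL3 s) 1]
      exact R309.avgL_congr fun us _ => R309.ind_of (h us)
    linarith
  rcases Nat.eq_zero_or_pos (numPerfectMatchings G) with hN | hN
  · refine hall fun us => ?_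
    rw [alg_zero hT hN, hN]
    simp [Near]
  by_cases h0 : n = 0
  · refine hall fun us => ?_
    subst h0
    have h1 : (0 : ℝ) ≤ 1 / s := by positivity
    rw [numPM_zero]
    unfold alg Near
    rw [if_pos rfl]
    constructor <;> push_cast <;> linarith
  have hev := even_of_pos hN
  have hPar : Par n s := ⟨hs, hp, by obtain ⟨k, hk⟩ := hev; omega, hev, hn⟩
  have hE := hPar.est_law hT hN
  obtain ⟨f, hf⟩ : ∃ f : List ℕ → ℝ, f = fun us => ind (Near s (numPerfectMatchings G) (est n s tab us)) :=
    ⟨_, rfl⟩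
  rw [← hf] at hE
  have hH := R309.hoeff hB (s ^ 2) (pL2 s) f
    (fun us => by rw [hf]; exact ⟨R309.ind_nonneg _, R309.ind_le_one _⟩) (δ := 1 / 4) (by norm_num) (by norm_num)
  have hle := hH.trans (Med_exp hs)
  have hK : (0 : ℝ) < ((s ^ 2 : ℕ) : ℝ) := by positivity
  have key : ∀ us, 1 + (-1) * ind ((1 / 4 : ℝ) * ((s ^ 2 : ℕ) : ℝ) <
      |∑ j ∈ range (s ^ 2), f (blk (pL2 s) j us) - ((s ^ 2 : ℕ) : ℝ) * avgL (pBs s) (pL2 s) f|) ≤
      ind (Near s (numPerfectMatchings G) (alg n s tab us)) := by
    intro us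
    by_cases hb : (1 / 4 : ℝ) * ((s ^ 2 : ℕ) : ℝ) <
        |∑ j ∈ range (s ^ 2), f (blk (pL2 s) j us) - ((s ^ 2 : ℕ) : ℝ) * avgL (pBs s) (pL2 s) f|
    · rw [R309.ind_of hb]
      linarith [R309.ind_nonneg (Near s (numPerfectMatchings G) (alg n s tab us))]
    · have hnear : Near s (numPerfectMatchings G) (alg n s tab us) := by
        unfold alg
        rw [if_neg h0]
        refine med_spec (p := Near s (numPerfectMatchings G)) ?_ ?_
        · intro x y z hxy hyz hx hz
          have h1 : (x : ℝ) ≤ y := by exact_mod_cast hxy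
          have h2 : (y : ℝ) ≤ z := by exact_mod_cast hyz
          exact ⟨hx.1.trans h1, h2.trans hz.2⟩
        · have hc := Med_count (s ^ 2) (fun j => est n s tab (blk (pL2 s) j us))
            (Near s (numPerfectMatchings G))
          have h1 := (abs_le.1 (not_lt.1 hb)).1
          have h2 : ((s ^ 2 : ℕ) : ℝ) * (7 / 8) ≤ ((s ^ 2 : ℕ) : ℝ) * avgL (pBs s) (pL2 s) f :=
            mul_le_mul_of_nonneg_left hE hK.le
          have h3 : ∑ j ∈ range (s ^ 2), f (blk (pL2 s) j us) =
              ∑ j ∈ range (s ^ 2), ind (Near s (numPerfectMatchings G) (est n s tab (blk (pL2 s) j us))) := by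
            rw [hf]
          rw [List.length_map, List.length_range]
          have h4 : ((s ^ 2 : ℕ) : ℝ) < 2 * ((((List.range (s ^ 2)).map
              fun j => est n s tab (blk (pL2 s) j us)).countP
              fun z => decide (Near s (numPerfectMatchings G) z) : ℕ) : ℝ) := by
            rw [hc]; linarith
          exact_mod_cast h4
      rw [R309.ind_of hnear, R309.ind_of_not hb]; norm_num
  have hm := R309.avgL_mono (N := pBs s) (T := s ^ 2 * pL2 s) fun us _ => key us
  rw [R309.avgL_add, R309.avgL_const hB, R309.avgL_mul_left] at hm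
  unfold pL3
  linarith

end Crest.Agent.R304
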