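import Crest.Agent.R304.Fam
import Crest.Agent.R304.Close

/-!
# Row 304: PCInst
The pair chain of the instance and its linear Poincaré inequality.
* `mvOf_swap`: `labL (l ∘ swapIdx)` exchanges the connections `0 ↔ 2`, `1 ↔ 3` and keeps the entries `8, …, 16` (`List.getD` of `List.ofFn`; `funext`/`congr`).  `flip_invol`: `mv1_inv`, `mv2_inv`, `swapIdx ∘ swapIdx = id` (`decide`).
* `exists_lab`: list the at most four edges of `R`, the at most two edges of `R1`, `R2`, the seed; fill up with the number `s - 1 ≥ mE n`, which is not an edge.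
* `pcOf_LI`: extend `f`, `g` by `0` to all edge sets; `D = ∑ l, Tmv (mvOf (labL l)) f g`; `Pos.LI` with `κ = 64 s` (`closure`, `cubic`, `isV_iff`, `exists_lab`, `Finset.single_le_sum`).
  `En (f ⊕ g) = D / (4 |Λ|)` (`π x π y * acc = min … / 2`; rejected moves contribute `0`), `|Λ| = s ^ 17`; the left side of `LI` is `2 ∑ π f²` for `f` of mean zero;
  `2 * s^17 * 10^6 * s^14 * (64 s)^2 ≤ s ^ 38` (`mE n + 1 ≤ s`, `1024 ≤ s`).
-/

set_option autoImplicit false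

noncomputable section

namespace Crest.Agent.R304

open Finset
open scoped symmDiff
open Crest.Agent.R309 (avgN avgL Tape digs ind blk)

variable {n s : ℕ}

theorem PCI_labL (l : Lab s) : labL l = [(l 0).val, (l 1).val, (l 2).val, (l 3).val, (l 4).val, (l 5).val,
    (l 6).val, (l 7).val, (l 8).val, (l 9).val, (l 10).val, (l 11).val, (l 12).val, (l 13).val, (l 14).val,
    (l 15).val, (l 16).val] := by
  rfl

theorem mvOf_swap (l : Lab s) : mvOf n (labL (l ∘ swapIdx)) = (mvOf n (labL l)).inv := by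
  rw [PCI_labL, PCI_labL]
  rfl

theorem PCI_swap_swap (l : Lab s) : (l ∘ swapIdx) ∘ swapIdx = l := by
  funext t
  have h : ∀ t, swapIdx (swapIdx t) = t := by decide
  simp only [Function.comp_apply, h]

theorem PCI_R1 (g : List ℕ) : (mvOf n g).R1 ⊆ (mvOf n g).R := by
  intro e he
  simp only [mvOf, mem_fs, inR1, Bool.and_eq_true] at he ⊢
  exact he.1

theorem PCI_R2 (g : List ℕ) : (mvOf n g).R2 ⊆ (mvOf n g).R := by
  intro e he
  simp only [mvOf, mem_fs, inR2, Bool.and_eq_true] at he ⊢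
  exact he.1

theorem flip_invol (n s : ℕ) : Function.Involutive (flip n s) := by
  rintro ⟨l, X, Y⟩
  by_cases h : (gr n).bd ((gr n).mv1 (mvOf n (labL l)) X.1 Y.1) = TT n ∧
      (gr n).bd ((gr n).mv2 (mvOf n (labL l)) X.1 Y.1) = TT n
  · have h1 : flip n s (l, X, Y) = (l ∘ swapIdx, ⟨_, h.1⟩, ⟨_, h.2⟩) := by
      unfold flip
      exact dif_pos h
    have e1 := (gr n).mv1_inv (PCI_R1 (n := n) (labL l)) (PCI_R2 (labL l)) X.1 Y.1
    have e2 := (gr n).mv2_inv (PCI_R1 (n := n) (labL l)) (PCI_R2 (labL l)) X.1 Y.1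
    rw [← mvOf_swap] at e1 e2
    rw [h1]
    unfold flip
    rw [dif_pos ⟨by rw [e1]; exact X.2, by rw [e2]; exact Y.2⟩]
    exact Prod.ext (PCI_swap_swap l) (Prod.ext (Subtype.ext e1) (Subtype.ext e2))
  · have h1 : flip n s (l, X, Y) = (l, X, Y) := by
      unfold flip
      exact dif_neg h
    rw [h1, h1]

theorem PCI_enum {m : ℕ} (hm : m < s) (A : Finset (Fin m)) {k : ℕ} (hA : A.card ≤ k) :
    ∃ r : ℕ → Fin s, ∀ e : Fin m, e ∈ A ↔ ∃ t < k, e.val = (r t).val := by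
  have hlt : ∀ t, (A.toList.map Fin.val).getD t m < s := by
    intro t
    by_cases ht : t < (A.toList.map Fin.val).length
    · rw [List.getD_eq_getElem _ _ ht, List.getElem_map]
      exact lt_trans (Fin.isLt _) hm
    · rw [List.getD_eq_default _ _ (not_lt.1 ht)]
      exact hm
  refine ⟨fun t => ⟨_, hlt t⟩, fun e => ⟨fun he => ?_, ?_⟩⟩
  · obtain ⟨t, ht, hte⟩ := List.getElem_of_mem (Finset.mem_toList.2 he)
    have ht' : t < (A.toList.map Fin.val).length := by rwa [List.length_map]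
    refine ⟨t, ?_, ?_⟩
    · rw [Finset.length_toList] at ht
      omega
    · show e.val = (A.toList.map Fin.val).getD t m
      rw [List.getD_eq_getElem _ _ ht', List.getElem_map, hte]
  · rintro ⟨t, -, hte⟩
    change e.val = (A.toList.map Fin.val).getD t m at hte
    by_cases ht : t < (A.toList.map Fin.val).length
    · rw [List.getD_eq_getElem _ _ ht, List.getElem_map] at hte
      rw [Fin.ext hte]
      exact Finset.mem_toList.1 (List.getElem_mem _)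
    · rw [List.getD_eq_default _ _ (not_lt.1 ht)] at hte
      exact absurd e.isLt (by omega)

theorem PCI_ex4 (p : ℕ → Prop) : (∃ t < 4, p t) ↔ ((p 0 ∨ p 1) ∨ p 2) ∨ p 3 := by
  constructor
  · rintro ⟨t, ht, hp⟩
    interval_cases t <;> tauto
  · rintro (((h | h) | h) | h) <;> exact ⟨_, by norm_num, h⟩

theorem PCI_ex2 (p : ℕ → Prop) : (∃ t < 2, p t) ↔ p 0 ∨ p 1 := by
  constructor
  · rintro ⟨t, ht, hp⟩
    interval_cases t <;> tauto
  · rintro (h | h) <;> exact ⟨_, by norm_num, h⟩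

theorem PCI_ex1 (p : ℕ → Prop) : (∃ t < 1, p t) ↔ p 0 := by
  constructor
  · rintro ⟨t, ht, hp⟩
    interval_cases t
    exact hp
  · exact fun h => ⟨_, by norm_num, h⟩

theorem Par.exists_lab (h : Par n s) {a : Sw (Fin (mE n))} (ha : a.Adm) {u1 v1 u2 v2 u3 v3 u4 v4 : ℕ}
    (h1 : u1 < s) (h2 : v1 < s) (h3 : u2 < s) (h4 : v2 < s) (h5 : u3 < s) (h6 : v3 < s) (h7 : u4 < s)
    (h8 : v4 < s) :
    ∃ l : Lab s, mvOf n (labL l) = ⟨a, cc n u1 v1, cc n u2 v2, cc n u3 v3, cc n u4 v4⟩ := by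
  obtain ⟨R, R1, R2, S0⟩ := a
  obtain ⟨c0, s1, s2, c1, c2, c3⟩ := ha
  obtain ⟨r, hr⟩ := PCI_enum h.mE_lt R c0
  obtain ⟨r1, hr1⟩ := PCI_enum h.mE_lt R1 c1
  obtain ⟨r2, hr2⟩ := PCI_enum h.mE_lt R2 c2
  obtain ⟨r3, hr3⟩ := PCI_enum h.mE_lt S0 c3
  simp only [PCI_ex4] at hr
  simp only [PCI_ex2] at hr1 hr2
  simp only [PCI_ex1] at hr3
  refine ⟨![⟨u1, h1⟩, ⟨v1, h2⟩, ⟨u2, h3⟩, ⟨v2, h4⟩, ⟨u3, h5⟩, ⟨v3, h6⟩, ⟨u4, h7⟩, ⟨v4, h8⟩,
    r 0, r 1, r 2, r 3, r1 0, r1 1, r2 0, r2 1, r3 0], ?_⟩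
  rw [PCI_labL]
  have hR : ∀ g : List ℕ, g.getD 8 0 = r 0 → g.getD 9 0 = r 1 → g.getD 10 0 = r 2 → g.getD 11 0 = r 3 →
      ∀ e : Fin (mE n), inR g e = true ↔ e ∈ R := by
    intro g g0 g1 g2 g3 e
    simp only [inR, g0, g1, g2, g3, Bool.or_eq_true, decide_eq_true_eq, hr]
  unfold mvOf
  congr 1
  congr 1
  · ext e
    rw [mem_fs]
    exact hR _ rfl rfl rfl rfl e
  · ext e
    rw [mem_fs, inR1, Bool.and_eq_true, hR _ rfl rfl rfl rfl e, Bool.or_eq_true, decide_eq_true_eq,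
      decide_eq_true_eq]
    exact ⟨fun he => (hr1 e).2 he.2, fun he => ⟨s1 he, (hr1 e).1 he⟩⟩
  · ext e
    rw [mem_fs, inR2, Bool.and_eq_true, hR _ rfl rfl rfl rfl e, Bool.or_eq_true, decide_eq_true_eq,
      decide_eq_true_eq]
    exact ⟨fun he => (hr2 e).2 he.2, fun he => ⟨s2 he, (hr2 e).1 he⟩⟩
  · ext e
    rw [mem_fs, decide_eq_true_eq]
    exact (hr3 e).symm

/-- the pair chain at the exponents `k` -/
def Par.pc (h : Par n s) (k : ℕ → ℤ) : PC (St n) (Lab s) where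
  π := piS n s k
  fl := flip n s
  pos := h.piS_pos k
  sum_one := h.sum_piS k
  invol := flip_invol n s
  ne := ⟨fun _ => ⟨0, lt_of_lt_of_le (by norm_num) h.s_ge⟩⟩

open Classical in
/-- extension by zero -/
def PCI_ext (f : St n → ℝ) (X : Finset (Fin (mE n))) : ℝ :=
  if h : (gr n).bd X = TT n then f ⟨X, h⟩ else 0

theorem PCI_ext_val (f : St n → ℝ) (X : St n) : PCI_ext f X.1 = f X := by
  unfold PCI_ext
  exact dif_pos X.2

theorem PCI_pi_acc {Ω Λ : Type} [Fintype Ω] (K : PC Ω Λ) (l : Λ) (x y : Ω) :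
    K.π x * K.π y * K.acc l x y =
      1 / 2 * min (K.π x * K.π y) (K.π (K.mv l x y).1 * K.π (K.mv l x y).2) := by
  have h : 0 < K.π x * K.π y := mul_pos (K.pos x) (K.pos y)
  unfold PC.acc
  rw [mul_left_comm, mul_min_of_nonneg _ _ h.le, mul_one, mul_div_cancel₀ _ h.ne']

theorem PCI_Tmv (h : Par n s) (k : ℕ → ℤ) (f g : St n → ℝ) (l : Lab s) :
    ∑ x, ∑ y, (h.pc k).π x * (h.pc k).π y * (h.pc k).acc l x y *
      (f x + g y - (f ((h.pc k).mv l x y).1 + g ((h.pc k).mv l x y).2)) ^ 2 =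
      1 / 2 * (mdl n s k).Tmv (mvOf n (labL l)) (PCI_ext f) (PCI_ext g) := by
  unfold Model.Tmv
  rw [← sum_St k, Finset.mul_sum]
  refine Finset.sum_congr rfl fun x _ => ?_
  rw [← sum_St k, Finset.mul_sum]
  refine Finset.sum_congr rfl fun y _ => ?_
  rw [PCI_pi_acc]
  by_cases hc : (gr n).bd ((gr n).mv1 (mvOf n (labL l)) x.1 y.1) = TT n ∧
      (gr n).bd ((gr n).mv2 (mvOf n (labL l)) x.1 y.1) = TT n
  · have h1 : (h.pc k).mv l x y = (⟨_, hc.1⟩, ⟨_, hc.2⟩) := by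
      show (flip n s (l, x, y)).2 = _
      unfold flip
      rw [dif_pos hc]
    rw [if_pos ⟨mem_Om_mdl.2 hc.1, mem_Om_mdl.2 hc.2⟩, h1, PCI_ext_val, PCI_ext_val,
      ← PCI_ext_val f ⟨_, hc.1⟩, ← PCI_ext_val g ⟨_, hc.2⟩, mul_assoc, sub_add_eq_sub_sub]
    rfl
  · have h1 : (h.pc k).mv l x y = (x, y) := by
      show (flip n s (l, x, y)).2 = _
      unfold flip
      rw [dif_neg hc]
    rw [if_neg fun hh => hc ⟨mem_Om_mdl.1 hh.1, mem_Om_mdl.1 hh.2⟩, h1]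
    simp

theorem PCI_Tmv_nonneg {E V : Type} [Fintype E] [DecidableEq E] [DecidableEq V] {M : Model E V} (hM : M.Pos)
    (a : Mv E) (f g : Finset E → ℝ) : 0 ≤ M.Tmv a f g := by
  unfold Model.Tmv
  refine Finset.sum_nonneg fun X _ => Finset.sum_nonneg fun Y _ => ?_
  split_ifs
  · exact mul_nonneg (le_min (mul_nonneg (hM.pi_nonneg _ _) (hM.pi_nonneg _ _))
      (mul_nonneg (hM.pi_nonneg _ _) (hM.pi_nonneg _ _))) (sq_nonneg _)
  · exact le_rfl

theorem PCI_var {Ω : Type} [Fintype Ω] (p f : Ω → ℝ) (h1 : ∑ x, p x = 1) (h0 : ∑ x, p x * f x = 0) :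
    ∑ x, ∑ y, p x * p y * (f x - f y) ^ 2 = 2 * ∑ x, p x * f x ^ 2 := by
  have h : ∀ x y, p x * p y * (f x - f y) ^ 2 =
      p x * f x ^ 2 * p y + p x * (p y * f y ^ 2) - 2 * (p x * f x) * (p y * f y) := fun x y => by ring
  simp only [h, Finset.sum_sub_distrib, Finset.sum_add_distrib, ← Finset.mul_sum, ← Finset.sum_mul, h1, h0]
  ring

theorem Par.pc_LI (h : Par n s) {k : ℕ → ℤ} (hk : Good n s k) : (h.pc k).LI ((s : ℝ) ^ 38) := by
  intro f g hf
  have hs := h.s_ge'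
  have hs0 := h.s_pos
  have hP := h.pos k
  set D : ℝ := ∑ l : Lab s, (mdl n s k).Tmv (mvOf n (labL l)) (PCI_ext f) (PCI_ext g) with hD
  have hD0 : 0 ≤ D := Finset.sum_nonneg fun l _ => PCI_Tmv_nonneg hP _ _ _
  have hV : ∀ v, (mdl n s k).IsV v → v < s := fun v hv => (isV_iff.1 hv).trans h.nV_lt
  have key := hP.LI (cubic n) (by positivity) (h.closure hk) (PCI_ext f) (PCI_ext g) hD0
    (fun a ha u1 v1 u2 v2 u3 v3 u4 v4 h1 h2 h3 h4 h5 h6 h7 h8 => by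
      obtain ⟨l, hl⟩ := h.exists_lab ha (hV _ h1) (hV _ h2) (hV _ h3) (hV _ h4) (hV _ h5) (hV _ h6)
        (hV _ h7) (hV _ h8)
      rw [← hl]
      exact Finset.single_le_sum (f := fun l : Lab s =>
        (mdl n s k).Tmv (mvOf n (labL l)) (PCI_ext f) (PCI_ext g))
        (fun l _ => PCI_Tmv_nonneg hP _ _ _) (Finset.mem_univ l))
  have hL : ∑ I ∈ (mdl n s k).Om 0, ∑ F ∈ (mdl n s k).Om 0, (mdl n s k).pi 0 I * (mdl n s k).pi 0 F *
      (PCI_ext f I - PCI_ext f F) ^ 2 = 2 * ∑ x, (h.pc k).π x * f x ^ 2 := by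
    rw [← PCI_var (h.pc k).π f (h.pc k).sum_one hf, ← sum_St k]
    refine Finset.sum_congr rfl fun x _ => ?_
    rw [← sum_St k]
    refine Finset.sum_congr rfl fun y _ => ?_
    rw [PCI_ext_val, PCI_ext_val]
    rfl
  have hE : (h.pc k).En (fun x y => f x + g y) = D / (4 * (s : ℝ) ^ 17) := by
    unfold PC.En
    simp only [PCI_Tmv h k f g]
    rw [← Finset.mul_sum, ← hD]
    simp only [Fintype.card_fun, Fintype.card_fin, Nat.cast_pow]
    field_simp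
    ring
  clear_value D
  rw [hL, Fintype.card_fin] at key
  have hm : ((mE n : ℕ) : ℝ) + 1 ≤ s := by exact_mod_cast h.mE_lt
  have h14 : (((mE n : ℕ) : ℝ) + 1) ^ 14 ≤ (s : ℝ) ^ 14 := pow_le_pow_left₀ (by positivity) hm _
  have h5 : (1024 : ℝ) ^ 5 ≤ (s : ℝ) ^ 5 := pow_le_pow_left₀ (by norm_num) hs _
  have hr : (s : ℝ) ^ 38 * (D / (4 * (s : ℝ) ^ 17)) = (s : ℝ) ^ 5 / 4 * ((s : ℝ) ^ 16 * D) := by
    field_simp
  rw [hE, hr]
  have h16 : 0 ≤ (s : ℝ) ^ 16 * D := mul_nonneg (by positivity) hD0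
  have k2 : 10 ^ 6 * (((mE n : ℕ) : ℝ) + 1) ^ 14 * (64 * (s : ℝ)) ^ 2 * D ≤
      10 ^ 6 * 4096 * ((s : ℝ) ^ 16 * D) := by
    calc _ ≤ 10 ^ 6 * (s : ℝ) ^ 14 * (64 * (s : ℝ)) ^ 2 * D := by gcongr
      _ = _ := by ring
  nlinarith [mul_le_mul_of_nonneg_right h5 h16]

end Crest.Agent.R304
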