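import Crest.Agent.R304.Alg

/-!
# Row 304: PTa
The chain on lists is polynomial-time.  Use `Lib.PolyTime` (`fun_prop`); one `@[fun_prop]` lemma per definition of `Alg` (add the small ones yourself: parameters with `PT` and `PB`, `srcN`, …, `cB`, `mk`, `bt`, `inR`, …).
`List.range m` needs `PB m`; exponents need `PB`.  Loops: `PT.iterate_inv`, `PT.foldl_inv`; every `mk n p` has length `mE n`, so `esize ≤ 4 * mE n + 1` (`esize_boolList_le`); invariant of a population in `runS`:
`esize pop ≤ esize pop₀ + (length pop₀) * (4 * mE n + 2)`, or "same length and every entry has length `≤ max (mE n) (esize pop₀)`" (`esize_list_le`).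
-/

set_option autoImplicit false

noncomputable section

namespace Crest.Agent.R304

open Crest.Agent.Lib.PolyTime
open Crest.Agent.R309 (avgN avgL Tape digs ind blk)

variable {α : Type} [Enc α] {n s t : α → ℕ}

theorem pt_blk {b j : α → ℕ} {us : α → List ℕ} (hb : PT b) (hj : PT j) (hus : PT us) :
    PT fun a => blk (b a) (j a) (us a) := by
  unfold blk; fun_prop

attribute [fun_prop] pt_blk

section params

@[fun_prop] theorem pta_pN (hs : PT s) : PT fun a => pN (s a) := by unfold pN; fun_prop
@[fun_prop] theorem pta_pB (hs : PT s) : PT fun a => pB (s a) := by unfold pB; fun_prop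
@[fun_prop] theorem pta_pMix (hs : PT s) : PT fun a => pMix (s a) := by unfold pMix; fun_prop
@[fun_prop] theorem pta_pJ (hs : PT s) : PT fun a => pJ (s a) := by unfold pJ; fun_prop
@[fun_prop] theorem pta_pK (hs : PT s) : PT fun a => pK (s a) := by unfold pK; fun_prop
@[fun_prop] theorem pta_pT (hs : PT s) : PT fun a => pT (s a) := by unfold pT; fun_prop
@[fun_prop] theorem pta_pD (hs : PT s) : PT fun a => pD (s a) := by unfold pD; fun_prop
@[fun_prop] theorem pta_pL0 (hs : PT s) : PT fun a => pL0 (s a) := by unfold pL0; fun_prop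
@[fun_prop] theorem pta_pL1 (hs : PT s) : PT fun a => pL1 (s a) := by unfold pL1; fun_prop
@[fun_prop] theorem pta_pL2 (hs : PT s) : PT fun a => pL2 (s a) := by unfold pL2; fun_prop
@[fun_prop] theorem pta_pL3 (hs : PT s) : PT fun a => pL3 (s a) := by unfold pL3; fun_prop
@[fun_prop] theorem pta_mE (hn : PT n) : PT fun a => mE (n a) := by unfold mE; fun_prop
@[fun_prop] theorem pta_nV (hn : PT n) : PT fun a => nV (n a) := by unfold nV; fun_prop

@[fun_prop] theorem pba_pN (hs : PB s) : PB fun a => pN (s a) := by unfold pN; fun_prop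
@[fun_prop] theorem pba_pB (hs : PB s) : PB fun a => pB (s a) := by unfold pB; fun_prop
@[fun_prop] theorem pba_pMix (hs : PB s) : PB fun a => pMix (s a) := by unfold pMix; fun_prop
@[fun_prop] theorem pba_pJ (hs : PB s) : PB fun a => pJ (s a) := by unfold pJ; fun_prop
@[fun_prop] theorem pba_pK (hs : PB s) : PB fun a => pK (s a) := by unfold pK; fun_prop
@[fun_prop] theorem pba_pT (hs : PB s) : PB fun a => pT (s a) := by unfold pT; fun_prop
@[fun_prop] theorem pba_pD (hs : PB s) : PB fun a => pD (s a) := by unfold pD; fun_prop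
@[fun_prop] theorem pba_pL0 (hs : PB s) : PB fun a => pL0 (s a) := by unfold pL0; fun_prop
@[fun_prop] theorem pba_pL1 (hs : PB s) : PB fun a => pL1 (s a) := by unfold pL1; fun_prop
@[fun_prop] theorem pba_pL2 (hs : PB s) : PB fun a => pL2 (s a) := by unfold pL2; fun_prop
@[fun_prop] theorem pba_pL3 (hs : PB s) : PB fun a => pL3 (s a) := by unfold pL3; fun_prop
@[fun_prop] theorem pba_mE (hn : PB n) : PB fun a => mE (n a) := by unfold mE; fun_prop
@[fun_prop] theorem pba_nV (hn : PB n) : PB fun a => nV (n a) := by unfold nV; fun_prop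

@[fun_prop] theorem pta_pBs (hs : PT s) (hs' : PB s) : PT fun a => pBs (s a) := by
  unfold pBs; fun_prop

end params

section small

variable {e u v i j h : α → ℕ} {X Y S C : α → List Bool} {g : α → List ℕ}

@[fun_prop] theorem pta_srcN (hn : PT n) (he : PT e) : PT fun a => srcN (n a) (e a) := by
  unfold srcN; fun_prop

@[fun_prop] theorem pta_tgtN (hn : PT n) (he : PT e) : PT fun a => tgtN (n a) (e a) := by
  unfold tgtN; fun_prop

@[fun_prop] theorem pta_isReal (hn : PT n) (he : PT e) : PT fun a => isReal (n a) (e a) := by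
  unfold isReal; fun_prop

@[fun_prop] theorem pta_isVirt (hn : PT n) (he : PT e) : PT fun a => isVirt (n a) (e a) := by
  unfold isVirt; fun_prop

@[fun_prop] theorem pta_segB (hn : PT n) (hi : PT i) (hu : PT u) (hv : PT v) (he : PT e) :
    PT fun a => segB (n a) (i a) (u a) (v a) (e a) := by
  unfold segB; fun_prop

@[fun_prop] theorem pta_dart (hn : PT n) (hi : PT i) (hj : PT j) :
    PT fun a => dart (n a) (i a) (j a) := by
  unfold dart; fun_prop

@[fun_prop] theorem pta_vE (hn : PT n) (hi : PT i) (hj : PT j) :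
    PT fun a => vE (n a) (i a) (j a) := by
  unfold vE; fun_prop

@[fun_prop] theorem pta_cB (hn : PT n) (hu : PT u) (hv : PT v) (he : PT e) :
    PT fun a => cB (n a) (u a) (v a) (e a) := by
  unfold cB; fun_prop

@[fun_prop] theorem pta_tB (hn : PT n) (hv : PT v) : PT fun a => tB (n a) (v a) := by
  unfold tB; fun_prop

@[fun_prop] theorem pta_incB (hn : PT n) (he : PT e) (hv : PT v) :
    PT fun a => incB (n a) (e a) (v a) := by
  unfold incB; fun_prop

@[fun_prop] theorem pta_adjB {tab : α → List (List Bool)} (htab : PT tab) (hi : PT i) (hj : PT j) :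
    PT fun a => adjB (tab a) (i a) (j a) := by
  unfold adjB; fun_prop

@[fun_prop] theorem pta_mk {p : α → ℕ → Bool} (hn : PT n) (hn' : PB n)
    (hp : PT fun x : α × ℕ => p x.1 x.2) : PT fun a => mk (n a) (p a) := by
  unfold mk
  exact PT.map (by fun_prop) hp

@[fun_prop] theorem pta_bt (hX : PT X) (he : PT e) : PT fun a => bt (X a) (e a) := by
  unfold bt; fun_prop

theorem pta_length_mk (n : ℕ) (p : ℕ → Bool) : (mk n p).length = mE n := by simp [mk]

@[fun_prop] theorem pta_growL (hn : PT n) (hn' : PB n) (hS : PT S) (hC : PT C) :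
    PT fun a => growL (n a) (S a) (C a) := by
  unfold growL; fun_prop

@[fun_prop] theorem pta_compL (hn : PT n) (hn' : PB n) (hh : PT h) (hS : PT S) :
    PT fun a => compL (n a) (h a) (S a) := by
  unfold compL
  exact PT.iterate_inv (f := fun a => growL (n a) (S a)) (fun a => 4 * mE (n a) + 1)
    (fun a c => c.length = mE (n a)) (by fun_prop) (by fun_prop) (by fun_prop) (by fun_prop)
    (by fun_prop) (fun a => pta_length_mk _ _) (fun a c _ => pta_length_mk _ _)
    fun a c hc => hc ▸ esize_boolList_le c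

@[fun_prop] theorem pta_degB (hn : PT n) (hn' : PB n) (hX : PT X) (hv : PT v) :
    PT fun a => degB (n a) (X a) (v a) := by
  unfold degB; fun_prop

@[fun_prop] theorem pta_okL (hn : PT n) (hn' : PB n) (hX : PT X) : PT fun a => okL (n a) (X a) := by
  unfold okL; fun_prop

@[fun_prop] theorem pta_inR (hg : PT g) (he : PT e) : PT fun a => inR (g a) (e a) := by
  unfold inR; fun_prop

@[fun_prop] theorem pta_inR1 (hg : PT g) (he : PT e) : PT fun a => inR1 (g a) (e a) := by
  unfold inR1; fun_prop

@[fun_prop] theorem pta_inR2 (hg : PT g) (he : PT e) : PT fun a => inR2 (g a) (e a) := by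
  unfold inR2; fun_prop

@[fun_prop] theorem pta_cG (hn : PT n) (hg : PT g) (ht : PT t) (he : PT e) :
    PT fun a => cG (n a) (g a) (t a) (e a) := by
  unfold cG; fun_prop

@[fun_prop] theorem pta_swL (hn : PT n) (hn' : PB n) (hg : PT g) (hX : PT X) (hY : PT Y) :
    PT fun a => swL (n a) (g a) (X a) (Y a) := by
  unfold swL; fun_prop

@[fun_prop] theorem pta_flipL {r : α → ℕ → Bool} (hn : PT n) (hn' : PB n) (hg : PT g) (ht : PT t)
    (hr : PT fun x : α × ℕ => r x.1 x.2) (hX : PT X) (hS : PT S) :
    PT fun a => flipL (n a) (g a) (t a) (r a) (X a) (S a) := by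
  unfold flipL; fun_prop

@[fun_prop] theorem pta_mv1L (hn : PT n) (hn' : PB n) (hg : PT g) (hX : PT X) (hY : PT Y) :
    PT fun a => mv1L (n a) (g a) (X a) (Y a) := by
  unfold mv1L; fun_prop

@[fun_prop] theorem pta_mv2L (hn : PT n) (hn' : PB n) (hg : PT g) (hX : PT X) (hY : PT Y) :
    PT fun a => mv2L (n a) (g a) (X a) (Y a) := by
  unfold mv2L; fun_prop

@[fun_prop] theorem pta_kS {k : α → List ℤ} (hn : PT n) (hn' : PB n) (hk : PT k) (hX : PT X) :
    PT fun a => kS (n a) (k a) (X a) := by
  unfold kS; fun_prop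

@[fun_prop] theorem pta_coin (hs : PT s) (hs' : PB s) (hv : PT v) (hu : PT u) :
    PT fun a => coin (s a) (v a) (u a) := by
  unfold coin; fun_prop

@[fun_prop] theorem pta_labOf (hs : PT s) (hg : PT g) : PT fun a => labOf (s a) (g a) := by
  unfold labOf; fun_prop

@[fun_prop] theorem pta_tryL {k : α → List ℤ} {pop : α → List (List Bool)} (hn : PT n)
    (hn' : PB n) (hs : PT s) (hs' : PB s) (hk : PT k) (hpop : PT pop) (hi : PT i) (hj : PT j)
    (hg : PT g) (hu : PT u) :
    PT fun a => tryL (n a) (s a) (k a) (pop a) (i a) (j a) (g a) (u a) := by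
  unfold tryL; fun_prop

@[fun_prop] theorem pta_fixL (hn : PT n) (hn' : PB n) (hX : PT X) :
    PT fun a => fixL (n a) (X a) := by
  unfold fixL; fun_prop

@[fun_prop] theorem pta_initL (hn : PT n) (hn' : PB n) (hu : PT u) :
    PT fun a => initL (n a) (u a) := by
  unfold initL; fun_prop

@[fun_prop] theorem pta_pop0 (hn : PT n) (hn' : PB n) (hs : PT s) (hs' : PB s) (hg : PT g) :
    PT fun a => pop0 (n a) (s a) (g a) := by
  unfold pop0; fun_prop

@[fun_prop] theorem pta_kF {μ : α → List (ℕ × Bool)} (hμ : PT μ) (he : PT e) :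
    PT fun a => kF (μ a) (e a) := by
  unfold kF; fun_prop

@[fun_prop] theorem pta_kL {μ : α → List (ℕ × Bool)} (hn : PT n) (hn' : PB n) (hμ : PT μ) :
    PT fun a => kL (n a) (μ a) := by
  unfold kL; fun_prop

@[fun_prop] theorem pta_micro {μ : α → List (ℕ × Bool)} (hs : PT s) (hs' : PB s) (hμ : PT μ) :
    PT fun a => micro (s a) (μ a) := by
  unfold micro; fun_prop

end small

theorem pt_stepL {k : α → List ℤ} {pop : α → List (List Bool)} {us : α → List ℕ} (hn : PT n) (hn' : PB n)
    (hs : PT s) (hs' : PB s) (hk : PT k) (hpop : PT pop) (hus : PT us) :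
    PT fun a => stepL (n a) (s a) (k a) (pop a) (us a) := by
  unfold stepL; fun_prop

attribute [fun_prop] pt_stepL

theorem pta_foldl_inv {β γ : Type} (I : γ → Prop) (f : γ → β → γ) (hf : ∀ c x, I c → I (f c x))
    (l : List β) (c : γ) (hc : I c) : I (l.foldl f c) := by
  induction l generalizing c with
  | nil => exact hc
  | cons x l ih => exact ih _ (hf c x hc)

theorem pta_length_stepL (n s : ℕ) (k : List ℤ) (pop : List (List Bool)) (us : List ℕ) :
    (stepL n s k pop us).length = pop.length := by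
  unfold stepL tryL
  split_ifs <;> simp

theorem pta_stepL_len {n s : ℕ} {k : List ℤ} {B : ℕ} {pop : List (List Bool)} {us : List ℕ}
    (hB : mE n ≤ B) (h : ∀ X ∈ pop, X.length ≤ B) : ∀ X ∈ stepL n s k pop us, X.length ≤ B := by
  unfold stepL tryL
  split_ifs
  · intro X hX
    rcases List.mem_or_eq_of_mem_set hX with hX | rfl
    · rcases List.mem_or_eq_of_mem_set hX with hX | rfl
      · exact h X hX
      · exact (pta_length_mk _ _).le.trans hB
    · exact (pta_length_mk _ _).le.trans hB
  · exact h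

theorem pta_esize_pop {pop : List (List Bool)} {B : ℕ} (h : ∀ X ∈ pop, X.length ≤ B) :
    esize pop ≤ pop.length * (4 * B + 1 + 1) + 1 :=
  esize_list_le fun X hX => (esize_boolList_le X).trans (by have := h X hX; omega)

theorem length_runS (n s : ℕ) (k : List ℤ) (t : ℕ) (pop : List (List Bool)) (us : List ℕ) :
    (runS n s k t pop us).length = pop.length := by
  exact pta_foldl_inv (fun c : List (List Bool) => c.length = pop.length) _
    (fun c x hc => (pta_length_stepL _ _ _ _ _).trans hc) _ _ rfl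

theorem runS_len {n s : ℕ} {k : List ℤ} {t B : ℕ} {pop : List (List Bool)} {us : List ℕ} (hB : mE n ≤ B)
    (h : ∀ X ∈ pop, X.length ≤ B) : ∀ X ∈ runS n s k t pop us, X.length ≤ B := by
  exact pta_foldl_inv (fun c : List (List Bool) => ∀ X ∈ c, X.length ≤ B) _
    (fun c x hc => pta_stepL_len hB hc) _ _ h

theorem pt_runS {k : α → List ℤ} {pop : α → List (List Bool)} {us : α → List ℕ} (hn : PT n) (hn' : PB n)
    (hs : PT s) (hs' : PB s) (hk : PT k) (ht : PT t) (ht' : PB t) (hpop : PT pop) (hus : PT us) :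
    PT fun a => runS (n a) (s a) (k a) (t a) (pop a) (us a) := by
  unfold runS
  exact PT.foldl_inv (f := fun a pop j => stepL (n a) (s a) (k a) pop (blk 20 j (us a)))
    (fun a => (pop a).length * (4 * (mE (n a) + esize (pop a)) + 1 + 1) + 1)
    (fun a c => c.length = (pop a).length ∧ ∀ X ∈ c, X.length ≤ mE (n a) + esize (pop a))
    (by fun_prop) hpop (by fun_prop) (by fun_prop)
    (fun a => ⟨rfl, fun X hX => by
      have := length_lt_esize X
      have := esize_lt_of_mem hX
      omega⟩)
    (fun a c x _ hc => ⟨(pta_length_stepL _ _ _ _ _).trans hc.1,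
      pta_stepL_len (Nat.le_add_right _ _) hc.2⟩)
    fun a c hc => hc.1 ▸ pta_esize_pop hc.2

attribute [fun_prop] pt_runS

theorem pta_length_pop0 (n s : ℕ) (us : List ℕ) : (pop0 n s us).length = pN s := by simp [pop0]

theorem pta_pop0_len (n s : ℕ) (us : List ℕ) : ∀ X ∈ pop0 n s us, X.length ≤ mE n := by
  intro X hX
  obtain ⟨i, -, rfl⟩ := List.mem_map.1 hX
  exact (pta_length_mk _ _).le

@[fun_prop] theorem pta_runMu {μ : α → List (ℕ × Bool)} {us : α → List ℕ} (hn : PT n) (hn' : PB n)
    (hs : PT s) (hs' : PB s) (hμ : PT μ) (ht : PT t) (ht' : PB t) (hus : PT us) :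
    PT fun a => runMu (n a) (s a) (μ a) (t a) (us a) := by
  unfold runMu
  exact PT.foldl_inv (f := fun a pop j => runS (n a) (s a) (kL (n a) ((μ a).take (j + 1)))
      (pMix (s a)) pop (blk (pL0 (s a)) j ((us a).drop (pN (s a)))))
    (fun a => pN (s a) * (4 * mE (n a) + 1 + 1) + 1)
    (fun a c => c.length = pN (s a) ∧ ∀ X ∈ c, X.length ≤ mE (n a))
    (by fun_prop) (by fun_prop) (by fun_prop) (by fun_prop)
    (fun a => ⟨pta_length_pop0 _ _ _, pta_pop0_len _ _ _⟩)
    (fun a c x _ hc => ⟨(length_runS _ _ _ _ _ _).trans hc.1, runS_len le_rfl hc.2⟩)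
    fun a c hc => hc.1 ▸ pta_esize_pop hc.2

theorem pt_run {sch : α → List (ℕ × Bool)} {us : α → List ℕ} (hn : PT n) (hn' : PB n) (hs : PT s) (hs' : PB s)
    (hsch : PT sch) (hus : PT us) : PT fun a => run (n a) (s a) (sch a) (us a) := by
  unfold run; fun_prop

attribute [fun_prop] pt_run

theorem length_run (n s : ℕ) (sch : List (ℕ × Bool)) (us : List ℕ) : (run n s sch us).length = pN s := by
  exact pta_foldl_inv (fun c : List (List Bool) => c.length = pN s) _
    (fun c x hc => (length_runS _ _ _ _ _ _).trans hc) _ _ (pta_length_pop0 _ _ _)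

end Crest.Agent.R304
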