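import Crest.Agent.R304.PTa

/-!
# Row 304: PTb
The controller and the whole algorithm are polynomial-time.  In `stages` every stage increases `esize` by a polynomial amount (`PT.foldl_grow`): the new schedule entry has `e < mE n`
(`List.mem_of_find?_eq_some`), `cntE ≤ pN` (`length_run`), `facN ≤ 2 * pN * pB ^ pJ`, `facD ≤ pN * pB ^ pJ`, `esize_nat_mul_le`, `esize_nat_le_of_le_two_pow` (`s ≤ 2 ^ s`).
`pt_digs`: see `Mach.Poly.run_digs` in `R309/Exact.lean` (replace the exponent `τ` by `min τ T`).
-/

set_option autoImplicit false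

noncomputable section

namespace Crest.Agent.R304

open Crest.Agent.Lib.PolyTime
open Crest.Agent.R309 (avgN avgL Tape digs ind blk)

variable {α : Type} [Enc α] {n s : α → ℕ} {tab : α → List (List Bool)}

section small

variable {e c : α → ℕ} {pop : α → List (List Bool)} {sch : α → List (ℕ × Bool)} {st : α → CS}

@[fun_prop] theorem ptb_cntE (hpop : PT pop) (he : PT e) : PT fun a => cntE (pop a) (e a) := by
  unfold cntE; fun_prop

@[fun_prop] theorem ptb_hiB (hs : PT s) (hc : PT c) : PT fun a => hiB (s a) (c a) := by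
  unfold hiB; fun_prop

@[fun_prop] theorem ptb_loB (hs : PT s) (hc : PT c) : PT fun a => loB (s a) (c a) := by
  unfold loB; fun_prop

@[fun_prop] theorem ptb_tgtK (hn : PT n) (hs : PT s) (htab : PT tab) (he : PT e) :
    PT fun a => tgtK (n a) (s a) (tab a) (e a) := by
  unfold tgtK; fun_prop

@[fun_prop] theorem ptb_nxt (hn : PT n) (hn' : PB n) (hs : PT s) (htab : PT tab) (hsch : PT sch)
    (hpop : PT pop) : PT fun a => nxt (n a) (s a) (tab a) (sch a) (pop a) := by
  unfold nxt; fun_prop

@[fun_prop] theorem ptb_facN {u : α → Bool} (hs : PT s) (hs' : PB s) (hc : PT c) (hu : PT u) :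
    PT fun a => facN (s a) (c a) (u a) := by
  unfold facN; fun_prop

@[fun_prop] theorem ptb_facD {u : α → Bool} (hs : PT s) (hs' : PB s) (hu : PT u) :
    PT fun a => facD (s a) (u a) := by
  unfold facD; fun_prop

@[fun_prop] theorem ptb_upd (hn : PT n) (hn' : PB n) (hs : PT s) (hs' : PB s) (htab : PT tab)
    (hst : PT st) (hpop : PT pop) : PT fun a => upd (n a) (s a) (tab a) (st a) (pop a) := by
  unfold upd; fun_prop

@[fun_prop] theorem ptb_pmB {X : α → List Bool} (hn : PT n) (hn' : PB n) (htab : PT tab)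
    (hX : PT X) : PT fun a => pmB (n a) (tab a) (X a) := by
  unfold pmB; fun_prop

@[fun_prop] theorem ptb_rnd (he : PT e) (hc : PT c) : PT fun a => rnd (e a) (c a) := by
  unfold rnd; fun_prop

@[fun_prop] theorem ptb_outN (hn : PT n) (hn' : PB n) (hs : PT s) (hs' : PB s) (hst : PT st)
    (hc : PT c) : PT fun a => outN (n a) (s a) (st a) (c a) := by
  unfold outN; fun_prop

@[fun_prop] theorem ptb_estOf {us : α → List ℕ} (hn : PT n) (hn' : PB n) (hs : PT s) (hs' : PB s)
    (htab : PT tab) (hst : PT st) (hus : PT us) :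
    PT fun a => estOf (n a) (s a) (tab a) (st a) (us a) := by
  unfold estOf; fun_prop

@[fun_prop] theorem ptb_med {l : α → List ℕ} (hl : PT l) : PT fun a => med (l a) := by
  unfold med; fun_prop

end small

theorem pt_stage {st : α → CS} {us : α → List ℕ} (hn : PT n) (hn' : PB n) (hs : PT s) (hs' : PB s)
    (htab : PT tab) (hst : PT st) (hus : PT us) : PT fun a => stage (n a) (s a) (tab a) (st a) (us a) := by
  unfold stage; fun_prop

attribute [fun_prop] pt_stage

theorem ptb_nxt_lt {n s : ℕ} {tab : List (List Bool)} {sch : List (ℕ × Bool)} {pop : List (List Bool)}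
    {p : ℕ × Bool} (h : nxt n s tab sch pop = some p) : p.1 < mE n := by
  unfold nxt at h
  rcases h1 : (List.range (mE n)).find? fun e =>
      isVirt n e && (hiB s (cntE pop e) || loB s (cntE pop e)) with _ | e
  · rw [h1, Option.elim_none, Option.map_eq_some_iff] at h
    obtain ⟨e, he, rfl⟩ := h
    exact List.mem_range.1 (List.mem_of_find?_eq_some he)
  · rw [h1, Option.elim_some] at h
    obtain rfl := Option.some.inj h
    exact List.mem_range.1 (List.mem_of_find?_eq_some h1)

theorem ptb_pow_le (N B J : ℕ) : 2 * (N * B ^ J) ≤ 2 ^ (1 + N + B * J) := by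
  rw [pow_add, pow_add, pow_one, pow_mul, mul_assoc]
  exact Nat.mul_le_mul_left _ (Nat.mul_le_mul Nat.lt_two_pow_self.le
    (Nat.pow_le_pow_left Nat.lt_two_pow_self.le _))

theorem ptb_facN_le {s c : ℕ} (hc : c ≤ pN s) (u : Bool) :
    facN s c u ≤ 2 ^ (1 + pN s + pB s * pJ s) := by
  refine le_trans ?_ (ptb_pow_le _ _ _)
  have h1 : (pB s - 1) ^ pJ s ≤ pB s ^ pJ s := Nat.pow_le_pow_left (Nat.sub_le _ _) _
  have h2 : pN s - c ≤ pN s := Nat.sub_le _ _
  unfold facN
  rw [two_mul]
  split_ifs
  · exact Nat.add_le_add (Nat.mul_le_mul_right _ h2) (Nat.mul_le_mul hc h1)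
  · exact Nat.add_le_add (Nat.mul_le_mul h2 h1) (Nat.mul_le_mul_right _ hc)

theorem ptb_facD_le (s : ℕ) (u : Bool) : facD s u ≤ 2 ^ (1 + pN s + pB s * pJ s) := by
  refine le_trans ?_ (ptb_pow_le _ _ _)
  have h1 : (pB s - 1) ^ pJ s ≤ pB s ^ pJ s := Nat.pow_le_pow_left (Nat.sub_le _ _) _
  unfold facD
  rw [two_mul]
  refine le_trans (Nat.mul_le_mul_left _ ?_) (Nat.le_add_right _ _)
  split_ifs
  · exact le_rfl
  · exact h1

theorem ptb_esize_stage (n s : ℕ) (tab : List (List Bool)) (st : CS) (us : List ℕ) :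
    esize (stage n s tab st us) ≤
      esize st + (6 * mE n + 12 * (1 + pN s + pB s * pJ s) + 30) := by
  obtain ⟨sch, x, y, b⟩ := st
  unfold stage
  split_ifs
  · omega
  · unfold upd
    have hb := esize_pos b
    rcases h : nxt n s tab sch (run n s sch us) with _ | p
    · have := esize_bool_le true
      simp only [Option.elim_none, esize_pair]
      omega
    · have h1 := ptb_nxt_lt h
      have h2 : cntE (run n s sch us) p.1 ≤ pN s :=
        List.countP_le_length.trans (length_run n s sch us).le
      have h3 := esize_nat_le_of_le_two_pow (ptb_facN_le h2 p.2)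
      have h4 := esize_nat_le_of_le_two_pow (ptb_facD_le s p.2)
      have h5 := esize_nat_mul_le x (facN s (cntE (run n s sch us) p.1) p.2)
      have h6 := esize_nat_mul_le y (facD s p.2)
      have h7 := esize_append sch [p]
      have h8 := esize_prod p
      have h9 := esize_nat_le_self p.1
      have h10 := esize_bool_le p.2
      have h11 := esize_bool_le false
      simp only [esize_cons, esize_nil] at h7
      simp only [Option.elim_some, esize_pair]
      omega

@[fun_prop] theorem ptb_stages {t : α → ℕ} {us : α → List ℕ} (hn : PT n) (hn' : PB n) (hs : PT s)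
    (hs' : PB s) (htab : PT tab) (ht : PT t) (ht' : PB t) (hus : PT us) :
    PT fun a => stages (n a) (s a) (tab a) (t a) (us a) := by
  unfold stages
  exact PT.foldl_grow (f := fun a st j => stage (n a) (s a) (tab a) st (blk (pL1 (s a)) j (us a)))
    (fun p => 6 * mE (n p.1) + 12 * (1 + pN (s p.1) + pB (s p.1) * pJ (s p.1)) + 30)
    (by fun_prop) (PT.const _) (by fun_prop) (by fun_prop)
    fun a c x _ => ptb_esize_stage _ _ _ _ _

theorem pt_est {us : α → List ℕ} (hn : PT n) (hn' : PB n) (hs : PT s) (hs' : PB s) (htab : PT tab) (hus : PT us) :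
    PT fun a => est (n a) (s a) (tab a) (us a) := by
  unfold est; fun_prop

attribute [fun_prop] pt_est

theorem pt_alg {us : α → List ℕ} (hn : PT n) (hn' : PB n) (hs : PT s) (hs' : PB s) (htab : PT tab) (hus : PT us) :
    PT fun a => alg (n a) (s a) (tab a) (us a) := by
  unfold alg; fun_prop

theorem pt_digs {U : α → ℕ} (hs : PT s) (hs' : PB s) (hU : PT U) :
    PT fun a => digs (pBs (s a)) (pL3 (s a)) (U a) := by
  have h2 : PT fun a => (List.range (pL3 (s a))).map fun τ =>
      U a / pBs (s a) ^ (min τ (pL3 (s a))) % pBs (s a) := by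
    refine PT.map (by fun_prop) ?_
    have hN : PT fun x : α × ℕ => pBs (s x.1) := by fun_prop
    have hT2 : PT fun x : α × ℕ => pL3 (s x.1) := by fun_prop
    have hT3 : PB fun x : α × ℕ => pL3 (s x.1) := by fun_prop
    have hU' : PT fun x : α × ℕ => U x.1 := by fun_prop
    exact (hU'.nat_div (hN.nat_pow (PT.snd'.nat_min hT2) hT3.min_right)).nat_mod hN
  refine h2.of_eq fun p => List.map_congr_left fun τ hτ => ?_
  rw [min_eq_left (List.mem_range.1 hτ).le]

end Crest.Agent.R304
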