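import Crest.Agent.R304.Avg

/-!
# Row 304: Pair
* `sum_flip`: for `i ≠ j` the map `(l, σ) ↦ ((fl (l, σ i, σ j)).1, step i j l σ)` is an involution of `Λ × (Fin N → Ω)`, and `W σ * acc` is invariant: both sides are
  `(∏_{a ≠ i, j} π (σ a)) * (1/2) * min (π x π y) (π x' π y')`.
* `Eij_le_nsq`: `(a - b)^2 ≤ 2 a^2 + 2 b^2`, `sum_flip`, `acc ≤ 1/2`.
* `Eij_keep`: for `i, j ∈ U`, `U.piecewise (step σ) τ = step (U.piecewise σ τ)` and `acc` only depends on `σ i`, `σ j`; Jensen (`ex_mul_sq_le`), then `ex_swap` / `ex_keep`.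
* `fiber_LI`: apply `ex_update` for `i` and for `j` on both sides and `LI` to `x ↦ f (update σ i x)`, `y ↦ g (update σ j y)` for fixed `σ`.
* `H1_le`: `f = H1 i ψ`, `g = H1 j ψ + keep ∅ ψ`, `f + g = keep {i,j} ψ - H2 i j ψ`.  `H2_le`: `f = H2 i k ψ`, `g = H2 j k ψ + H1 k ψ`, `f + g = (keep {i,j,k} ψ - keep {i,j} ψ) - H3 i j k ψ`
  (`keep_update`, `avg_keep`).
* `A1_le`: with `A1 = ∑ nsq H1`, `A2 = ∑_{i≠k} nsq H2`, `e = Etot`: `(N-1) A1 ≤ 2C (e + A2)`, `(N-2) A2 ≤ 2C (4 N e + 6 nsq ψ)` (`bessel3`); `N^2 ≤ (8/3) (N-1)(N-2)` for `N ≥ 4`.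
-/

set_option autoImplicit false
set_option linter.unusedSectionVars false

noncomputable section

namespace Crest.Agent.R304

open Finset

variable {Ω Λ : Type} [Fintype Ω] [DecidableEq Ω] [Fintype Λ] {N : ℕ}

namespace PC

variable (K : PC Ω Λ)

theorem acc_nonneg (l : Λ) (x y : Ω) : 0 ≤ K.acc l x y := by
  have h1 := K.pos x
  have h2 := K.pos y
  have h3 := K.pos (K.mv l x y).1
  have h4 := K.pos (K.mv l x y).2
  unfold acc
  exact mul_nonneg (by norm_num) (le_min zero_le_one (by positivity))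

theorem acc_le (l : Λ) (x y : Ω) : K.acc l x y ≤ 1 / 2 := by
  unfold acc
  have := min_le_left (1 : ℝ) (K.π (K.mv l x y).1 * K.π (K.mv l x y).2 / (K.π x * K.π y))
  linarith

theorem pr_step_i {i j : Fin N} (hij : i ≠ j) (l : Λ) (σ : Fin N → Ω) :
    K.step i j l σ i = (K.mv l (σ i) (σ j)).1 := by
  unfold step
  rw [Function.update_of_ne hij, Function.update_self]

theorem pr_step_j (i j : Fin N) (l : Λ) (σ : Fin N → Ω) :
    K.step i j l σ j = (K.mv l (σ i) (σ j)).2 := by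
  unfold step
  rw [Function.update_self]

theorem pr_step_o {i j a : Fin N} (hi : a ≠ i) (hj : a ≠ j) (l : Λ) (σ : Fin N → Ω) :
    K.step i j l σ a = σ a := by
  unfold step
  rw [Function.update_of_ne hj, Function.update_of_ne hi]

theorem pr_mv_mv (l : Λ) (x y : Ω) :
    K.fl ((K.fl (l, x, y)).1, (K.mv l x y).1, (K.mv l x y).2) = (l, x, y) :=
  K.invol (l, x, y)

theorem pr_step_step {i j : Fin N} (hij : i ≠ j) (l : Λ) (σ : Fin N → Ω) :
    K.step i j (K.fl (l, σ i, σ j)).1 (K.step i j l σ) = σ := by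
  have h : K.mv (K.fl (l, σ i, σ j)).1 (K.step i j l σ i) (K.step i j l σ j) = (σ i, σ j) := by
    rw [K.pr_step_i hij, K.pr_step_j]
    exact congrArg Prod.snd (K.pr_mv_mv l (σ i) (σ j))
  funext a
  by_cases haj : a = j
  · subst haj
    rw [K.pr_step_j, h]
  · by_cases hai : a = i
    · subst hai
      rw [K.pr_step_i hij, h]
    · rw [K.pr_step_o hai haj, K.pr_step_o hai haj]

theorem pr_W_split (ρ : Ω → ℝ) {i j : Fin N} (hij : i ≠ j) (σ : Fin N → Ω) :
    W ρ σ = (∏ a ∈ (univ.erase i).erase j, ρ (σ a)) * (ρ (σ i) * ρ (σ j)) := by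
  unfold W
  rw [← Finset.mul_prod_erase univ (fun a => ρ (σ a)) (mem_univ i),
    ← Finset.mul_prod_erase (univ.erase i) (fun a => ρ (σ a)) (a := j)
      (mem_erase.2 ⟨hij.symm, mem_univ j⟩)]
  ring

theorem pr_pi_acc (l : Λ) (x y : Ω) :
    K.π x * K.π y * K.acc l x y =
      1 / 2 * min (K.π x * K.π y) (K.π (K.mv l x y).1 * K.π (K.mv l x y).2) := by
  have h : 0 < K.π x * K.π y := mul_pos (K.pos x) (K.pos y)
  unfold acc
  rw [mul_left_comm, mul_min_of_nonneg _ _ h.le, mul_one, mul_div_cancel₀ _ h.ne']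

theorem pr_W_acc {i j : Fin N} (hij : i ≠ j) (l : Λ) (σ : Fin N → Ω) :
    W K.π (K.step i j l σ) * K.acc (K.fl (l, σ i, σ j)).1 (K.step i j l σ i) (K.step i j l σ j) =
      W K.π σ * K.acc l (σ i) (σ j) := by
  have h : K.mv (K.fl (l, σ i, σ j)).1 (K.mv l (σ i) (σ j)).1 (K.mv l (σ i) (σ j)).2 = (σ i, σ j) :=
    congrArg Prod.snd (K.pr_mv_mv l (σ i) (σ j))
  have hR : ∏ a ∈ (univ.erase i).erase j, K.π (K.step i j l σ a) =
      ∏ a ∈ (univ.erase i).erase j, K.π (σ a) := by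
    refine Finset.prod_congr rfl fun a ha => ?_
    rw [K.pr_step_o (mem_erase.1 (mem_erase.1 ha).2).1 (mem_erase.1 ha).1]
  rw [pr_W_split K.π hij, pr_W_split K.π hij σ, hR, mul_assoc, mul_assoc _ _ (K.acc l _ _),
    K.pr_pi_acc, K.pr_pi_acc, K.pr_step_i hij, K.pr_step_j, h, min_comm]

theorem sum_flip {i j : Fin N} (hij : i ≠ j) (Φ : (Fin N → Ω) → (Fin N → Ω) → ℝ) :
    ∑ l, ex K.π (fun σ => K.acc l (σ i) (σ j) * Φ σ (K.step i j l σ)) =
      ∑ l, ex K.π fun σ => K.acc l (σ i) (σ j) * Φ (K.step i j l σ) σ := by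
  have hT : Function.Involutive fun p : Λ × (Fin N → Ω) =>
      ((K.fl (p.1, p.2 i, p.2 j)).1, K.step i j p.1 p.2) := by
    rintro ⟨l, σ⟩
    refine Prod.ext ?_ (K.pr_step_step hij l σ)
    show (K.fl ((K.fl (l, σ i, σ j)).1, K.step i j l σ i, K.step i j l σ j)).1 = l
    rw [K.pr_step_i hij, K.pr_step_j, K.pr_mv_mv]
  unfold ex
  rw [← Fintype.sum_prod_type' (fun l σ => W K.π σ * (K.acc l (σ i) (σ j) * Φ σ (K.step i j l σ))),
    ← Fintype.sum_prod_type' (fun l σ => W K.π σ * (K.acc l (σ i) (σ j) * Φ (K.step i j l σ) σ)),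
    ← Equiv.sum_comp hT.toPerm
      (fun p : Λ × (Fin N → Ω) => W K.π p.2 * (K.acc p.1 (p.2 i) (p.2 j) * Φ (K.step i j p.1 p.2) p.2))]
  refine Finset.sum_congr rfl fun p _ => ?_
  obtain ⟨l, σ⟩ := p
  show _ = W K.π (K.step i j l σ) * (K.acc (K.fl (l, σ i, σ j)).1 (K.step i j l σ i) (K.step i j l σ j) *
    Φ (K.step i j (K.fl (l, σ i, σ j)).1 (K.step i j l σ)) (K.step i j l σ))
  rw [K.pr_step_step hij, ← mul_assoc, ← mul_assoc, K.pr_W_acc hij]

theorem pr_card_pos (K : PC Ω Λ) : (0 : ℝ) < 2 * Fintype.card Λ := by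
  have := K.ne
  have : 0 < Fintype.card Λ := Fintype.card_pos
  positivity

theorem pr_ex_nonneg {F : (Fin N → Ω) → ℝ} (hF : ∀ σ, 0 ≤ F σ) : 0 ≤ ex K.π F :=
  Finset.sum_nonneg fun σ _ => mul_nonneg (W_nonneg (fun x => (K.pos x).le) σ) (hF σ)

theorem Eij_nonneg (i j : Fin N) (ψ : (Fin N → Ω) → ℝ) : 0 ≤ K.Eij i j ψ := by
  unfold Eij
  exact div_nonneg (Finset.sum_nonneg fun l _ => K.pr_ex_nonneg fun σ =>
    mul_nonneg (K.acc_nonneg _ _ _) (sq_nonneg _)) K.pr_card_pos.le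

theorem Etot_nonneg (ψ : (Fin N → Ω) → ℝ) : 0 ≤ K.Etot ψ := by
  unfold Etot
  refine Finset.sum_nonneg fun i _ => Finset.sum_nonneg fun j _ => ?_
  split_ifs
  · exact le_rfl
  · exact K.Eij_nonneg i j ψ

theorem Eij_le_nsq {i j : Fin N} (hij : i ≠ j) (ψ : (Fin N → Ω) → ℝ) : K.Eij i j ψ ≤ K.nsq ψ := by
  have hp : ∀ x, 0 ≤ K.π x := fun x => (K.pos x).le
  unfold Eij
  rw [div_le_iff₀ K.pr_card_pos]
  have h1 : ∑ l, ex K.π (fun σ => K.acc l (σ i) (σ j) * (ψ σ - ψ (K.step i j l σ)) ^ 2) ≤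
      ∑ l, (2 * ex K.π (fun σ => K.acc l (σ i) (σ j) * ψ σ ^ 2) +
        2 * ex K.π (fun σ => K.acc l (σ i) (σ j) * ψ (K.step i j l σ) ^ 2)) := by
    refine Finset.sum_le_sum fun l _ => ?_
    rw [← ex_mul_left, ← ex_mul_left, ← ex_add]
    refine ex_mono hp fun σ => ?_
    have := K.acc_nonneg l (σ i) (σ j)
    nlinarith [mul_nonneg this (sq_nonneg (ψ σ + ψ (K.step i j l σ)))]
  have h2 := K.sum_flip hij (fun σ _ => ψ σ ^ 2)
  have h3 : ∑ l, ex K.π (fun σ => K.acc l (σ i) (σ j) * ψ σ ^ 2) ≤ ∑ _l : Λ, 1 / 2 * K.nsq ψ := by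
    refine Finset.sum_le_sum fun l _ => ?_
    unfold nsq
    rw [← ex_mul_left]
    exact ex_mono hp fun σ => mul_le_mul_of_nonneg_right (K.acc_le _ _ _) (sq_nonneg _)
  rw [Finset.sum_add_distrib, ← Finset.mul_sum, ← Finset.mul_sum, ← h2] at h1
  rw [Finset.sum_const, Finset.card_univ, nsmul_eq_mul] at h3
  linarith

theorem Eij_sub (i j : Fin N) (φ ψ : (Fin N → Ω) → ℝ) :
    K.Eij i j (φ - ψ) ≤ 2 * K.Eij i j φ + 2 * K.Eij i j ψ := by
  have hp : ∀ x, 0 ≤ K.π x := fun x => (K.pos x).le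
  unfold Eij
  rw [← mul_div_assoc, ← mul_div_assoc, ← add_div, Finset.mul_sum, Finset.mul_sum,
    ← Finset.sum_add_distrib]
  refine div_le_div_of_nonneg_right (Finset.sum_le_sum fun l _ => ?_) K.pr_card_pos.le
  rw [← ex_mul_left, ← ex_mul_left, ← ex_add]
  refine ex_mono hp fun σ => ?_
  have := K.acc_nonneg l (σ i) (σ j)
  simp only [Pi.sub_apply]
  nlinarith [mul_nonneg this (sq_nonneg (φ σ - φ (K.step i j l σ) + (ψ σ - ψ (K.step i j l σ))))]

theorem Eij_keep {i j : Fin N} {U : Finset (Fin N)} (hi : i ∈ U) (hj : j ∈ U) (ψ : (Fin N → Ω) → ℝ) :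
    K.Eij i j (K.keep U ψ) ≤ K.Eij i j ψ := by
  have hp : ∀ x, 0 ≤ K.π x := fun x => (K.pos x).le
  unfold Eij
  refine div_le_div_of_nonneg_right (Finset.sum_le_sum fun l _ => ?_) K.pr_card_pos.le
  rw [← K.ex_keep U fun σ => K.acc l (σ i) (σ j) * (ψ σ - ψ (K.step i j l σ)) ^ 2]
  refine ex_mono hp fun σ => ?_
  have e1 : ∀ τ : Fin N → Ω, U.piecewise σ τ i = σ i := fun τ => Finset.piecewise_eq_of_mem _ _ _ hi
  have e2 : ∀ τ : Fin N → Ω, U.piecewise σ τ j = σ j := fun τ => Finset.piecewise_eq_of_mem _ _ _ hj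
  have e3 : ∀ τ : Fin N → Ω, K.step i j l (U.piecewise σ τ) = U.piecewise (K.step i j l σ) τ := by
    intro τ
    funext a
    unfold step
    rw [e1, e2]
    by_cases ha : a ∈ U
    · rw [Finset.piecewise_eq_of_mem _ _ _ ha]
      by_cases haj : a = j
      · subst haj
        simp
      · by_cases hai : a = i
        · subst hai
          simp [haj]
        · simp [haj, hai, Finset.piecewise_eq_of_mem _ _ _ ha]
    · have haj : a ≠ j := fun h => ha (h ▸ hj)
      have hai : a ≠ i := fun h => ha (h ▸ hi)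
      simp [haj, hai, Finset.piecewise_eq_of_notMem _ _ _ ha]
  unfold keep
  simp only [e1, e2, e3]
  rw [ex_mul_left, ← ex_sub]
  refine mul_le_mul_of_nonneg_left ?_ (K.acc_nonneg _ _ _)
  have h := ex_mul_sq_le hp (fun τ => ψ (U.piecewise σ τ) - ψ (U.piecewise (K.step i j l σ) τ))
    (fun _ => 1)
  simp only [mul_one, one_pow] at h
  rwa [ex_const K.sum_one, mul_one] at h

variable {K} {C : ℝ}

theorem LI.fiber (h : K.LI C) {i j : Fin N} (hij : i ≠ j) (f g : (Fin N → Ω) → ℝ)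
    (hf : ∀ σ y, f (Function.update σ j y) = f σ) (hg : ∀ σ x, g (Function.update σ i x) = g σ)
    (h0 : ∀ σ, ∑ x, K.π x * f (Function.update σ i x) = 0) : K.nsq f ≤ C * K.Eij i j (f + g) := by
  have hp : ∀ x, 0 ≤ K.π x := fun x => (K.pos x).le
  have h1 : K.nsq f ≤ ex K.π fun σ => C * K.En fun x y =>
      f (Function.update σ i x) + g (Function.update σ j y) := by
    unfold nsq
    rw [ex_update K.sum_one i]
    exact ex_mono hp fun σ => h (fun x => f (Function.update σ i x))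
      (fun y => g (Function.update σ j y)) (h0 σ)
  refine h1.trans (le_of_eq ?_)
  rw [ex_mul_left]
  congr 1
  have e0 : ∀ (σ : Fin N → Ω) x y, (f + g) (Function.update (Function.update σ i x) j y) =
      f (Function.update σ i x) + g (Function.update σ j y) := by
    intro σ x y
    rw [Pi.add_apply, hf, Function.update_comm hij, hg]
  have e1 : ∀ (σ : Fin N → Ω) x y, Function.update (Function.update σ i x) j y i = x := by
    intro σ x y
    rw [Function.update_of_ne hij, Function.update_self]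
  have e3 : ∀ l (σ : Fin N → Ω) x y, K.step i j l (Function.update (Function.update σ i x) j y) =
      Function.update (Function.update σ i (K.mv l x y).1) j (K.mv l x y).2 := by
    intro l σ x y
    unfold step
    rw [e1, Function.update_self, Function.update_comm hij.symm, Function.update_idem,
      Function.update_idem]
  unfold Eij En
  simp only [div_eq_mul_inv]
  simp only [mul_comm _ ((2 * (Fintype.card Λ : ℝ))⁻¹)]
  rw [ex_mul_left, ex_sum]
  congr 1
  refine Finset.sum_congr rfl fun l _ => ?_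
  conv_rhs => rw [ex_update K.sum_one j, ex_update K.sum_one i]
  congr 1
  funext σ
  refine Finset.sum_congr rfl fun x _ => ?_
  rw [Finset.mul_sum]
  refine Finset.sum_congr rfl fun y _ => ?_
  rw [e3, e0, e0, e1, Function.update_self]
  ring

theorem LI.H1_le (h : K.LI C) (hC : 0 ≤ C) {i j : Fin N} (hij : i ≠ j) (ψ : (Fin N → Ω) → ℝ) :
    K.nsq (K.H1 i ψ) ≤ 2 * C * (K.Eij i j ψ + K.nsq (K.H2 i j ψ)) := by
  have hji : j ∉ ({i} : Finset (Fin N)) := by simpa using hij.symm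
  have hij' : i ∉ ({j} : Finset (Fin N)) := by simpa using hij
  have h1 := h.fiber hij (K.H1 i ψ) (K.keep {j} ψ)
    (fun σ y => by
      simp only [H1, Pi.sub_apply]
      rw [K.keep_update hji, K.keep_update (Finset.notMem_empty j)])
    (fun σ x => K.keep_update hij' ψ σ x)
    (fun σ => by
      simp only [H1, Pi.sub_apply, mul_sub, Finset.sum_sub_distrib, K.avg_keep]
      simp)
  have e : K.H1 i ψ + K.keep {j} ψ = K.keep {i, j} ψ - K.H2 i j ψ := by
    unfold H1 H2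
    ring
  rw [e] at h1
  have h2 := K.Eij_sub i j (K.keep {i, j} ψ) (K.H2 i j ψ)
  have h3 := K.Eij_keep (i := i) (j := j) (U := {i, j}) (by simp) (by simp) ψ
  have h4 := K.Eij_le_nsq hij (K.H2 i j ψ)
  refine h1.trans ?_
  nlinarith [mul_le_mul_of_nonneg_left h2 hC, mul_le_mul_of_nonneg_left h3 hC,
    mul_le_mul_of_nonneg_left h4 hC]

theorem LI.H2_le (h : K.LI C) (hC : 0 ≤ C) {i j k : Fin N} (hij : i ≠ j) (hik : i ≠ k) (hjk : j ≠ k)
    (ψ : (Fin N → Ω) → ℝ) : K.nsq (K.H2 i k ψ) ≤ 2 * C * (4 * K.Eij i j ψ + K.nsq (K.H3 i j k ψ)) := by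
  have n1 : j ∉ ({i, k} : Finset (Fin N)) := by simp [hij.symm, hjk]
  have n2 : j ∉ ({i} : Finset (Fin N)) := by simpa using hij.symm
  have n3 : j ∉ ({k} : Finset (Fin N)) := by simpa using hjk
  have n4 : i ∉ ({j, k} : Finset (Fin N)) := by simp [hij, hik]
  have n5 : i ∉ ({j} : Finset (Fin N)) := by simpa using hij
  have n6 : i ∉ ({k} : Finset (Fin N)) := by simpa using hik
  have h1 := h.fiber hij (K.H2 i k ψ) (K.keep {j, k} ψ - K.keep {j} ψ)
    (fun σ y => by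
      simp only [H2, Pi.sub_apply, Pi.add_apply]
      rw [K.keep_update n1, K.keep_update n2, K.keep_update n3, K.keep_update (Finset.notMem_empty j)])
    (fun σ x => by
      simp only [Pi.sub_apply]
      rw [K.keep_update n4, K.keep_update n5])
    (fun σ => by
      simp only [H2, Pi.sub_apply, Pi.add_apply, mul_sub, mul_add, Finset.sum_sub_distrib,
        Finset.sum_add_distrib, K.avg_keep]
      rw [Finset.erase_insert n6, Finset.erase_singleton, Finset.erase_eq_of_notMem n6,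
        Finset.erase_empty]
      ring)
  have e : K.H2 i k ψ + (K.keep {j, k} ψ - K.keep {j} ψ) =
      (K.keep {i, j, k} ψ - K.keep {i, j} ψ) - K.H3 i j k ψ := by
    unfold H2 H3
    ring
  rw [e] at h1
  have h2 := K.Eij_sub i j (K.keep {i, j, k} ψ - K.keep {i, j} ψ) (K.H3 i j k ψ)
  have h2' := K.Eij_sub i j (K.keep {i, j, k} ψ) (K.keep {i, j} ψ)
  have h3 := K.Eij_keep (i := i) (j := j) (U := {i, j}) (by simp) (by simp) ψ
  have h3' := K.Eij_keep (i := i) (j := j) (U := {i, j, k}) (by simp) (by simp) ψ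
  have h4 := K.Eij_le_nsq hij (K.H3 i j k ψ)
  refine h1.trans ?_
  have h5 : K.Eij i j ((K.keep {i, j, k} ψ - K.keep {i, j} ψ) - K.H3 i j k ψ) ≤
      2 * (4 * K.Eij i j ψ + K.nsq (K.H3 i j k ψ)) := by linarith
  nlinarith [mul_le_mul_of_nonneg_left h5 hC]

theorem pr_sum_one (i : Fin N) (c : ℝ) : ∑ j, (if i = j then 0 else c) = (N - 1) * c := by
  have h : ∀ j, (if i = j then 0 else c) = c - if i = j then c else 0 := by
    intro j
    split_ifs <;> simp
  simp only [h, Finset.sum_sub_distrib, Finset.sum_const, Finset.card_univ, Fintype.card_fin,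
    nsmul_eq_mul, Finset.sum_ite_eq, Finset.mem_univ, if_true]
  ring

theorem pr_sum_two {i k : Fin N} (hik : i ≠ k) (c : ℝ) :
    ∑ j, (if i ≠ j ∧ i ≠ k ∧ j ≠ k then c else 0) = (N - 2) * c := by
  have h : ∀ j, (if i ≠ j ∧ i ≠ k ∧ j ≠ k then c else 0) =
      c - (if i = j then c else 0) - if k = j then c else 0 := by
    intro j
    by_cases h1 : i = j
    · subst h1
      simp [hik.symm]
    · by_cases h2 : k = j
      · subst h2
        simp [h1]
      · simp [h1, h2, hik, Ne.symm h2]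
  simp only [h, Finset.sum_sub_distrib, Finset.sum_const, Finset.card_univ, Fintype.card_fin,
    nsmul_eq_mul, Finset.sum_ite_eq, Finset.mem_univ, if_true]
  ring

theorem LI.A1_le (h : K.LI C) (hC : 1 ≤ C) (hN : 4 ≤ N) (ψ : (Fin N → Ω) → ℝ) :
    N * ∑ i, K.nsq (K.H1 i ψ) ≤ 46 * C ^ 2 * K.Etot ψ + 64 * C ^ 2 / N * K.nsq ψ := by
  have hC0 : 0 ≤ C := by linarith
  have hN' : (4 : ℝ) ≤ N := by exact_mod_cast hN
  set A1 := ∑ i, K.nsq (K.H1 i ψ) with hA1
  set A2 := ∑ i, ∑ k, (if i = k then 0 else K.nsq (K.H2 i k ψ)) with hA2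
  have s1 : ((N : ℝ) - 1) * A1 ≤ 2 * C * (K.Etot ψ + A2) := by
    rw [hA1, hA2, Finset.mul_sum]
    unfold Etot
    rw [← Finset.sum_add_distrib, Finset.mul_sum]
    refine Finset.sum_le_sum fun i _ => ?_
    rw [← pr_sum_one i, ← Finset.sum_add_distrib, Finset.mul_sum]
    refine Finset.sum_le_sum fun j _ => ?_
    split_ifs with hij
    · simp
    · exact h.H1_le hC0 hij ψ
  have s2 : ((N : ℝ) - 2) * A2 ≤ ∑ i, ∑ k, ∑ j, (8 * C * (if i = j then 0 else K.Eij i j ψ) +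
      2 * C * if i ≠ j ∧ i ≠ k ∧ j ≠ k then K.nsq (K.H3 i j k ψ) else 0) := by
    have hE : ∀ i j : Fin N, 0 ≤ 8 * C * (if i = j then 0 else K.Eij i j ψ) := by
      intro i j
      refine mul_nonneg (by positivity) ?_
      split_ifs
      · exact le_rfl
      · exact K.Eij_nonneg i j ψ
    rw [hA2, Finset.mul_sum]
    refine Finset.sum_le_sum fun i _ => ?_
    rw [Finset.mul_sum]
    refine Finset.sum_le_sum fun k _ => ?_
    by_cases hik : i = k
    · rw [if_pos hik, mul_zero]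
      refine Finset.sum_nonneg fun j _ => add_nonneg (hE i j) ?_
      rw [if_neg (fun h => h.2.1 hik), mul_zero]
    · rw [if_neg hik, ← pr_sum_two hik]
      refine Finset.sum_le_sum fun j _ => ?_
      by_cases hc : i ≠ j ∧ i ≠ k ∧ j ≠ k
      · rw [if_pos hc, if_pos hc, if_neg hc.1]
        have := h.H2_le hC0 hc.1 hc.2.1 hc.2.2 ψ
        linarith
      · rw [if_neg hc, if_neg hc, mul_zero, add_zero]
        exact hE i j
  have s3 : ∑ i : Fin N, ∑ k : Fin N, ∑ j, (8 * C * (if i = j then 0 else K.Eij i j ψ) +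
      2 * C * if i ≠ j ∧ i ≠ k ∧ j ≠ k then K.nsq (K.H3 i j k ψ) else 0) =
      8 * C * (N * K.Etot ψ) +
        2 * C * ∑ i, ∑ j, ∑ k, (if i ≠ j ∧ i ≠ k ∧ j ≠ k then K.nsq (K.H3 i j k ψ) else 0) := by
    unfold Etot
    simp only [Finset.sum_add_distrib, ← Finset.mul_sum, Finset.sum_const, Finset.card_univ,
      Fintype.card_fin, nsmul_eq_mul]
    congr 2
    exact Finset.sum_congr rfl fun i _ => Finset.sum_comm
  have s4 := K.bessel3 ψ
  have s5 : ((N : ℝ) - 2) * A2 ≤ 8 * C * (N * K.Etot ψ) + 12 * C * K.nsq ψ := by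
    rw [s3] at s2
    nlinarith [mul_le_mul_of_nonneg_left s4 hC0]
  have he := K.Etot_nonneg ψ
  have hq := K.nsq_nonneg ψ
  have hA : 0 ≤ A1 := Finset.sum_nonneg fun i _ => K.nsq_nonneg _
  generalize K.Etot ψ = e at *
  generalize K.nsq ψ = q at *
  generalize (N : ℝ) = n at *
  have hn : 0 < n := by linarith
  -- `(n-1)(n-2) A1 ≤ 2C (n-2) e + 16 C² n e + 24 C² q`
  have s6 : (n - 1) * (n - 2) * A1 ≤ 2 * C * (n - 2) * e + 16 * C ^ 2 * n * e + 24 * C ^ 2 * q := by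
    have a := mul_le_mul_of_nonneg_left s1 (show 0 ≤ n - 2 by linarith)
    have b := mul_le_mul_of_nonneg_left s5 (show 0 ≤ 2 * C by linarith)
    nlinarith
  have hm : 0 < (n - 1) * (n - 2) := mul_pos (by linarith) (by linarith)
  have t0 : n ^ 2 ≤ 8 / 3 * ((n - 1) * (n - 2)) := by nlinarith
  have t1 : n ^ 2 * (2 * C * (n - 2) * e) ≤ (n - 1) * (n - 2) * (8 / 3 * C ^ 2 * n * e) := by
    have u1 : n * C ≤ 4 / 3 * (n - 1) * C ^ 2 :=
      mul_le_mul (by linarith) (by nlinarith) hC0 (by linarith)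
    have u2 : 0 ≤ 2 * n * (n - 2) * e := mul_nonneg (mul_nonneg (by linarith) (by linarith)) he
    nlinarith [mul_le_mul_of_nonneg_left u1 u2]
  have t2 : n ^ 2 * (16 * C ^ 2 * n * e) ≤ (n - 1) * (n - 2) * (128 / 3 * C ^ 2 * n * e) := by
    have u2 : 0 ≤ 16 * C ^ 2 * n * e := by positivity
    nlinarith [mul_le_mul_of_nonneg_right t0 u2]
  have t3 : n ^ 2 * (24 * C ^ 2 * q) ≤ (n - 1) * (n - 2) * (64 * C ^ 2 * q) := by
    have u2 : 0 ≤ 24 * C ^ 2 * q := by positivity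
    nlinarith [mul_le_mul_of_nonneg_right t0 u2]
  have t4 : (n - 1) * (n - 2) * (n ^ 2 * A1) ≤
      (n - 1) * (n - 2) * (136 / 3 * C ^ 2 * n * e + 64 * C ^ 2 * q) := by
    have := mul_le_mul_of_nonneg_left s6 (sq_nonneg n)
    nlinarith
  have t5 := le_of_mul_le_mul_left t4 hm
  have t6 : 0 ≤ C ^ 2 * n * e := by positivity
  refine le_of_mul_le_mul_left ?_ hn
  have t7 : n * (46 * C ^ 2 * e + 64 * C ^ 2 / n * q) = 46 * (C ^ 2 * n * e) + 64 * C ^ 2 * q := by
    field_simp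
  rw [t7]
  nlinarith

end PC

end Crest.Agent.R304
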