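import Crest.Agent.R304.Alg

/-!
# Row 304: ParL
Elementary facts on the parameters.  `b = pB s = s ^ 256`.  `-x - x^2 ≤ log (1 - x) ≤ -x` for `0 ≤ x ≤ 1/2`.  Never let `simp`/`norm_num`/`decide` evaluate `1024 ^ 256`: use
`Nat.pow_le_pow_left`, `pow_le_pow_right₀`, `pow_add`, and `generalize s ^ k = y` before `nlinarith`.
-/

set_option autoImplicit false

noncomputable section

namespace Crest.Agent.R304

open Finset
open scoped symmDiff
open Crest.Agent.R309 (avgN avgL Tape digs ind blk)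

variable {n s : ℕ}

theorem pB_ge_nat (hs : 1024 ≤ s) : 1024 ≤ pB s := by
  unfold pB
  calc 1024 ≤ s := hs
    _ = s ^ 1 := (pow_one s).symm
    _ ≤ s ^ 256 := Nat.pow_le_pow_right (by omega) (by norm_num)

theorem pB_ge_real (hs : 1024 ≤ s) : (1024 : ℝ) ≤ pB s := by
  exact_mod_cast pB_ge_nat hs

theorem pB_cast (s : ℕ) : (pB s : ℝ) = (s : ℝ) ^ 256 := by
  unfold pB; push_cast; rfl

theorem s_le_pD (hs : 1024 ≤ s) : s ≤ pD s := by
  unfold pD
  calc s = s ^ 1 := (pow_one s).symm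
    _ ≤ s ^ 259 := Nat.pow_le_pow_right (by omega) (by norm_num)

theorem pB_dvd_pBs (hs : 1024 ≤ s) : pB s ∣ pBs s := by
  unfold pBs
  have h := s_le_pD hs
  exact Dvd.dvd.mul_left (dvd_pow_self _ (by omega)) 2

theorem Par.mE_lt (h : Par n s) : mE n < s := by
  have h1 := h.n_lt
  have h2 : n * (2 * n - 1) ≤ n * (2 * n) := Nat.mul_le_mul_left _ (Nat.sub_le _ _)
  unfold mE
  nlinarith

theorem Par.nV_lt (h : Par n s) : nV n < s := by
  have h1 := h.n_lt
  unfold nV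
  nlinarith

theorem Par.nn_le (h : Par n s) : n * n ≤ mE n := by
  have _ := h
  unfold mE
  omega

theorem Par.s_pos (h : Par n s) : (0 : ℝ) < s := by
  have h1 := h.s_ge
  have : 0 < s := by omega
  exact_mod_cast this

theorem Par.s_ge' (h : Par n s) : (1024 : ℝ) ≤ s := by
  exact_mod_cast h.s_ge

theorem lam_pos (hs : 1024 ≤ s) : 0 < lam s := by
  have hb := pB_ge_real hs
  unfold lam
  generalize (pB s : ℝ) = b at hb
  have : 1 / b ≤ 1 / 1024 := one_div_le_one_div_of_le (by norm_num) hb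
  linarith

theorem lam_lt_one (hs : 1024 ≤ s) : lam s < 1 := by
  have hb := pB_ge_real hs
  unfold lam
  generalize (pB s : ℝ) = b at hb
  have : 0 < 1 / b := by positivity
  linarith

theorem lam_eq (hs : 1024 ≤ s) : lam s = ((pB s - 1 : ℕ) : ℝ) / pB s := by
  have hb := pB_ge_real hs
  have hb' := pB_ge_nat hs
  unfold lam
  rw [Nat.cast_sub (by omega), Nat.cast_one]
  generalize (pB s : ℝ) = b at hb
  field_simp

theorem log_lam_le (hs : 1024 ≤ s) : Real.log (lam s) * pB s ≤ -1 := by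
  have hb := pB_ge_real hs
  have h1 := Real.log_le_sub_one_of_pos (lam_pos hs)
  have h2 : lam s - 1 = -(1 / (pB s : ℝ)) := by unfold lam; ring
  rw [h2] at h1
  generalize (pB s : ℝ) = b at hb h1 ⊢
  have hb0 : 0 < b := by linarith
  calc Real.log (lam s) * b ≤ -(1 / b) * b := mul_le_mul_of_nonneg_right h1 hb0.le
    _ = -1 := by field_simp

theorem log_lam_ge (hs : 1024 ≤ s) : -(101 / 100) ≤ Real.log (lam s) * pB s := by
  have hb := pB_ge_real hs
  have h1 := Real.one_sub_inv_le_log_of_pos (lam_pos hs)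
  have h2 : lam s = ((pB s : ℝ) - 1) / pB s := by
    unfold lam
    have : (pB s : ℝ) ≠ 0 := by linarith
    field_simp
  rw [h2, inv_div] at h1
  rw [h2]
  generalize (pB s : ℝ) = b at hb h1 ⊢
  have hb0 : 0 < b := by linarith
  have hb1 : 0 < b - 1 := by linarith
  have h3 : -(101 / 100) ≤ (1 - b / (b - 1)) * b := by
    have e : (1 - b / (b - 1)) * b = -(b / (b - 1)) := by field_simp; ring
    rw [e, neg_le_neg_iff, div_le_iff₀ hb1]
    linarith
  exact h3.trans (mul_le_mul_of_nonneg_right h1 hb0.le)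

/-- the size `Δ = - pJ * log lam` of a macro-step -/
theorem log_lam_J (hs : 1024 ≤ s) :
    1 / (s : ℝ) ^ 5 ≤ -(pJ s * Real.log (lam s)) ∧ -(pJ s * Real.log (lam s)) ≤ 2 / (s : ℝ) ^ 5 := by
  have h1 := log_lam_le hs
  have h2 := log_lam_ge hs
  have hs0 : (0 : ℝ) < s := by exact_mod_cast (by omega : 0 < s)
  have e : -(pJ s * Real.log (lam s)) = -(Real.log (lam s) * pB s) / (s : ℝ) ^ 5 := by
    have hB : (pB s : ℝ) = pJ s * (s : ℝ) ^ 5 := by
      unfold pB pJ; push_cast; rw [← pow_add]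
    rw [hB]
    generalize (pJ s : ℝ) = J
    field_simp
  rw [e]
  have h5 : (0 : ℝ) < (s : ℝ) ^ 5 := by positivity
  constructor
  · exact div_le_div_of_nonneg_right (by linarith) h5.le
  · exact div_le_div_of_nonneg_right (by linarith) h5.le

theorem half_le_lam_J (hs : 1024 ≤ s) : 1 / 2 ≤ lam s ^ pJ s := by
  have h1 := (log_lam_J hs).2
  have hsR : (1024 : ℝ) ≤ s := by exact_mod_cast hs
  have h2 : lam s ^ pJ s = Real.exp (pJ s * Real.log (lam s)) := by
    rw [Real.exp_nat_mul, Real.exp_log (lam_pos hs)]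
  have h3 := Real.add_one_le_exp (pJ s * Real.log (lam s))
  have h4 : (4 : ℝ) ≤ (s : ℝ) ^ 5 := by
    calc (4 : ℝ) ≤ s := by linarith
      _ = (s : ℝ) ^ 1 := (pow_one _).symm
      _ ≤ (s : ℝ) ^ 5 := pow_le_pow_right₀ (by linarith) (by norm_num)
  have h5 : 2 / (s : ℝ) ^ 5 ≤ 2 / 4 := div_le_div_of_nonneg_left (by norm_num) (by norm_num) h4
  rw [h2]
  linarith

theorem lam_K_le (hs : 1024 ≤ s) : lam s ^ pK s ≤ 2⁻¹ ^ (s + 2) := by
  have h1 := log_lam_le hs
  have hsR : (1024 : ℝ) ≤ s := by exact_mod_cast hs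
  have h2 : lam s ^ pK s = Real.exp (pK s * Real.log (lam s)) := by
    rw [Real.exp_nat_mul, Real.exp_log (lam_pos hs)]
  have hK : (pK s : ℝ) = 2 * s * pB s := by
    unfold pK pB; push_cast; rw [pow_succ' (s : ℝ) 256, mul_assoc]
  have h3 : (pK s : ℝ) * Real.log (lam s) ≤ ((s + 2 : ℕ) : ℝ) * (-1) := by
    rw [hK]
    push_cast
    have : 2 * (s : ℝ) * (Real.log (lam s) * pB s) ≤ 2 * (s : ℝ) * (-1) :=
      mul_le_mul_of_nonneg_left h1 (by linarith)
    nlinarith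
  have h4 : Real.exp (-1) ≤ 2⁻¹ := by
    rw [Real.exp_neg]
    apply inv_anti₀ (by norm_num)
    have := Real.add_one_le_exp (1 : ℝ)
    linarith
  rw [h2]
  calc Real.exp (pK s * Real.log (lam s)) ≤ Real.exp (((s + 2 : ℕ) : ℝ) * (-1)) := Real.exp_le_exp.2 h3
    _ = Real.exp (-1) ^ (s + 2) := Real.exp_nat_mul _ _
    _ ≤ 2⁻¹ ^ (s + 2) := pow_le_pow_left₀ (Real.exp_pos _).le h4 _

theorem lam_inv_le (hs : 1024 ≤ s) : (lam s)⁻¹ ≤ 1 + 2 / (pB s : ℝ) := by
  have hb := pB_ge_real hs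
  have h2 : lam s = ((pB s : ℝ) - 1) / pB s := by
    unfold lam
    have : (pB s : ℝ) ≠ 0 := by linarith
    field_simp
  rw [h2, inv_div]
  generalize (pB s : ℝ) = b at hb ⊢
  have hb0 : 0 < b := by linarith
  have hb1 : 0 < b - 1 := by linarith
  have e : 1 + 2 / b = (b + 2) / b := by field_simp
  rw [e, div_le_div_iff₀ hb1 hb0]
  nlinarith

theorem pJ_le_pB (hs : 1024 ≤ s) : pJ s ≤ pB s := by
  unfold pJ pB
  exact Nat.pow_le_pow_right (by omega) (by norm_num)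

theorem pJ_pos (hs : 1024 ≤ s) : 0 < pJ s := by
  unfold pJ
  exact Nat.pow_pos (by omega)

theorem pN_pos (hs : 1024 ≤ s) : 0 < pN s := by
  unfold pN
  exact Nat.pow_pos (by omega)

theorem pK_eq (s : ℕ) : pK s = pJ s * (2 * s ^ 6) ∧ pK s = 2 * s * pB s := by
  unfold pK pJ pB
  constructor
  · rw [show 257 = 251 + 6 from rfl, pow_add]
    generalize s ^ 251 = x
    generalize s ^ 6 = y
    ring
  · rw [pow_succ' s 256, mul_assoc]

theorem pBs_pos (hs : 1024 ≤ s) : 0 < pBs s := by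
  unfold pBs
  have := pB_ge_nat hs
  exact Nat.mul_pos (by norm_num) (Nat.pow_pos (by omega))

theorem pN_dvd (hs : 1024 ≤ s) : pN s ∣ pBs s := by
  refine Dvd.dvd.trans ?_ (pB_dvd_pBs hs)
  unfold pN pB
  exact pow_dvd_pow _ (by norm_num)

theorem s_dvd (hs : 1024 ≤ s) : s ∣ pBs s := by
  refine Dvd.dvd.trans ?_ (pB_dvd_pBs hs)
  unfold pB
  exact dvd_pow_self _ (by norm_num)

theorem Par.two_pow_dvd (h : Par n s) : 2 ^ mE n ∣ pBs s := by
  have hs := h.s_ge
  obtain ⟨a, ha⟩ := h.s_pow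
  have h2 : 2 ∣ pB s := by
    have ha0 : a ≠ 0 := by
      rintro rfl
      omega
    have h2s : 2 ∣ s := by rw [ha]; exact dvd_pow_self _ ha0
    unfold pB
    exact h2s.trans (dvd_pow_self _ (by norm_num))
  have h3 : mE n ≤ pD s := h.mE_lt.le.trans (s_le_pD hs)
  unfold pBs
  exact Dvd.dvd.mul_left ((pow_dvd_pow_of_dvd h2 _).trans (pow_dvd_pow _ h3)) 2

theorem exists_bits (hs : 1024 ≤ s) (hp : ∃ a, s = 2 ^ a) : ∃ r, pBs s = 2 ^ r ∧ r * pL3 s ≤ s ^ 900 := by
  obtain ⟨a, ha⟩ := hp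
  have has : a ≤ s := by
    rw [ha]
    exact Nat.lt_two_pow_self.le
  have hs1 : 1 ≤ s := by omega
  refine ⟨1 + a * 256 * pD s, ?_, ?_⟩
  · unfold pBs pB
    generalize pD s = D
    rw [pow_add, pow_one, pow_mul, pow_mul, ← ha]
  · have h1 : 1 + a * 256 * pD s ≤ s ^ 261 := by
      unfold pD
      have e1 : s ^ 261 = s * (s * s ^ 259) := by
        rw [← pow_succ', ← pow_succ']
      have hp : 1 ≤ s * s ^ 259 := Nat.mul_pos hs1 (Nat.pow_pos hs1)
      have h2 : a * 256 * s ^ 259 ≤ 256 * (s * s ^ 259) := by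
        generalize s ^ 259 = y
        calc a * 256 * y = 256 * (a * y) := by ring
          _ ≤ 256 * (s * y) := Nat.mul_le_mul_left _ (Nat.mul_le_mul_right _ has)
      rw [e1]
      generalize s * s ^ 259 = z at hp h2 ⊢
      calc 1 + a * 256 * s ^ 259 ≤ z + 256 * z := Nat.add_le_add hp h2
        _ = 257 * z := by ring
        _ ≤ s * z := Nat.mul_le_mul_right _ (by omega)
    have h2 : pT s + 1 ≤ s ^ 13 := by
      unfold pT
      rw [pow_succ' s 12]
      have hp : 1 ≤ s ^ 12 := Nat.pow_pos hs1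
      generalize s ^ 12 = z at hp ⊢
      calc z + 1 ≤ z + z := by omega
        _ = 2 * z := by ring
        _ ≤ s * z := Nat.mul_le_mul_right _ (by omega)
    have h3 : pL1 s ≤ s ^ 618 := by
      unfold pL1 pL0 pN pT pJ pMix
      have e1 : s ^ 12 * s ^ 251 * (s ^ 354 * 20) = 20 * s ^ 617 := by
        rw [show 617 = 12 + 251 + 354 from rfl, pow_add, pow_add]
        generalize s ^ 12 = x
        generalize s ^ 251 = y
        generalize s ^ 354 = z
        ring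
      have e2 : s ^ 118 ≤ s ^ 617 := Nat.pow_le_pow_right hs1 (by norm_num)
      rw [e1, pow_succ' s 617]
      generalize s ^ 617 = z at e2 ⊢
      calc s ^ 118 + 20 * z ≤ z + 20 * z := Nat.add_le_add_right e2 _
        _ = 21 * z := by ring
        _ ≤ s * z := Nat.mul_le_mul_right _ (by omega)
    have h4 : pL3 s ≤ s ^ 2 * (s ^ 13 * s ^ 618) := by
      unfold pL3 pL2
      exact Nat.mul_le_mul_left _ (Nat.mul_le_mul h2 h3)
    calc (1 + a * 256 * pD s) * pL3 s ≤ s ^ 261 * (s ^ 2 * (s ^ 13 * s ^ 618)) := Nat.mul_le_mul h1 h4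
      _ = s ^ 894 := by rw [← pow_add, ← pow_add, ← pow_add]
      _ ≤ s ^ 900 := Nat.pow_le_pow_right hs1 (by norm_num)

theorem coin_avg (hs : 1024 ≤ s) {Δ : ℕ} (hΔ : Δ ≤ pD s) :
    avgN (pBs s) (fun u => ind (coin s Δ u = true)) = 1 / 2 * lam s ^ Δ := by
  have hb := pB_ge_real hs
  have hb' := pB_ge_nat hs
  have hle : (pB s - 1) ^ Δ * pB s ^ (pD s - Δ) ≤ pBs s := by
    unfold pBs
    calc (pB s - 1) ^ Δ * pB s ^ (pD s - Δ) ≤ pB s ^ Δ * pB s ^ (pD s - Δ) :=
          Nat.mul_le_mul_right _ (Nat.pow_le_pow_left (Nat.sub_le _ _) _)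
      _ = pB s ^ pD s := by rw [← pow_add, Nat.add_sub_cancel' hΔ]
      _ ≤ 2 * pB s ^ pD s := by omega
  have e : (fun u => ind (coin s Δ u = true)) = fun u => ind (u < (pB s - 1) ^ Δ * pB s ^ (pD s - Δ)) := by
    funext u
    unfold coin
    rw [min_eq_left hΔ, decide_eq_true_eq]
  rw [e, Crest.Agent.R309.avgN_lt hle, lam_eq hs]
  unfold pBs
  obtain ⟨m, hm⟩ := Nat.exists_eq_add_of_le hΔ
  rw [hm, Nat.add_sub_cancel_left]
  rw [Nat.cast_mul, Nat.cast_mul, Nat.cast_pow, Nat.cast_pow, Nat.cast_pow, pow_add, div_pow]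
  generalize ((pB s - 1 : ℕ) : ℝ) = c
  generalize (pB s : ℝ) = b at hb ⊢
  have hb0 : b ≠ 0 := by linarith
  push_cast
  field_simp

/-- the error of one run: `pT * pJ` micro-steps, each with the error of `PC.drift` for `C = s ^ 38`, `δ = 2 / pB` -/
theorem drift_total (hs : 1024 ≤ s) :
    (pT s * pJ s : ℕ) * (10 * (s : ℝ) ^ 38 * (2 / pB s) / Real.sqrt (pN s) + (pN s * (2 / pB s)) ^ 2) ≤
      1 / (32 * (s : ℝ) ^ 12) := by
  have hsR : (1024 : ℝ) ≤ s := by exact_mod_cast hs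
  have hs0 : (0 : ℝ) < s := by linarith
  have hN : (pN s : ℝ) = (s : ℝ) ^ 118 := by unfold pN; push_cast; rfl
  have hsq : Real.sqrt (pN s) = (s : ℝ) ^ 59 := by
    rw [hN, show 118 = 59 * 2 from rfl, pow_mul]
    exact Real.sqrt_sq (by positivity)
  have hTJ : ((pT s * pJ s : ℕ) : ℝ) = (s : ℝ) ^ 263 := by
    unfold pT pJ; push_cast; rw [← pow_add]
  rw [hsq, hN, hTJ, pB_cast]
  generalize (s : ℝ) = x at hsR hs0 ⊢
  have e : x ^ 263 * (10 * x ^ 38 * (2 / x ^ 256) / x ^ 59 + (x ^ 118 * (2 / x ^ 256)) ^ 2) =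
      (20 / x ^ 2 + 4 / x) / x ^ 12 := by
    field_simp
    ring
  have h1 : 20 / x ^ 2 ≤ 20 / 1024 ^ 2 :=
    div_le_div_of_nonneg_left (by norm_num) (by norm_num) (pow_le_pow_left₀ (by norm_num) hsR 2)
  have h2 : 4 / x ≤ 4 / 1024 := div_le_div_of_nonneg_left (by norm_num) (by norm_num) hsR
  have e2 : 1 / (32 * x ^ 12) = (1 / 32) / x ^ 12 := by field_simp
  rw [e, e2]
  apply div_le_div_of_nonneg_right _ (by positivity)
  norm_num at h1 h2 ⊢
  linarith

theorem drift_side (hs : 1024 ≤ s) : 4 ≤ pN s ∧ pN s ^ 3 ≤ pMix s ∧ (pN s : ℝ) * (2 / pB s) ≤ 1 := by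
  have hsR : (1024 : ℝ) ≤ s := by exact_mod_cast hs
  have hs0 : (0 : ℝ) < s := by linarith
  refine ⟨?_, ?_, ?_⟩
  · unfold pN
    calc 4 ≤ s := by omega
      _ = s ^ 1 := (pow_one s).symm
      _ ≤ s ^ 118 := Nat.pow_le_pow_right (by omega) (by norm_num)
  · unfold pN pMix
    rw [← pow_mul]
  · have hN : (pN s : ℝ) = (s : ℝ) ^ 118 := by unfold pN; push_cast; rfl
    rw [hN, pB_cast]
    generalize (s : ℝ) = x at hsR hs0 ⊢
    rw [← mul_div_assoc, div_le_one (by positivity)]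
    calc x ^ 118 * 2 ≤ x ^ 118 * x := mul_le_mul_of_nonneg_left (by linarith) (by positivity)
      _ = x ^ 119 := (pow_succ x 118).symm
      _ ≤ x ^ 256 := pow_le_pow_right₀ (by linarith) (by norm_num)

end Crest.Agent.R304
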