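import Crest.Agent.R304.Kernel
import Crest.Agent.R304.Chain

/-!
# Row 304: RunTV
* `runMu_tv`: induction on `t`, for all `F`.  `runMu n s μ (t+1) (us ++ us') = runS … (runMu n s μ t us) us'` for `us` of length `pN + t * pL0`, `us'` of length `pL0`.  Put
  `F' pop = avgL (fun us' => F (runS … pop us'))`, `|F'| ≤ 1`, `F' (emb σ) = P^[pMix] (F ∘ emb) σ` (`runS_avg`); then the induction hypothesis for `F'` and `PC.drift` with `ρ = piS (kF (μ.take t))`,
  `π = piS (kF (μ.take (t+1)))` (`List.take_succ`, `kF_append_replicate` with `j = 1`, `pi_step`, `pc_LI`, `drift_side`).  The case `t = 0` is `pop0_law`.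
* `cheb`: for an event `p`, `ex ((∑ i, (ind (p (σ i)) - P))^2) = N P (1-P) ≤ N` (`ex_update` or `ex_coord` with `keep`; cross terms vanish), Markov, union bound over `mE n + 1 ≤ s` events:
  `s * s^18 / s^118 ≤ 1 / (32 s^12)`.
* `run_acc`: the run only reads the first `pN + length * pL0 ≤ pL1` numbers (`avgL_append`, `avgL_const`); `runMu_tv` with `F = ind (¬ Acc)`, `drift_total`, `cheb`.
-/

set_option autoImplicit false

noncomputable section

namespace Crest.Agent.R304

open Finset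
open scoped symmDiff
open Crest.Agent.R309 (avgN avgL Tape digs ind blk)

variable {n s : ℕ}

theorem rtv_succ (μ : List (ℕ × Bool)) (t : ℕ) (us : List ℕ) :
    runMu n s μ (t + 1) us =
      runS n s (kL n (μ.take (t + 1))) (pMix s) (runMu n s μ t us) (blk (pL0 s) t (us.drop (pN s))) := by
  unfold runMu
  rw [List.range_succ, List.foldl_append, List.foldl_cons, List.foldl_nil]

theorem rtv_append (μ : List (ℕ × Bool)) (t : ℕ) {us : List ℕ} (hus : pN s + t * pL0 s ≤ us.length)
    (us' : List ℕ) : runMu n s μ t (us ++ us') = runMu n s μ t us := by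
  induction t with
  | zero =>
    have h0 : pop0 n s (us ++ us') = pop0 n s us := by
      unfold pop0
      refine List.map_congr_left fun i hi => ?_
      rw [List.getD_append _ _ _ _ (by have := List.mem_range.1 hi; omega)]
    exact h0
  | succ t ih =>
    rw [Nat.succ_mul] at hus
    rw [rtv_succ, rtv_succ, ih (by omega)]
    congr 1
    unfold blk
    rw [List.drop_drop, List.drop_drop, List.drop_append_of_le_length (by omega),
      List.take_append_of_le_length (by rw [List.length_drop]; omega)]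

theorem rtv_last (μ : List (ℕ × Bool)) (t : ℕ) {us us' : List ℕ} (hus : us.length = pN s + t * pL0 s)
    (hus' : us'.length = pL0 s) :
    runMu n s μ (t + 1) (us ++ us') = runS n s (kL n (μ.take (t + 1))) (pMix s) (runMu n s μ t us) us' := by
  rw [rtv_succ, rtv_append μ t hus.ge]
  congr 1
  unfold blk
  rw [List.drop_drop, List.drop_left' hus, List.take_of_length_le hus'.le]

theorem rtv_abs_avgL {B : ℕ} (hB : 0 < B) (T : ℕ) {g : List ℕ → ℝ} (hg : ∀ us, |g us| ≤ 1) : |avgL B T g| ≤ 1 :=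
  abs_le.2 ⟨(R309.avgL_const hB T (-1)).ge.trans (R309.avgL_mono fun us _ => (abs_le.1 (hg us)).1),
    (R309.avgL_mono fun us _ => (abs_le.1 (hg us)).2).trans (R309.avgL_const hB T 1).le⟩

theorem Par.runMu_tv (h : Par n s) {μ : List (ℕ × Bool)} (hμ : Path n s μ) {t : ℕ} (ht : t ≤ μ.length)
    {F : List (List Bool) → ℝ} (hF : ∀ pop, |F pop| ≤ 1) :
    |avgL (pBs s) (pN s + t * pL0 s) (fun us => F (runMu n s μ t us)) -
        ex (piS n s (kF (μ.take t))) fun σ : Fin (pN s) → St n => F (emb n σ)| ≤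
      t * (10 * (s : ℝ) ^ 38 * (2 / pB s) / Real.sqrt (pN s) + (pN s * (2 / pB s)) ^ 2) := by
  have hB := pBs_pos h.s_ge
  induction t generalizing F with
  | zero =>
    have h0 : (fun us => F (runMu n s μ 0 us)) = fun us => F (pop0 n s us) := rfl
    rw [Nat.zero_mul, Nat.add_zero, h0, h.pop0_law, List.take_zero, kF_nil, sub_self, abs_zero, Nat.cast_zero,
      zero_mul]
  | succ t ih =>
    have ht' : t < μ.length := ht
    have hg := hμ (t + 1) ht
    obtain ⟨F', hF'⟩ : ∃ F' : List (List Bool) → ℝ, ∀ pop, F' pop =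
        avgL (pBs s) (pL0 s) fun us' => F (runS n s (kL n (μ.take (t + 1))) (pMix s) pop us') := ⟨_, fun _ => rfl⟩
    have e1 : avgL (pBs s) (pN s + (t + 1) * pL0 s) (fun us => F (runMu n s μ (t + 1) us)) =
        avgL (pBs s) (pN s + t * pL0 s) (fun us => F' (runMu n s μ t us)) := by
      rw [Nat.succ_mul, ← Nat.add_assoc, R309.avgL_append]
      refine R309.avgL_congr fun us hus => ?_
      rw [hF']
      exact R309.avgL_congr fun us' hus' => by rw [rtv_last μ t hus.1 hus'.1]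
    have e2 : (fun σ : Fin (pN s) → St n => F' (emb n σ)) =
        (h.pc (kF (μ.take (t + 1)))).P^[pMix s] fun σ' => F (emb n σ') := by
      funext σ
      rw [hF']
      exact h.runS_avg hg.le F (pMix s) σ
    have i1 := ih ht'.le (F := F') fun pop => by rw [hF']; exact rtv_abs_avgL hB _ fun us => hF _
    obtain ⟨d1, d2, d3⟩ := drift_side h.s_ge
    have e3 : kF (μ.take (t + 1)) =
        addK (kF (μ.take t)) (μ[t]).1 (if (μ[t]).2 then ((1 : ℕ) : ℤ) else -((1 : ℕ) : ℤ)) := by
      rw [← kF_append_replicate, List.take_succ_eq_append_getElem ht']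
      rfl
    have i2 := (h.pc (kF (μ.take (t + 1)))).drift (h.pc_LI hg)
      (one_le_pow₀ (le_trans (by norm_num) h.s_ge')) d1 d2 (ρ := piS n s (kF (μ.take t))) (h.sum_piS _)
      (δ := 2 / pB s) (fun X => by
        have := h.pi_step (kF (μ.take t)) (μ[t]).1
          (j := if (μ[t]).2 then ((1 : ℕ) : ℤ) else -((1 : ℕ) : ℤ)) (by split_ifs <;> simp) X
        rw [← e3] at this
        exact this) d3 (F := fun σ' => F (emb n σ')) fun σ => hF _
    rw [e2] at i1
    rw [e1, Nat.cast_succ, add_mul, one_mul]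
    exact (abs_sub_le _ _ _).trans (add_le_add i1 i2)

theorem rtv_var {Ω : Type} [Fintype Ω] [DecidableEq Ω] {N : ℕ} {ρ : Ω → ℝ} (h0 : ∀ x, 0 ≤ ρ x)
    (h1 : ∑ x, ρ x = 1) {v : Ω → ℝ} (hv : ∀ x, |v x| ≤ 1) (hm : ∑ x, ρ x * v x = 0) :
    ex ρ (fun σ : Fin N → Ω => (∑ i, v (σ i)) ^ 2) ≤ N := by
  simp only [sq, Finset.sum_mul_sum]
  rw [ex_sum]
  have key : ∀ i : Fin N, ex ρ (fun σ : Fin N → Ω => ∑ j, v (σ i) * v (σ j)) ≤ 1 := by
    intro i
    rw [ex_sum, Finset.sum_eq_single i]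
    · refine (ex_mono h0 fun σ => ?_).trans_eq (ex_const h1 1)
      have := abs_le.1 (hv (σ i))
      nlinarith only [this.1, this.2]
    · intro j _ hj
      rw [ex_update h1 i]
      simp only [Function.update_self, Function.update_of_ne hj, ← mul_assoc, ← Finset.sum_mul, hm, zero_mul]
      exact ex_const h1 0
    · simp
  refine (Finset.sum_le_sum fun i _ => key i).trans_eq ?_
  simp

theorem Par.rtv_cheb (h : Par n s) (k : ℕ → ℤ) (p : List Bool → Bool) :
    ex (piS n s k) (fun σ : Fin (pN s) → St n =>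
      ind (¬ |((emb n σ).countP p : ℝ) / pN s - prB n s k p| ≤ 1 / (s : ℝ) ^ 9)) ≤ (s : ℝ) ^ 18 / pN s := by
  have hN : (0 : ℝ) < pN s := by exact_mod_cast pN_pos h.s_ge
  have hs := h.s_pos
  have hπ : ∀ X, 0 ≤ piS n s k X := fun X => (h.piS_pos k X).le
  have hvar := rtv_var (N := pN s) hπ (h.sum_piS k) (v := fun X => ind (p (toL n X.1) = true) - prB n s k p)
    (fun X => abs_le.2 ⟨by linarith only [R309.ind_nonneg (p (toL n X.1) = true), h.prB_le_one k p],
      by linarith only [R309.ind_le_one (p (toL n X.1) = true), h.prB_nonneg k p]⟩)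
    (by
      simp only [mul_sub, Finset.sum_sub_distrib, ← Finset.sum_mul, h.sum_piS k, one_mul]
      exact sub_self _)
  have hs9 : (0 : ℝ) < (s : ℝ) ^ 9 := pow_pos hs 9
  have e18 : (s : ℝ) ^ 18 = ((s : ℝ) ^ 9) ^ 2 := by rw [← pow_mul]
  have pt : ∀ σ : Fin (pN s) → St n,
      ind (¬ |((emb n σ).countP p : ℝ) / pN s - prB n s k p| ≤ 1 / (s : ℝ) ^ 9) ≤
        ((s : ℝ) ^ 9 / pN s) ^ 2 * (∑ i, (ind (p (toL n (σ i).1) = true) - prB n s k p)) ^ 2 := by
    intro σ
    by_cases c : |((emb n σ).countP p : ℝ) / pN s - prB n s k p| ≤ 1 / (s : ℝ) ^ 9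
    · rw [R309.ind_of_not (not_not.2 c)]
      exact mul_nonneg (sq_nonneg _) (sq_nonneg _)
    · rw [R309.ind_of c, Finset.sum_sub_distrib, ← countP_emb, Finset.sum_const, Finset.card_univ, Fintype.card_fin,
        nsmul_eq_mul, ← mul_pow]
      rw [not_le, div_lt_iff₀ hs9] at c
      generalize ((emb n σ).countP p : ℝ) = A at c ⊢
      generalize (s : ℝ) ^ 9 = y at c hs9 ⊢
      generalize (pN s : ℝ) = N at c hN ⊢
      have e : y / N * (A - N * prB n s k p) = (A / N - prB n s k p) * y := by field_simp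
      rw [e, ← sq_abs, abs_mul, abs_of_pos hs9]
      exact one_le_pow₀ c.le
  refine (ex_mono hπ pt).trans ?_
  rw [ex_mul_left, e18]
  refine (mul_le_mul_of_nonneg_left hvar (sq_nonneg _)).trans_eq ?_
  generalize (s : ℝ) ^ 9 = y
  generalize (pN s : ℝ) = N at hN ⊢
  field_simp

theorem Par.cheb (h : Par n s) (tab : List (List Bool)) (k : ℕ → ℤ) :
    ex (piS n s k) (fun σ : Fin (pN s) → St n => ind (¬ Acc n s tab k (emb n σ))) ≤ 1 / (32 * (s : ℝ) ^ 12) := by
  have hs := h.s_pos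
  have hπ : ∀ X, 0 ≤ piS n s k X := fun X => (h.piS_pos k X).le
  have pt : ∀ σ : Fin (pN s) → St n, ind (¬ Acc n s tab k (emb n σ)) ≤
      (∑ e ∈ range (mE n), ind (¬ |((emb n σ).countP (fun X => bt X e) : ℝ) / pN s - prB n s k (fun X => bt X e)| ≤
        1 / (s : ℝ) ^ 9)) +
      ind (¬ |((emb n σ).countP (pmB n tab) : ℝ) / pN s - prB n s k (pmB n tab)| ≤ 1 / (s : ℝ) ^ 9) := by
    intro σ
    have n1 : 0 ≤ ∑ e ∈ range (mE n), ind (¬ |((emb n σ).countP (fun X => bt X e) : ℝ) / pN s -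
        prB n s k (fun X => bt X e)| ≤ 1 / (s : ℝ) ^ 9) := Finset.sum_nonneg fun e _ => R309.ind_nonneg _
    by_cases c : |((emb n σ).countP (pmB n tab) : ℝ) / pN s - prB n s k (pmB n tab)| ≤ 1 / (s : ℝ) ^ 9
    · by_cases c' : ∀ e < mE n, |(cntE (emb n σ) e : ℝ) / pN s - pm n s k e| ≤ 1 / (s : ℝ) ^ 9
      · rw [R309.ind_of_not (not_not.2 ⟨length_emb σ, c', c⟩)]
        exact add_nonneg n1 (R309.ind_nonneg _)
      · rw [not_forall] at c'
        obtain ⟨e, he⟩ := c'
        rw [Classical.not_imp] at he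
        refine (R309.ind_le_one _).trans (le_add_of_le_of_nonneg ?_ (R309.ind_nonneg _))
        refine le_trans (R309.ind_of he.2).ge (Finset.single_le_sum (f := fun e =>
          ind (¬ |((emb n σ).countP (fun X => bt X e) : ℝ) / pN s - prB n s k (fun X => bt X e)| ≤ 1 / (s : ℝ) ^ 9))
          (fun e _ => R309.ind_nonneg _) (mem_range.2 he.1))
    · rw [R309.ind_of c]
      exact (R309.ind_le_one _).trans (le_add_of_nonneg_left n1)
  refine (ex_mono hπ pt).trans ?_
  rw [ex_add, ex_sum]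
  refine (add_le_add (Finset.sum_le_sum fun e _ => h.rtv_cheb k _) (h.rtv_cheb k _)).trans ?_
  rw [Finset.sum_const, card_range, nsmul_eq_mul]
  have hm : (mE n : ℝ) + 1 ≤ s := by exact_mod_cast h.mE_lt
  have hN : (pN s : ℝ) = (s : ℝ) ^ 18 * ((s : ℝ) * (s : ℝ) ^ 12 * (s : ℝ) ^ 87) := by
    unfold pN
    rw [Nat.cast_pow, ← pow_succ', ← pow_add, ← pow_add]
  have h87 : (32 : ℝ) ≤ (s : ℝ) ^ 87 :=
    le_trans (le_trans (by norm_num) h.s_ge') (le_self_pow₀ (le_trans (by norm_num) h.s_ge') (by norm_num))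
  have h18 : (0 : ℝ) < (s : ℝ) ^ 18 := pow_pos hs 18
  have h12 : (0 : ℝ) < (s : ℝ) ^ 12 := pow_pos hs 12
  rw [hN]
  generalize (s : ℝ) ^ 18 = a at h18 ⊢
  generalize (s : ℝ) ^ 12 = b at h12 ⊢
  generalize (s : ℝ) ^ 87 = c at h87 ⊢
  have hc : 0 < c := lt_of_lt_of_le (by norm_num) h87
  calc (mE n : ℝ) * (a / (a * (s * b * c))) + a / (a * (s * b * c)) = ((mE n : ℝ) + 1) / (s * (b * c)) := by
        field_simp
    _ ≤ s / (s * (b * c)) := div_le_div_of_nonneg_right hm (by positivity)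
    _ = 1 / (c * b) := by field_simp
    _ ≤ 1 / (32 * b) := one_div_le_one_div_of_le (by positivity) (mul_le_mul_of_nonneg_right h87 h12.le)

theorem Par.run_acc (h : Par n s) (tab : List (List Bool)) {sch : List (ℕ × Bool)} (hp : Path n s (micro s sch))
    (hl : sch.length ≤ pT s) :
    avgL (pBs s) (pL1 s) (fun us => ind (¬ Acc n s tab (kOf s sch) (run n s sch us))) ≤ 1 / (16 * (s : ℝ) ^ 12) := by
  have hB := pBs_pos h.s_ge
  have hlen : (micro s sch).length ≤ pT s * pJ s := by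
    rw [length_micro]
    exact Nat.mul_le_mul_right _ hl
  obtain ⟨r, hr⟩ : ∃ r, pL1 s = pN s + (micro s sch).length * pL0 s + r :=
    Nat.exists_eq_add_of_le (Nat.add_le_add_left (Nat.mul_le_mul_right _ hlen) _)
  have e1 : avgL (pBs s) (pL1 s) (fun us => ind (¬ Acc n s tab (kOf s sch) (run n s sch us))) =
      avgL (pBs s) (pN s + (micro s sch).length * pL0 s)
        (fun us => ind (¬ Acc n s tab (kOf s sch) (runMu n s (micro s sch) (micro s sch).length us))) := by
    rw [hr, R309.avgL_append]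
    refine R309.avgL_congr fun us hus => ?_
    unfold run
    simp only [rtv_append (micro s sch) _ hus.1.ge]
    exact R309.avgL_const hB _ _
  have i1 := h.runMu_tv hp le_rfl (F := fun pop => ind (¬ Acc n s tab (kOf s sch) pop)) fun pop => by
    rw [abs_of_nonneg (R309.ind_nonneg _)]
    exact R309.ind_le_one _
  rw [List.take_length] at i1
  have i2 := h.cheb tab (kOf s sch)
  have i3 := drift_total h.s_ge
  have i4 : (0 : ℝ) ≤ 10 * (s : ℝ) ^ 38 * (2 / pB s) / Real.sqrt (pN s) + (pN s * (2 / pB s)) ^ 2 :=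
    add_nonneg (div_nonneg (mul_nonneg (mul_nonneg (by norm_num) (pow_nonneg (Nat.cast_nonneg _) _))
      (div_nonneg (by norm_num) (Nat.cast_nonneg _))) (Real.sqrt_nonneg _)) (sq_nonneg _)
  have i5 := mul_le_mul_of_nonneg_right (Nat.cast_le (α := ℝ).2 hlen) i4
  have i6 : 1 / (32 * (s : ℝ) ^ 12) + 1 / (32 * (s : ℝ) ^ 12) = 1 / (16 * (s : ℝ) ^ 12) := by
    have := pow_pos h.s_pos 12
    generalize (s : ℝ) ^ 12 = b at this ⊢
    field_simp
    norm_num
  rw [e1, ← i6]
  exact (sub_le_iff_le_add.1 (abs_le.1 i1).2).trans (add_le_add (i5.trans i3) i2)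

end Crest.Agent.R304
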