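import Crest.Agent.R304.Station
import Crest.Agent.R304.Load
import Crest.Agent.R304.Beta

/-!
# Row 304: Single
The defects that are single moves.  Each theorem: `sum_fib` over the local data (`dat` at the relevant positions; `card (E × Bool × Bool) = 4 card E`), and on a fibre with
representative `p0` apply `load1`; by `dat_eq` the labels `pL`, `qL`, the cut edges and the flip set are those of `p0`.  Use `Small` with `u2 = v2 = u4 = v4` any vertex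
of the cycle (`pr_self`), `hΦ` for the sector `0`.  Injectivity: `stn_inj` (with constant index functions, or `t H = (cy H).l - 1`); for `X p = p.1`, `W p = p.2` it is trivial;
`p ↦ (p.1 ∆ all, p.2 ∆ all)` is injective because it keeps `p.1 ∆ p.2`.
* `single_start`: `X = I`, `W = F`, `θ = 1`, `R1 = I ∩ {h 0}` (`stn_zero`), `W' = stn F 0 0`, `θ' = x (h 0)` (`wt_stn`, `lab_le`).
* `single_end`: `X = stn I 0 (l-1)`, `W = stn F 0 (l-1)`, `R1 = F ∩ {h 0, h (l-1)}` (`stn_last`, `good_last`), `W' = F ∆ all`, `θ' = 1` (`wt_symmDiff_mul`).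
* `single_step`: `X = stn I s t`, `R1 = rr I s t (t+1)` (`stn_step`, `seg_eq_empty`), `W = stn F s t`, `W' = stn F s (t+1)`.
-/

set_option autoImplicit false

noncomputable section

namespace Crest.Agent.R304

open Finset
open scoped symmDiff

variable {E V : Type} [Fintype E] [DecidableEq E] [DecidableEq V]

theorem Cyc.single_same {G : Gr E V} (hl : ∀ e, G.src e ≠ G.tgt e) {C C' : Cyc G}
    {I F I' F' : Finset E} (hC : C.all ⊆ I ∆ F) (hC' : C'.all ⊆ I' ∆ F') {t t' : ℕ} (ht : t < C.l)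
    (ht' : t' < C'.l) (h : C.dat I t = C'.dat I' t') :
    C.h t = C'.h t' ∧ C.v t = C'.v t' ∧ C.v (t + 1) = C'.v (t' + 1) ∧ (C.h t ∈ I ↔ C'.h t' ∈ I') ∧
      (C.h t ∈ F ↔ C'.h t' ∈ F') := by
  obtain ⟨h1, h2, h3, h4⟩ := C.dat_eq hl ht ht' h
  exact ⟨h1, h2, h3, h4, by rw [C.mem_iff hC ht, C'.mem_iff hC' ht', h4]⟩

theorem Cyc.single_lab {G : Gr E V} (hl : ∀ e, G.src e ≠ G.tgt e) {C C' : Cyc G}
    {I F I' F' : Finset E} (hC : C.all ⊆ I ∆ F) (hC' : C'.all ⊆ I' ∆ F') {s t s' t' : ℕ}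
    (hs : s < C.l) (hs' : s' < C'.l) (ht : t < C.l) (ht' : t' < C'.l) (hst : s = t ↔ s' = t')
    (d1 : C.dat I s = C'.dat I' s') (d2 : C.dat I t = C'.dat I' t') :
    C.pL I s = C'.pL I' s' ∧ C.qL I s t = C'.qL I' s' t' ∧ C.pL F s = C'.pL F' s' ∧
      C.qL F s t = C'.qL F' s' t' ∧ ({C.h s, C.h t} : Finset E) = {C'.h s', C'.h t'} := by
  obtain ⟨a1, a2, a3, a4, a5⟩ := Cyc.single_same hl hC hC' hs hs' d1
  obtain ⟨b1, b2, b3, b4, b5⟩ := Cyc.single_same hl hC hC' ht ht' d2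
  refine ⟨?_, ?_, ?_, ?_, by rw [a1, b1]⟩
  · simp only [Cyc.pL, a2, a3, a4]
  · simp only [Cyc.qL, a3, b2, b3, b4, hst]
  · simp only [Cyc.pL, a2, a3, a5]
  · simp only [Cyc.qL, a3, b2, b3, b5, hst]

theorem single_inter {I I' : Finset E} {a : E} (h : a ∈ I ↔ a ∈ I') : I ∩ {a} = I' ∩ {a} := by
  ext e
  simp only [mem_inter, mem_singleton]
  exact ⟨fun ⟨h1, h2⟩ => ⟨by rw [h2] at h1 ⊢; exact h.mp h1, h2⟩,
    fun ⟨h1, h2⟩ => ⟨by rw [h2] at h1 ⊢; exact h.mpr h1, h2⟩⟩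

theorem single_inter2 {I I' : Finset E} {a b : E} (h : a ∈ I ↔ a ∈ I') (h' : b ∈ I ↔ b ∈ I') :
    I ∩ {a, b} = I' ∩ {a, b} := by
  ext e
  simp only [mem_inter, mem_insert, mem_singleton]
  constructor
  · rintro ⟨h1, rfl | rfl⟩
    exacts [⟨h.mp h1, Or.inl rfl⟩, ⟨h'.mp h1, Or.inr rfl⟩]
  · rintro ⟨h1, rfl | rfl⟩
    exacts [⟨h.mpr h1, Or.inl rfl⟩, ⟨h'.mpr h1, Or.inr rfl⟩]

theorem single_card : (Fintype.card (E × Bool × Bool) : ℝ) = 4 * (Fintype.card E : ℝ) := by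
  simp only [Fintype.card_prod, Fintype.card_bool]
  push_cast
  ring

namespace Model

variable {M : Model E V} {Φ Ψ : V → V → Finset E → ℝ} {f : Finset E → ℝ} {D : ℝ}

/-- `load1` combined with `Small` -/
theorem Ok.single_fib (hM : M.Ok) (hS : M.Small Φ Ψ D) (P : Finset (Finset E × Finset E))
    (X X' W W' : Finset E × Finset E → Finset E) (R1 : Finset E) (hR : R1.card ≤ 2) {u v u' v' : V}
    (hu : M.IsV u) (hv : M.IsV v) (hu' : M.IsV u') (hv' : M.IsV v') (B B' : V → ZMod 2) (θ θ' : ℝ)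
    (hXX : ∀ p ∈ P, X p ∆ R1 = X' p)
    (hX : ∀ p ∈ P, X p ∈ M.Om (pr u v)) (hW : ∀ p ∈ P, W p ∈ M.Om B)
    (hX' : ∀ p ∈ P, X' p ∈ M.Om (pr u' v')) (hW' : ∀ p ∈ P, W' p ∈ M.Om B')
    (hw : ∀ p ∈ P, wt M.x p.1 * wt M.x p.2 = θ * (wt M.x (X p) * wt M.x (W p)))
    (hw' : ∀ p ∈ P, wt M.x p.1 * wt M.x p.2 = θ' * (wt M.x (X' p) * wt M.x (W' p)))
    (hi : ∀ p ∈ P, ∀ q ∈ P, X p = X q → W p = W q → p = q)
    (hi' : ∀ p ∈ P, ∀ q ∈ P, X' p = X' q → W' p = W' q → p = q)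
    (hθ : 0 ≤ θ) (hθ' : 0 ≤ θ') (hL : θ * M.r u v * M.rA B ≤ LL E)
    (hL' : θ' * M.r u' v' * M.rA B' ≤ LL E) (φ : Finset E × Finset E → ℝ)
    (hφ : ∀ p ∈ P, φ p = (Φ u v (X p) - Φ u' v' (X' p)) ^ 2) :
    ∑ p ∈ P, M.pp p * φ p ≤ LL E * D := by
  have h1 := hM.toPos.load1 P X W W' R1 (pr u v) B (pr u' v') B' θ θ' (LL E) (Φ u v) (Ψ u u) (Φ u' v')
    (hM.Zp u v hu hv) (hM.Zp u' v' hu' hv') hX hW (fun p hp => by rw [hXX p hp]; exact hX' p hp) hW' hw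
    (fun p hp => by rw [hXX p hp]; exact hw' p hp) hi
    (fun p hp q hq e1 e2 => hi' p hp q hq (by rw [← hXX p hp, ← hXX q hq, e1]) e2) hθ hθ' hL hL'
  have h2 := hS ⟨R1, R1, ∅, ∅⟩ ⟨hR.trans (by norm_num), Subset.refl _, empty_subset _, hR, by simp, by simp⟩
    u v u u u' v' u u hu hv hu hu hu' hv' hu hu
  rw [pr_self] at h2
  calc ∑ p ∈ P, M.pp p * φ p = ∑ p ∈ P, M.pp p * (Φ u v (X p) - Φ u' v' (X p ∆ R1)) ^ 2 :=
        Finset.sum_congr rfl fun p hp => by rw [hφ p hp, hXX p hp]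
    _ ≤ _ := h1
    _ ≤ _ := mul_le_mul_of_nonneg_left h2 (zero_le_one.trans one_le_LL)

theorem Ok.single_start (hM : M.Ok) (hS : M.Small Φ Ψ D) (hD : 0 ≤ D) (hΦ : ∀ u, M.IsV u → Φ u u = f)
    (cy : Finset E → Cyc M.toGr) :
    ∑ p ∈ M.PP cy, M.pp p * (f p.1 - (cy (p.1 ∆ p.2)).val Φ p.1 0 0) ^ 2 ≤
      4 * (Fintype.card E : ℝ) * (LL E * D) := by
  have hl := hM.cubic.1
  have h0 : ∀ C : Cyc M.toGr, 0 < C.l := fun C => lt_of_lt_of_le two_pos C.two_le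
  rw [← single_card]
  refine sum_fib _ (fun p => (cy (p.1 ∆ p.2)).dat p.1 0) _
    (mul_nonneg (zero_le_one.trans one_le_LL) hD) fun p0 hp0 => ?_
  obtain ⟨-, -, c0⟩ := mem_PP.mp hp0
  have hu := (cy (p0.1 ∆ p0.2)).isV (Nat.zero_le _)
  have key : ∀ p ∈ (M.PP cy).filter (fun p => (cy (p.1 ∆ p.2)).dat p.1 0 = (cy (p0.1 ∆ p0.2)).dat p0.1 0),
      p.1 ∈ M.Om 0 ∧ p.2 ∈ M.Om 0 ∧ (cy (p.1 ∆ p.2)).all ⊆ p.1 ∆ p.2 ∧
        (cy (p.1 ∆ p.2)).dat p.1 0 = (cy (p0.1 ∆ p0.2)).dat p0.1 0 := by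
    intro p hp
    obtain ⟨h1, h2⟩ := mem_filter.mp hp
    obtain ⟨h3, h4, h5⟩ := mem_PP.mp h1
    exact ⟨h3, h4, h5, h2⟩
  have lab := fun p hp => Cyc.single_lab hl (key p hp).2.2.1 c0 (h0 _) (h0 _) (h0 _) (h0 _) Iff.rfl
    (key p hp).2.2.2 (key p hp).2.2.2
  refine hM.single_fib hS _ (fun p => p.1) (fun p => (cy (p.1 ∆ p.2)).stn p.1 0 0) (fun p => p.2)
    (fun p => (cy (p.1 ∆ p.2)).stn p.2 0 0) (p0.1 ∩ {(cy (p0.1 ∆ p0.2)).h 0})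
    ((card_le_card inter_subset_right).trans (by simp)) hu hu
    ((cy (p0.1 ∆ p0.2)).isV_pL p0.1 (h0 _)) ((cy (p0.1 ∆ p0.2)).isV_qL p0.1 0 (h0 _)) 0
    (pr ((cy (p0.1 ∆ p0.2)).pL p0.2 0) ((cy (p0.1 ∆ p0.2)).qL p0.2 0 0)) 1
    (wt M.x {(cy (p0.1 ∆ p0.2)).h 0, (cy (p0.1 ∆ p0.2)).h 0}) ?_ ?_ ?_ ?_ ?_ ?_ ?_ ?_ ?_ zero_le_one
    (wt_pos hM.x_pos _).le ?_ (hM.lab_le _ c0 le_rfl (h0 _) (Or.inl rfl)) _ ?_
  · intro p hp
    obtain ⟨a1, -, -, a4, -⟩ := Cyc.single_same hl (key p hp).2.2.1 c0 (h0 _) (h0 _) (key p hp).2.2.2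
    rw [Cyc.stn_zero, a1]
    rw [a1] at a4
    rw [single_inter a4]
  · intro p hp
    rw [pr_self]
    exact (key p hp).1
  · exact fun p hp => (key p hp).2.1
  · intro p hp
    rw [← (lab p hp).1, ← (lab p hp).2.1]
    exact stn_mem_Om _ (key p hp).1 le_rfl (h0 _)
  · intro p hp
    rw [← (lab p hp).2.2.1, ← (lab p hp).2.2.2.1]
    exact stn_mem_Om _ (key p hp).2.1 le_rfl (h0 _)
  · exact fun p _ => (one_mul _).symm
  · intro p hp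
    rw [← (lab p hp).2.2.2.2]
    exact Cyc.wt_stn _ _ (key p hp).2.2.1 le_rfl (h0 _)
  · exact fun p _ q _ e1 e2 => Prod.ext e1 e2
  · intro p hp q hq e1 e2
    have d := (key p hp).2.2.2.trans (key q hq).2.2.2.symm
    obtain ⟨e3, e4⟩ := stn_inj cy (fun _ => 0) (fun _ => 0) (key p hp).2.2.1 (key q hq).2.2.1 le_rfl (h0 _)
      le_rfl (h0 _) d d e1 e2
    exact Prod.ext e3 e4
  · rw [hM.toPos.r_self, hM.toPos.rA_zero, one_mul, one_mul]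
    exact one_le_LL
  · intro p hp
    rw [hΦ _ hu, Cyc.val, (lab p hp).1, (lab p hp).2.1]

theorem Ok.single_end (hM : M.Ok) (hS : M.Small Φ Ψ D) (hD : 0 ≤ D) (hΦ : ∀ u, M.IsV u → Φ u u = f)
    (cy : Finset E → Cyc M.toGr) :
    ∑ p ∈ M.PP cy, M.pp p * ((cy (p.1 ∆ p.2)).val Φ p.1 0 ((cy (p.1 ∆ p.2)).l - 1) -
        f (p.1 ∆ (cy (p.1 ∆ p.2)).all)) ^ 2 ≤ (4 * (Fintype.card E : ℝ)) ^ 2 * (LL E * D) := by
  have hl := hM.cubic.1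
  have h0 : ∀ C : Cyc M.toGr, 0 < C.l := fun C => lt_of_lt_of_le two_pos C.two_le
  have h1 : ∀ C : Cyc M.toGr, C.l - 1 < C.l := fun C => Nat.sub_lt (h0 C) one_pos
  have h2 : ∀ C C' : Cyc M.toGr, 0 = C.l - 1 ↔ 0 = C'.l - 1 := fun C C' => by
    have := C.two_le
    have := C'.two_le
    omega
  have hcard : (Fintype.card ((E × Bool × Bool) × (E × Bool × Bool)) : ℝ) =
      (4 * (Fintype.card E : ℝ)) ^ 2 := by
    rw [Fintype.card_prod, Nat.cast_mul, single_card, pow_two]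
  rw [← hcard]
  refine sum_fib _ (fun p => ((cy (p.1 ∆ p.2)).dat p.1 0,
      (cy (p.1 ∆ p.2)).dat p.1 ((cy (p.1 ∆ p.2)).l - 1))) _
    (mul_nonneg (zero_le_one.trans one_le_LL) hD) fun p0 hp0 => ?_
  obtain ⟨-, -, c0⟩ := mem_PP.mp hp0
  have hu := (cy (p0.1 ∆ p0.2)).isV (Nat.zero_le _)
  have key : ∀ p ∈ (M.PP cy).filter (fun p => ((cy (p.1 ∆ p.2)).dat p.1 0,
      (cy (p.1 ∆ p.2)).dat p.1 ((cy (p.1 ∆ p.2)).l - 1)) = ((cy (p0.1 ∆ p0.2)).dat p0.1 0,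
      (cy (p0.1 ∆ p0.2)).dat p0.1 ((cy (p0.1 ∆ p0.2)).l - 1))),
      p.1 ∈ M.Om 0 ∧ p.2 ∈ M.Om 0 ∧ (cy (p.1 ∆ p.2)).all ⊆ p.1 ∆ p.2 ∧
        (cy (p.1 ∆ p.2)).dat p.1 0 = (cy (p0.1 ∆ p0.2)).dat p0.1 0 ∧
        (cy (p.1 ∆ p.2)).dat p.1 ((cy (p.1 ∆ p.2)).l - 1) =
          (cy (p0.1 ∆ p0.2)).dat p0.1 ((cy (p0.1 ∆ p0.2)).l - 1) := by
    intro p hp
    obtain ⟨h1, h2⟩ := mem_filter.mp hp
    obtain ⟨h3, h4, h5⟩ := mem_PP.mp h1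
    exact ⟨h3, h4, h5, (Prod.ext_iff.mp h2).1, (Prod.ext_iff.mp h2).2⟩
  have lab := fun p hp => Cyc.single_lab hl (key p hp).2.2.1 c0 (h0 _) (h0 _) (h1 _) (h1 _) (h2 _ _)
    (key p hp).2.2.2.1 (key p hp).2.2.2.2
  have hall : ∀ (C : Cyc M.toGr) (I : Finset E), I ∈ M.Om 0 → I ∆ C.all ∈ M.Om 0 := by
    intro C I hI
    have := symmDiff_mem_Om hI C.all
    rwa [C.bd_all, add_zero] at this
  refine hM.single_fib hS _ (fun p => (cy (p.1 ∆ p.2)).stn p.1 0 ((cy (p.1 ∆ p.2)).l - 1))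
    (fun p => p.1 ∆ (cy (p.1 ∆ p.2)).all)
    (fun p => (cy (p.1 ∆ p.2)).stn p.2 0 ((cy (p.1 ∆ p.2)).l - 1))
    (fun p => p.2 ∆ (cy (p.1 ∆ p.2)).all)
    (p0.2 ∩ {(cy (p0.1 ∆ p0.2)).h 0, (cy (p0.1 ∆ p0.2)).h ((cy (p0.1 ∆ p0.2)).l - 1)})
    ((card_le_card inter_subset_right).trans card_le_two)
    ((cy (p0.1 ∆ p0.2)).isV_pL p0.1 (h0 _)) ((cy (p0.1 ∆ p0.2)).isV_qL p0.1 0 (h1 _)) hu hu
    (pr ((cy (p0.1 ∆ p0.2)).pL p0.2 0) ((cy (p0.1 ∆ p0.2)).qL p0.2 0 ((cy (p0.1 ∆ p0.2)).l - 1))) 0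
    (wt M.x {(cy (p0.1 ∆ p0.2)).h 0, (cy (p0.1 ∆ p0.2)).h ((cy (p0.1 ∆ p0.2)).l - 1)}) 1
    ?_ ?_ ?_ ?_ ?_ ?_ ?_ ?_ ?_ (wt_pos hM.x_pos _).le zero_le_one
    (hM.lab_le _ c0 (Nat.zero_le _) (h1 _) (hM.good_last _)) ?_ _ ?_
  · intro p hp
    obtain ⟨a1, -, -, -, a5⟩ := Cyc.single_same hl (key p hp).2.2.1 c0 (h0 _) (h0 _) (key p hp).2.2.2.1
    obtain ⟨b1, -, -, -, b5⟩ := Cyc.single_same hl (key p hp).2.2.1 c0 (h1 _) (h1 _) (key p hp).2.2.2.2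
    rw [Cyc.stn_last _ (key p hp).2.2.1, a1, b1]
    rw [a1] at a5
    rw [b1] at b5
    rw [single_inter2 a5 b5]
  · intro p hp
    rw [← (lab p hp).1, ← (lab p hp).2.1]
    exact stn_mem_Om _ (key p hp).1 (Nat.zero_le _) (h1 _)
  · intro p hp
    rw [← (lab p hp).2.2.1, ← (lab p hp).2.2.2.1]
    exact stn_mem_Om _ (key p hp).2.1 (Nat.zero_le _) (h1 _)
  · intro p hp
    rw [pr_self]
    exact hall _ _ (key p hp).1
  · exact fun p hp => hall _ _ (key p hp).2.1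
  · intro p hp
    rw [← (lab p hp).2.2.2.2]
    exact Cyc.wt_stn _ _ (key p hp).2.2.1 (Nat.zero_le _) (h1 _)
  · intro p hp
    rw [one_mul, wt_symmDiff_mul _ (key p hp).2.2.1]
  · intro p hp q hq e1 e2
    obtain ⟨e3, e4⟩ := stn_inj cy (fun _ => 0) (fun H => (cy H).l - 1) (key p hp).2.2.1 (key q hq).2.2.1
      (Nat.zero_le _) (h1 _) (Nat.zero_le _) (h1 _)
      ((key p hp).2.2.2.1.trans (key q hq).2.2.2.1.symm)
      ((key p hp).2.2.2.2.trans (key q hq).2.2.2.2.symm) e1 e2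
    exact Prod.ext e3 e4
  · intro p _ q _ e1 e2
    have e0 : ∀ a b c : Finset E, (a ∆ c) ∆ (b ∆ c) = a ∆ b := fun a b c => by
      rw [symmDiff_comm b c, symmDiff_assoc, symmDiff_symmDiff_cancel_left]
    have e3 : p.1 ∆ p.2 = q.1 ∆ q.2 := by
      rw [← e0 p.1 p.2 (cy (p.1 ∆ p.2)).all, e1, e2, e0]
    rw [e3] at e1 e2
    exact Prod.ext (symmDiff_left_inj.mp e1) (symmDiff_left_inj.mp e2)
  · rw [hM.toPos.r_self, hM.toPos.rA_zero, one_mul, one_mul]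
    exact one_le_LL
  · intro p hp
    rw [hΦ _ hu, Cyc.val, (lab p hp).1, (lab p hp).2.1]

open Classical in
theorem Ok.single_step (hM : M.Ok) (hS : M.Small Φ Ψ D) (hD : 0 ≤ D) (cy : Finset E → Cyc M.toGr)
    (s t : ℕ) :
    ∑ p ∈ (M.PP cy).filter (fun p => M.Sgl (cy (p.1 ∆ p.2)) s t),
        M.pp p * ((cy (p.1 ∆ p.2)).val Φ p.1 s (t + 1) - (cy (p.1 ∆ p.2)).val Φ p.1 s t) ^ 2 ≤
      (4 * (Fintype.card E : ℝ)) ^ 3 * (LL E * D) := by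
  have hl := hM.cubic.1
  have hcard : (Fintype.card ((E × Bool × Bool) × (E × Bool × Bool) × (E × Bool × Bool)) : ℝ) =
      (4 * (Fintype.card E : ℝ)) ^ 3 := by
    rw [Fintype.card_prod, Fintype.card_prod (E × Bool × Bool), Nat.cast_mul, Nat.cast_mul, single_card]
    ring
  rw [← hcard]
  refine sum_fib _ (fun p => ((cy (p.1 ∆ p.2)).dat p.1 s, (cy (p.1 ∆ p.2)).dat p.1 t,
      (cy (p.1 ∆ p.2)).dat p.1 (t + 1))) _
    (mul_nonneg (zero_le_one.trans one_le_LL) hD) fun p0 hp0 => ?_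
  obtain ⟨hp0', hst, t0, g0, g0'⟩ := mem_filter.mp hp0
  obtain ⟨-, -, c0⟩ := mem_PP.mp hp0'
  have key : ∀ p ∈ ((M.PP cy).filter (fun p => M.Sgl (cy (p.1 ∆ p.2)) s t)).filter
      (fun p => ((cy (p.1 ∆ p.2)).dat p.1 s, (cy (p.1 ∆ p.2)).dat p.1 t,
        (cy (p.1 ∆ p.2)).dat p.1 (t + 1)) = ((cy (p0.1 ∆ p0.2)).dat p0.1 s,
        (cy (p0.1 ∆ p0.2)).dat p0.1 t, (cy (p0.1 ∆ p0.2)).dat p0.1 (t + 1))),
      p.1 ∈ M.Om 0 ∧ p.2 ∈ M.Om 0 ∧ (cy (p.1 ∆ p.2)).all ⊆ p.1 ∆ p.2 ∧ t + 1 < (cy (p.1 ∆ p.2)).l ∧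
        (cy (p.1 ∆ p.2)).dat p.1 s = (cy (p0.1 ∆ p0.2)).dat p0.1 s ∧
        (cy (p.1 ∆ p.2)).dat p.1 t = (cy (p0.1 ∆ p0.2)).dat p0.1 t ∧
        (cy (p.1 ∆ p.2)).dat p.1 (t + 1) = (cy (p0.1 ∆ p0.2)).dat p0.1 (t + 1) := by
    intro p hp
    obtain ⟨h1, h2⟩ := mem_filter.mp hp
    obtain ⟨h1, h6⟩ := mem_filter.mp h1
    obtain ⟨h3, h4, h5⟩ := mem_PP.mp h1
    simp only [Prod.mk.injEq] at h2
    exact ⟨h3, h4, h5, h6.2.1, h2.1, h2.2.1, h2.2.2⟩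
  have ht : ∀ {l : ℕ}, t + 1 < l → t < l := fun h => by omega
  have hs : ∀ {l : ℕ}, t + 1 < l → s < l := fun h => by omega
  have hst' : s ≤ t + 1 := by omega
  have lab := fun p hp => Cyc.single_lab hl (key p hp).2.2.1 c0 (hs (key p hp).2.2.2.1) (hs t0)
    (ht (key p hp).2.2.2.1) (ht t0) Iff.rfl (key p hp).2.2.2.2.1 (key p hp).2.2.2.2.2.1
  have lab' := fun p hp => Cyc.single_lab hl (key p hp).2.2.1 c0 (hs (key p hp).2.2.2.1) (hs t0)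
    (key p hp).2.2.2.1 t0 Iff.rfl (key p hp).2.2.2.2.1 (key p hp).2.2.2.2.2.2
  refine hM.single_fib hS _ (fun p => (cy (p.1 ∆ p.2)).stn p.1 s t)
    (fun p => (cy (p.1 ∆ p.2)).stn p.1 s (t + 1)) (fun p => (cy (p.1 ∆ p.2)).stn p.2 s t)
    (fun p => (cy (p.1 ∆ p.2)).stn p.2 s (t + 1)) ((cy (p0.1 ∆ p0.2)).rr p0.1 s t (t + 1))
    ((card_le_card (Cyc.rr_subset _ _ _ _ _)).trans card_le_two)
    ((cy (p0.1 ∆ p0.2)).isV_pL p0.1 (hs t0)) ((cy (p0.1 ∆ p0.2)).isV_qL p0.1 s (ht t0))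
    ((cy (p0.1 ∆ p0.2)).isV_pL p0.1 (hs t0)) ((cy (p0.1 ∆ p0.2)).isV_qL p0.1 s t0)
    (pr ((cy (p0.1 ∆ p0.2)).pL p0.2 s) ((cy (p0.1 ∆ p0.2)).qL p0.2 s t))
    (pr ((cy (p0.1 ∆ p0.2)).pL p0.2 s) ((cy (p0.1 ∆ p0.2)).qL p0.2 s (t + 1)))
    (wt M.x {(cy (p0.1 ∆ p0.2)).h s, (cy (p0.1 ∆ p0.2)).h t})
    (wt M.x {(cy (p0.1 ∆ p0.2)).h s, (cy (p0.1 ∆ p0.2)).h (t + 1)})
    ?_ ?_ ?_ ?_ ?_ ?_ ?_ ?_ ?_ (wt_pos hM.x_pos _).le (wt_pos hM.x_pos _).le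
    (hM.lab_le _ c0 hst (ht t0) g0) (hM.lab_le _ c0 hst' t0 g0') _ ?_
  · intro p hp
    obtain ⟨a1, -, -, a4, -⟩ := Cyc.single_same hl (key p hp).2.2.1 c0 (ht (key p hp).2.2.2.1) (ht t0)
      (key p hp).2.2.2.2.2.1
    obtain ⟨b1, -, -, b4, -⟩ := Cyc.single_same hl (key p hp).2.2.1 c0 (key p hp).2.2.2.1 t0
      (key p hp).2.2.2.2.2.2
    have e : (cy (p.1 ∆ p.2)).rr p.1 s t (t + 1) = (cy (p0.1 ∆ p0.2)).rr p0.1 s t (t + 1) := by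
      simp only [Cyc.rr, a4, b4]
      rw [a1, b1]
    rw [Cyc.stn_step _ p.1 hst (Nat.lt_succ_self t) (key p hp).2.2.2.1, Cyc.seg_eq_empty _ le_rfl, e]
    congr 1
    exact (symmDiff_bot _).symm
  · intro p hp
    rw [← (lab p hp).1, ← (lab p hp).2.1]
    exact stn_mem_Om _ (key p hp).1 hst (ht (key p hp).2.2.2.1)
  · intro p hp
    rw [← (lab p hp).2.2.1, ← (lab p hp).2.2.2.1]
    exact stn_mem_Om _ (key p hp).2.1 hst (ht (key p hp).2.2.2.1)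
  · intro p hp
    rw [← (lab' p hp).1, ← (lab' p hp).2.1]
    exact stn_mem_Om _ (key p hp).1 hst' (key p hp).2.2.2.1
  · intro p hp
    rw [← (lab' p hp).2.2.1, ← (lab' p hp).2.2.2.1]
    exact stn_mem_Om _ (key p hp).2.1 hst' (key p hp).2.2.2.1
  · intro p hp
    rw [← (lab p hp).2.2.2.2]
    exact Cyc.wt_stn _ _ (key p hp).2.2.1 hst (ht (key p hp).2.2.2.1)
  · intro p hp
    rw [← (lab' p hp).2.2.2.2]
    exact Cyc.wt_stn _ _ (key p hp).2.2.1 hst' (key p hp).2.2.2.1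
  · intro p hp q hq e1 e2
    obtain ⟨e3, e4⟩ := stn_inj cy (fun _ => s) (fun _ => t) (key p hp).2.2.1 (key q hq).2.2.1
      hst (ht (key p hp).2.2.2.1) hst (ht (key q hq).2.2.2.1)
      ((key p hp).2.2.2.2.1.trans (key q hq).2.2.2.2.1.symm)
      ((key p hp).2.2.2.2.2.1.trans (key q hq).2.2.2.2.2.1.symm) e1 e2
    exact Prod.ext e3 e4
  · intro p hp q hq e1 e2
    obtain ⟨e3, e4⟩ := stn_inj cy (fun _ => s) (fun _ => t + 1) (key p hp).2.2.1 (key q hq).2.2.1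
      hst' (key p hp).2.2.2.1 hst' (key q hq).2.2.2.1
      ((key p hp).2.2.2.2.1.trans (key q hq).2.2.2.2.1.symm)
      ((key p hp).2.2.2.2.2.2.trans (key q hq).2.2.2.2.2.2.symm) e1 e2
    exact Prod.ext e3 e4
  · intro p hp
    rw [Cyc.val, Cyc.val, (lab p hp).1, (lab p hp).2.1, (lab' p hp).2.1]
    ring

end Model

end Crest.Agent.R304
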