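import Crest.Agent.R304.Cycle

/-!
# Row 304: Station
Bookkeeping for the stations `stn I s t`.  Everything is proved by `ext e` and a case distinction on `e = h s`, `e = h t`, `e ∈ seg` (`h_mem_seg`), or from
`X \ K = X ∆ (X ∩ K)`.
* `wt_stn`: `wt_symmDiff_mul` with `J = seg (s+1) t`, then each of `h s`, `h t` lies in exactly one of the two flipped sets.
* `stn_inj`: `I ∆ F = (stn I ∆ stn F) ∪ {h s, h t}`, so `I ∆ F = I' ∆ F'`, the cycles and the indices agree, and `I` is recovered from `stn I` and the memberships.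
* `lab_le`: for `s < t` this is `Gd` with `joins_pL`, `joins_qL`; for `s = t` one factor is `r u u = 1` and the other is bounded by `rE1`.
-/

set_option autoImplicit false
set_option linter.unusedSectionVars false

noncomputable section

namespace Crest.Agent.R304

open Finset
open scoped symmDiff

variable {E V : Type} [Fintype E] [DecidableEq E] [DecidableEq V]

theorem station_bd_erase (G : Gr E V) (X : Finset E) (a : E) :
    G.bd (X \ {a}) = G.bd X + if a ∈ X then G.bd {a} else 0 := by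
  split_ifs with h
  · rw [← Gr.bd_symmDiff]
    congr 1
    ext e
    by_cases he : e = a <;> simp [mem_symmDiff, he, h]
  · rw [add_zero, sdiff_singleton_eq_erase, erase_eq_of_notMem h]

omit [Fintype E] in
theorem station_wt_cut (x : E → ℝ) {X Y K : Finset E} (h : K ⊆ X ∆ Y) :
    wt x X * wt x Y = wt x K * (wt x (X \ K) * wt x (Y \ K)) := by
  have h1 : K = (X ∩ K) ∪ (Y ∩ K) := by
    ext e
    have := @h e
    simp only [mem_symmDiff, mem_union, mem_inter] at this ⊢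
    tauto
  have h2 : Disjoint (X ∩ K) (Y ∩ K) := by
    rw [disjoint_left]
    intro e
    have := @h e
    simp only [mem_symmDiff, mem_inter] at this ⊢
    tauto
  have h3 : wt x K = wt x (X ∩ K) * wt x (Y ∩ K) := by
    unfold wt
    rw [← prod_union h2, ← h1]
  have h4 : ∀ Z : Finset E, wt x Z = wt x (Z ∩ K) * wt x (Z \ K) := fun Z =>
    (prod_inter_mul_prod_sdiff Z K x).symm
  rw [h3, h4 X, h4 Y]
  ring

namespace Cyc

variable {G : Gr E V} (C : Cyc G) {I F : Finset E}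

omit [Fintype E] [DecidableEq E] [DecidableEq V] in
theorem h_eq_iff {i j : ℕ} (hi : i < C.l) (hj : j < C.l) : C.h i = C.h j ↔ i = j :=
  ⟨C.h_inj i hi j hj, fun h => h ▸ rfl⟩

theorem not_mem_seg {e : E} (he : ∀ j < C.l, e ≠ C.h j) {a b : ℕ} (hb : b ≤ C.l) :
    e ∉ C.seg a b := by
  rw [mem_seg]
  rintro ⟨j, -, h1, h2⟩
  exact he j (by omega) h2.symm

theorem mem_iff (hC : C.all ⊆ I ∆ F) {t : ℕ} (ht : t < C.l) : C.h t ∈ F ↔ C.h t ∉ I := by
  have := hC (C.h_mem_all ht)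
  rw [mem_symmDiff] at this
  tauto

theorem isV_pL (I : Finset E) {s : ℕ} (hs : s < C.l) : G.IsV (C.pL I s) := by
  rw [pL]
  split_ifs
  · exact C.isV hs.le
  · exact C.isV hs

theorem isV_qL (I : Finset E) (s : ℕ) {t : ℕ} (ht : t < C.l) : G.IsV (C.qL I s t) := by
  rw [qL]
  split_ifs with h
  · exact C.isV (by omega)
  · exact C.isV ht
  · exact C.isV ht.le

theorem pL_cases (I : Finset E) (s : ℕ) : C.pL I s = C.v s ∨ C.pL I s = C.v (s + 1) := by
  rw [pL]
  split_ifs <;> simp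

theorem qL_cases (I : Finset E) (s t : ℕ) : C.qL I s t = C.v t ∨ C.qL I s t = C.v (t + 1) := by
  rw [qL]
  split_ifs with h <;> simp [*]

theorem joins_pL (hC : C.all ⊆ I ∆ F) {s : ℕ} (hs : s < C.l) : G.Joins (C.h s) (C.pL I s) (C.pL F s) := by
  have h := C.mem_iff hC hs
  by_cases hI : C.h s ∈ I
  · rw [pL, pL, if_pos hI, if_neg (by tauto)]
    exact C.joins s hs
  · rw [pL, pL, if_neg hI, if_pos (by tauto)]
    exact (C.joins s hs).symm

theorem joins_qL (hC : C.all ⊆ I ∆ F) {s t : ℕ} (hst : s < t) (ht : t < C.l) :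
    G.Joins (C.h t) (C.qL I s t) (C.qL F s t) := by
  have h := C.mem_iff hC ht
  rw [qL, qL, if_neg hst.ne, if_neg hst.ne]
  by_cases hI : C.h t ∈ I
  · rw [if_pos hI, if_neg (by tauto)]
    exact (C.joins t ht).symm
  · rw [if_neg hI, if_pos (by tauto)]
    exact C.joins t ht

theorem joins_qp (I : Finset E) {s t : ℕ} (hst : s < t) (ht : t < C.l) :
    G.Joins (C.h t) (C.qL I s t) (C.pL I t) := by
  rw [qL, pL, if_neg hst.ne]
  split_ifs
  · exact (C.joins t ht).symm
  · exact C.joins t ht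

theorem bd_stn (I : Finset E) {s t : ℕ} (hst : s ≤ t) (ht : t < C.l) :
    G.bd (C.stn I s t) = G.bd I + pr (C.pL I s) (C.qL I s t) := by
  have hs : s < C.l := by omega
  rcases hst.eq_or_lt with rfl | hst
  · rw [stn, C.seg_eq_empty (by omega), pair_eq_singleton, station_bd_erase, pL, qL, if_pos rfl]
    have h0 : I ∆ ∅ = I := symmDiff_bot I
    rw [h0]
    split_ifs
    · rw [(C.joins s hs).bd]
    · rw [pr_self]
  · have h1 : C.stn I s t = ((I ∆ C.seg (s + 1) t) \ {C.h s}) \ {C.h t} := by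
      rw [stn, sdiff_sdiff_left, sup_eq_union, ← insert_eq]
    have h2 : C.h s ∈ I ∆ C.seg (s + 1) t ↔ C.h s ∈ I := by
      simp [mem_symmDiff, C.h_mem_seg hs ht.le]
    have h3 : C.h t ∈ (I ∆ C.seg (s + 1) t) \ {C.h s} ↔ C.h t ∈ I := by
      simp [mem_symmDiff, C.h_mem_seg ht ht.le, C.h_eq_iff ht hs, hst.ne']
    rw [h1, station_bd_erase, station_bd_erase, Gr.bd_symmDiff, C.bd_seg hst ht.le,
      (C.joins s hs).bd, (C.joins t ht).bd, pL, qL, if_neg hst.ne]
    simp only [h2, h3]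
    split_ifs
    · rw [add_assoc, add_assoc, ← add_assoc (pr _ _), add_comm (pr _ _) (pr (C.v s) _), pr_add_pr,
        pr_add_pr]
    · rw [add_zero, add_assoc, add_comm (pr _ _), pr_add_pr]
    · rw [add_zero, add_assoc, pr_add_pr]
    · rw [add_zero, add_zero]

theorem wt_stn (x : E → ℝ) (hC : C.all ⊆ I ∆ F) {s t : ℕ} (hst : s ≤ t) (ht : t < C.l) :
    wt x I * wt x F = wt x {C.h s, C.h t} * (wt x (C.stn I s t) * wt x (C.stn F s t)) := by
  have hs : s < C.l := by omega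
  rw [← wt_symmDiff_mul x ((C.seg_subset_all (a := s + 1) ht.le).trans hC), stn, stn]
  refine station_wt_cut x ?_
  have h1 : (I ∆ C.seg (s + 1) t) ∆ (F ∆ C.seg (s + 1) t) = I ∆ F := by
    ext e
    simp only [mem_symmDiff]
    tauto
  rw [h1]
  exact insert_subset (hC (C.h_mem_all hs)) (singleton_subset_iff.2 (hC (C.h_mem_all ht)))

theorem stn_step (I : Finset E) {b t' t : ℕ} (hb : b ≤ t') (ht' : t' < t) (ht : t < C.l) :
    C.stn I b t = C.stn I b t' ∆ C.seg (t' + 1) t ∆ C.rr I b t' t := by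
  ext e
  by_cases he : ∃ j < C.l, e = C.h j
  · obtain ⟨j, hj, rfl⟩ := he
    have e1 := C.h_eq_iff hj (show b < C.l by omega)
    have e2 := C.h_eq_iff hj (show t' < C.l by omega)
    have e3 := C.h_eq_iff hj ht
    simp only [stn, rr, mem_symmDiff, mem_sdiff, mem_union, mem_insert, mem_singleton,
      C.h_mem_seg hj ht.le, C.h_mem_seg hj (show t' ≤ C.l by omega), apply_ite (C.h j ∈ ·),
      notMem_empty, e1, e2, e3, if_false_right]
    by_cases h1 : j = t
    · subst h1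
      by_cases hI : C.h j ∈ I <;> simp only [hI] <;> grind
    · by_cases h2 : j = t'
      · subst h2
        by_cases hI : C.h j ∈ I <;> simp only [hI] <;> grind
      · by_cases hI : C.h j ∈ I <;> simp only [hI] <;> grind
  · push Not at he
    have e1 := he b (by omega)
    have e2 := he t' (by omega)
    have e3 := he t ht
    simp [stn, rr, mem_symmDiff, C.not_mem_seg he ht.le,
      C.not_mem_seg he (show t' ≤ C.l by omega), apply_ite (e ∈ ·), e1, e2, e3]

theorem stn_zero (I : Finset E) : C.stn I 0 0 = I ∆ (I ∩ {C.h 0}) := by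
  rw [stn, C.seg_eq_empty (by omega)]
  ext e
  simp only [mem_symmDiff, mem_sdiff, mem_inter, mem_insert, mem_singleton, notMem_empty]
  tauto

theorem stn_last (hC : C.all ⊆ I ∆ F) :
    I ∆ C.all = C.stn I 0 (C.l - 1) ∆ (F ∩ {C.h 0, C.h (C.l - 1)}) := by
  have h2 := C.two_le
  ext e
  by_cases he : ∃ j < C.l, e = C.h j
  · obtain ⟨j, hj, rfl⟩ := he
    have e1 := C.h_eq_iff hj (show 0 < C.l by omega)
    have e2 := C.h_eq_iff hj (show C.l - 1 < C.l by omega)
    simp only [stn, mem_symmDiff, mem_sdiff, mem_inter, mem_insert, mem_singleton,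
      C.h_mem_seg hj (show C.l - 1 ≤ C.l by omega), C.h_mem_all hj, C.mem_iff hC hj, e1, e2]
    by_cases hI : C.h j ∈ I <;> simp only [hI] <;> grind
  · push Not at he
    have e1 := he 0 (by omega)
    have e2 := he (C.l - 1) (by omega)
    simp [stn, all, mem_symmDiff, C.not_mem_seg he le_rfl,
      C.not_mem_seg he (show C.l - 1 ≤ C.l by omega), e1, e2]

theorem rr_subset (I : Finset E) (b t' t : ℕ) : C.rr I b t' t ⊆ {C.h t', C.h t} := by
  rw [rr]
  split_ifs <;> simp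

/-- a station agrees with `I` on the later edges -/
theorem mem_stn_later (I : Finset E) {b t' j : ℕ} (hb : b ≤ t') (hj : t' < j) (hl : j < C.l) :
    C.h j ∈ C.stn I b t' ↔ C.h j ∈ I := by
  simp only [stn, mem_symmDiff, mem_sdiff, mem_insert, mem_singleton,
    C.h_mem_seg hl (show t' ≤ C.l by omega), C.h_eq_iff hl (show b < C.l by omega),
    C.h_eq_iff hl (show t' < C.l by omega)]
  grind

theorem not_mem_stn (I : Finset E) (b t : ℕ) : C.h t ∉ C.stn I b t := by
  simp [stn]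

theorem dat_eq (hl : ∀ e, G.src e ≠ G.tgt e) {C' : Cyc G} {I' : Finset E} {t t' : ℕ} (ht : t < C.l)
    (ht' : t' < C'.l) (h : C.dat I t = C'.dat I' t') :
    C.h t = C'.h t' ∧ C.v t = C'.v t' ∧ C.v (t + 1) = C'.v (t' + 1) ∧ (C.h t ∈ I ↔ C'.h t' ∈ I') := by
  simp only [dat, Prod.mk.injEq, decide_eq_decide] at h
  obtain ⟨h1, h2, h3⟩ := h
  have j1 := C.joins t ht
  have j2 := C'.joins t' ht'
  have := hl (C.h t)
  rw [← h1] at j2 h2
  refine ⟨h1, ?_, ?_, h3⟩ <;>
  · unfold Gr.Joins at j1 j2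
    grind

end Cyc

theorem stn_inj {G : Gr E V} (cy : Finset E → Cyc G) (s t : Finset E → ℕ) {I F I' F' : Finset E}
    (hC : (cy (I ∆ F)).all ⊆ I ∆ F) (hC' : (cy (I' ∆ F')).all ⊆ I' ∆ F')
    (h1 : s (I ∆ F) ≤ t (I ∆ F)) (h2 : t (I ∆ F) < (cy (I ∆ F)).l)
    (h1' : s (I' ∆ F') ≤ t (I' ∆ F')) (h2' : t (I' ∆ F') < (cy (I' ∆ F')).l)
    (d1 : (cy (I ∆ F)).dat I (s (I ∆ F)) = (cy (I' ∆ F')).dat I' (s (I' ∆ F')))
    (d2 : (cy (I ∆ F)).dat I (t (I ∆ F)) = (cy (I' ∆ F')).dat I' (t (I' ∆ F')))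
    (e1 : (cy (I ∆ F)).stn I (s (I ∆ F)) (t (I ∆ F)) = (cy (I' ∆ F')).stn I' (s (I' ∆ F')) (t (I' ∆ F')))
    (e2 : (cy (I ∆ F)).stn F (s (I ∆ F)) (t (I ∆ F)) = (cy (I' ∆ F')).stn F' (s (I' ∆ F')) (t (I' ∆ F'))) :
    I = I' ∧ F = F' := by
  have key : ∀ (C : Cyc G) {I F : Finset E} {s t : ℕ}, C.all ⊆ I ∆ F → s ≤ t → t < C.l →
      I ∆ F = (C.stn I s t ∆ C.stn F s t) ∪ {C.h s, C.h t} := by
    intro C I F s t hC hst ht
    have a1 := hC (C.h_mem_all ht)
    have a2 := hC (C.h_mem_all (show s < C.l by omega))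
    ext e
    simp only [Cyc.stn, mem_symmDiff, mem_sdiff, mem_union, mem_insert, mem_singleton] at a1 a2 ⊢
    by_cases b1 : e = C.h s
    · subst b1; tauto
    · by_cases b2 : e = C.h t
      · subst b2; tauto
      · tauto
  simp only [Cyc.dat, Prod.mk.injEq, decide_eq_decide] at d1 d2
  have hH : I ∆ F = I' ∆ F' := by
    conv_lhs => rw [key _ hC h1 h2]
    conv_rhs => rw [key _ hC' h1' h2']
    rw [e1, e2, d1.1, d2.1]
  have hI : I = I' := by
    rw [← hH] at d1 d2 e1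
    ext e
    have a := Finset.ext_iff.1 e1 e
    simp only [Cyc.stn, mem_symmDiff, mem_sdiff, mem_insert, mem_singleton] at a
    by_cases b1 : e = (cy (I ∆ F)).h (s (I ∆ F))
    · rw [b1]; exact d1.2.2
    · by_cases b2 : e = (cy (I ∆ F)).h (t (I ∆ F))
      · rw [b2]; exact d2.2.2
      · tauto
  subst hI
  exact ⟨rfl, symmDiff_right_injective I hH⟩

namespace Model

variable {M : Model E V} {I F : Finset E}

theorem stn_mem_Om (C : Cyc M.toGr) (hI : I ∈ M.Om 0) {s t : ℕ} (hst : s ≤ t) (ht : t < C.l) :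
    C.stn I s t ∈ M.Om (pr (C.pL I s) (C.qL I s t)) := by
  rw [mem_Om] at hI ⊢
  rw [C.bd_stn I hst ht, hI, add_zero]

theorem Ok.lab_le (hM : M.Ok) (C : Cyc M.toGr) (hC : C.all ⊆ I ∆ F) {s t : ℕ} (hst : s ≤ t) (ht : t < C.l)
    (hg : M.Good C s t) :
    wt M.x {C.h s, C.h t} * M.r (C.pL I s) (C.qL I s t) * M.r (C.pL F s) (C.qL F s t) ≤ LL E := by
  rcases hst.eq_or_lt with rfl | hst
  · refine le_trans ?_ (one_le_LL (E := E))
    have h := C.mem_iff hC ht
    have h1 := hM.rE1 (C.joins s ht)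
    rw [pair_eq_singleton, wt, prod_singleton, Cyc.qL, Cyc.qL, if_pos rfl, if_pos rfl, Cyc.pL,
      Cyc.pL]
    by_cases hI : C.h s ∈ I
    · rw [if_pos hI, if_neg (by tauto), hM.toPos.r_self, mul_one]
      exact h1
    · rw [if_neg hI, if_pos (by tauto), hM.toPos.r_self, mul_one]
      exact h1
  · have hs : s < C.l := by omega
    rw [wt, prod_pair (fun h => hst.ne (C.h_inj s hs t ht h))]
    exact (hg.resolve_left hst.ne) _ _ _ _ (C.joins_pL hC hs) (C.joins_qL hC hst ht)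

theorem Ok.base_le (hM : M.Ok) (C : Cyc M.toGr) (I : Finset E) {t : ℕ} (ht : t < C.l) :
    (if C.h t ∈ I then M.x (C.h t) else 1) * M.r (C.pL I t) (C.qL I t t) ≤ 1 := by
  rw [Cyc.pL, Cyc.qL, if_pos rfl]
  split_ifs
  · exact hM.rE1 (C.joins t ht)
  · rw [hM.toPos.r_self, mul_one]

theorem mem_PP {cy : Finset E → Cyc M.toGr} {p : Finset E × Finset E} :
    p ∈ M.PP cy ↔ p.1 ∈ M.Om 0 ∧ p.2 ∈ M.Om 0 ∧ (cy (p.1 ∆ p.2)).all ⊆ p.1 ∆ p.2 := by
  simp only [PP, mem_filter, mem_product, and_assoc]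

end Model

end Crest.Agent.R304
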